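import Vale.Agent.P154.Anti.Cert
import Vale.Agent.P154.Q3.Good3

/-!
# Three states, antiferromagnetic, `-1/9 ≤ lam ≤ 0`: the criterion holds
-/

namespace Vale.Agent.P154.Anti

open Finset Filter Topology Vale.Agent.P154.Tree
open Vale.Agent.P154.Q3 (Ex tSum tw flipTri sum_perm_three sqDev3)

theorem anti3_flip (v : Fin 3 → ℝ) :
    anti3 (flipTri v) = anti3 v ∧ aOf (flipTri v) = aOf v := by
  constructor <;> simp [anti3, cOf2, aOf, e2Of, flipTri] <;> ring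

theorem pair_sorted {u v : Fin 3 → ℝ} (hu : ∀ i, 0 ≤ u i) (hu1 : u 0 + u 1 + u 2 = 1)
    (hv : ∀ i, 0 ≤ v i) (hv1 : v 0 + v 1 + v 2 = 1)
    (a1 : u 1 ≤ u 0) (a2 : u 2 ≤ u 1) (b1 : v 1 ≤ v 0) (b2 : v 2 ≤ v 1) :
    ∑ s : Equiv.Perm (Fin 3), homExt anti3 (fun i => u i * shrink (-(1 / 9 : ℝ)) v (s i))
      ≤ 2 * (anti3 u + 1 / 81 * anti3 v - 4 / 1117800 * (aOf u * aOf v)) := by
  let x : Fin 6 → ℝ := ![u 2, u 0 - u 1, u 1 - u 2, v 2, v 0 - v 1, v 1 - v 2]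
  have hx : ∀ i, 0 ≤ x i := by
    intro i
    fin_cases i <;> simp [x] <;> linarith [hu 2, hv 2]
  have c1 := ev_nonneg_of_checkL check_rot x hx
  have c2 := ev_nonneg_of_checkL check_refl x hx
  simp only [ev_pairT] at c1 c2
  have eu : Ex.ev x (su3 0) = u 0 ∧ Ex.ev x (su3 1) = u 1 ∧ Ex.ev x (su3 2) = u 2 := by
    refine ⟨?_, ?_, ?_⟩ <;> simp [su3, x] <;> ring
  have ev : Ex.ev x (sv3 0) = v 0 ∧ Ex.ev x (sv3 1) = v 1 ∧ Ex.ev x (sv3 2) = v 2 := by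
    refine ⟨?_, ?_, ?_⟩ <;> simp [sv3, x] <;> ring
  rw [eu.1, eu.2.1, eu.2.2, ev.1, ev.2.1, ev.2.2] at c1 c2
  have r1 := rot_le hu hu1 hv hv1 c1
  have hf : ∀ i, 0 ≤ flipTri v i := fun i => by fin_cases i <;> simp [flipTri, hv]
  have r2 := rot_le (v := flipTri v) hu hu1 hf (by simp [flipTri]; linarith)
    (by simpa [flipTri] using c2)
  have hsh : flipTri (shrink (-(1 / 9 : ℝ)) v) = shrink (-(1 / 9 : ℝ)) (flipTri v) := by
    funext i
    fin_cases i <;> simp [flipTri, shrink]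
  have h1 : tSum anti3 u (shrink (-(1 / 9 : ℝ)) v) = homExt anti3 (rotV u v 0)
      + homExt anti3 (rotV u v 1) + homExt anti3 (rotV u v 2) := rfl
  have h2 : tSum anti3 u (shrink (-(1 / 9 : ℝ)) (flipTri v))
      = homExt anti3 (rotV u (flipTri v) 0) + homExt anti3 (rotV u (flipTri v) 1)
        + homExt anti3 (rotV u (flipTri v) 2) := rfl
  rw [(anti3_flip v).1, (anti3_flip v).2] at r2
  rw [sum_perm_three, hsh, h1, h2]
  linarith

theorem anti3_comp (σ : Equiv.Perm (Fin 3)) (u : Fin 3 → ℝ) :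
    anti3 (u ∘ σ) = anti3 u ∧ aOf (u ∘ σ) = aOf u := by
  have hp : (u ∘ σ) 0 * (u ∘ σ) 1 * (u ∘ σ) 2 = u 0 * u 1 * u 2 := by
    have := Equiv.prod_comp σ u
    simpa [Fin.prod_univ_three] using this
  have h1 : (u ∘ σ) 0 + (u ∘ σ) 1 + (u ∘ σ) 2 = u 0 + u 1 + u 2 := by
    have := Equiv.sum_comp σ u
    simpa [Fin.sum_univ_three] using this
  have h2 : (u ∘ σ) 0 ^ 2 + (u ∘ σ) 1 ^ 2 + (u ∘ σ) 2 ^ 2 = u 0 ^ 2 + u 1 ^ 2 + u 2 ^ 2 := by
    have := Equiv.sum_comp σ (fun i => u i ^ 2)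
    simpa [Fin.sum_univ_three] using this
  have he : e2Of (u ∘ σ) = e2Of u := by
    have r : ∀ a b c : ℝ, a * b + b * c + c * a = ((a + b + c) ^ 2 - (a ^ 2 + b ^ 2 + c ^ 2)) / 2 :=
      fun a b c => by ring
    rw [e2Of, e2Of, r, r, h1, h2]
  have ha : aOf (u ∘ σ) = aOf u := by rw [aOf, aOf, he]
  have hc : cOf2 (u ∘ σ) = cOf2 u := by rw [cOf2, cOf2, hp, ha]
  exact ⟨by rw [anti3, anti3, ha, hc], ha⟩

theorem homExt_anti3_comp (σ : Equiv.Perm (Fin 3)) (z : Fin 3 → ℝ) :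
    homExt anti3 (z ∘ σ) = homExt anti3 z := by
  have hs : ∑ j, (z ∘ σ) j = ∑ j, z j := Equiv.sum_comp σ z
  simp only [homExt, hs]
  exact congrArg _ (anti3_comp σ (fun j => z j / ∑ k, z k)).1

theorem pairSum_comp (lam : ℝ) (σ τ : Equiv.Perm (Fin 3)) (u v : Fin 3 → ℝ) :
    ∑ s : Equiv.Perm (Fin 3), homExt anti3 (fun i => (u ∘ σ) i * shrink lam (v ∘ τ) (s i))
      = ∑ s : Equiv.Perm (Fin 3), homExt anti3 (fun i => u i * shrink lam v (s i)) := by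
  refine Fintype.sum_equiv ((Equiv.mulRight σ⁻¹).trans (Equiv.mulLeft τ)) _ _ fun s => ?_
  have e : (fun i => (u ∘ σ) i * shrink lam (v ∘ τ) (s i))
      = (fun j => u j * shrink lam v
          (((Equiv.mulRight σ⁻¹).trans (Equiv.mulLeft τ)) s j)) ∘ σ := by
    funext i
    simp [shrink, Equiv.Perm.mul_apply]
  rw [e, homExt_anti3_comp]

theorem exists_sector (u : Fin 3 → ℝ) :
    ∃ σ : Equiv.Perm (Fin 3), (u ∘ σ) 1 ≤ (u ∘ σ) 0 ∧ (u ∘ σ) 2 ≤ (u ∘ σ) 1 := by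
  refine ⟨Tuple.sort (fun i => -u i), ?_, ?_⟩
  · have := Tuple.monotone_sort (fun i => -u i) (show (0 : Fin 3) ≤ 1 by decide)
    simp only [Function.comp_apply] at this ⊢
    linarith
  · have := Tuple.monotone_sort (fun i => -u i) (show (1 : Fin 3) ≤ 2 by decide)
    simp only [Function.comp_apply] at this ⊢
    linarith

theorem aOf_eq {u : Fin 3 → ℝ} (hu : u 0 + u 1 + u 2 = 1) : aOf u = 3 / 2 * sqDev u := by
  have e : u 2 = 1 - u 0 - u 1 := by linarith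
  rw [sqDev3, aOf, e2Of, e]
  ring

theorem pair_ninth (u v : Fin 3 → ℝ) (hu : ∀ i, 0 ≤ u i) (hu1 : ∑ i, u i = 1)
    (hv : ∀ i, 0 ≤ v i) (hv1 : ∑ i, v i = 1) :
    ∑ s : Equiv.Perm (Fin 3), homExt anti3 (fun i => u i * shrink (-(1 / 9 : ℝ)) v (s i))
      ≤ ((3 : ℕ).factorial : ℝ) / (3 : ℕ)
        * (anti3 u + (-(1 / 9 : ℝ)) ^ 2 * anti3 v - 1 / 124200 * sqDev u * sqDev v) := by
  rw [Fin.sum_univ_three] at hu1 hv1
  obtain ⟨σ, a1, a2⟩ := exists_sector u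
  obtain ⟨τ, b1, b2⟩ := exists_sector v
  have s1 : (u ∘ σ) 0 + (u ∘ σ) 1 + (u ∘ σ) 2 = 1 := by
    have := Equiv.sum_comp σ u
    simp only [Fin.sum_univ_three] at this
    simpa [hu1] using this
  have s2 : (v ∘ τ) 0 + (v ∘ τ) 1 + (v ∘ τ) 2 = 1 := by
    have := Equiv.sum_comp τ v
    simp only [Fin.sum_univ_three] at this
    simpa [hv1] using this
  have h := pair_sorted (u := u ∘ σ) (v := v ∘ τ) (fun i => hu _) s1 (fun i => hv _) s2 a1 a2 b1 b2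
  rw [pairSum_comp, (anti3_comp σ u).1, (anti3_comp σ u).2, (anti3_comp τ v).1,
    (anti3_comp τ v).2, aOf_eq hu1, aOf_eq hv1] at h
  refine h.trans (le_of_eq ?_)
  norm_num [Nat.factorial]
  ring

/-- The potential dominates `A`. -/
theorem anti3_lower (u : Fin 3 → ℝ) : aOf u ≤ anti3 u := by
  have : 0 ≤ 5 * aOf u ^ 2 + 6 * cOf2 u ^ 2 - 9 * (aOf u * cOf2 u) := by
    nlinarith [sq_nonneg (10 * aOf u - 9 * cOf2 u), sq_nonneg (cOf2 u)]
  unfold anti3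
  linarith

theorem aOf_shrink (c : ℝ) {v : Fin 3 → ℝ} (hv : v 0 + v 1 + v 2 = 1) :
    aOf (shrink c v) = c ^ 2 * aOf v ∧ cOf2 (shrink c v) = c ^ 3 * cOf2 v := by
  have e : v 2 = 1 - v 0 - v 1 := by linarith
  constructor <;> simp [cOf2, aOf, e2Of, shrink, e] <;> ring

theorem anti3_shrink {c : ℝ} (h0 : 0 ≤ c) (h1 : c ≤ 1) {v : Fin 3 → ℝ}
    (hv : v 0 + v 1 + v 2 = 1) : anti3 (shrink c v) ≤ c ^ 2 * anti3 v := by
  obtain ⟨ha, hc⟩ := aOf_shrink c hv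
  rw [anti3, anti3, ha, hc]
  generalize aOf v = a
  generalize cOf2 v = s
  have key : 0 ≤ 5 * a ^ 2 * (1 + c) + 6 * s ^ 2 * ((1 + c) * (1 + c ^ 2))
      - 9 * (a * s) * (1 + c + c ^ 2) := by
    nlinarith [sq_nonneg (10 * a * (1 + c) - 9 * s * (1 + c + c ^ 2)), sq_nonneg s,
      mul_nonneg h0 (sq_nonneg s), mul_nonneg (mul_nonneg h0 h0) (sq_nonneg s),
      mul_nonneg (pow_nonneg h0 3) (sq_nonneg s), mul_nonneg (pow_nonneg h0 4) (sq_nonneg s)]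
  nlinarith [mul_nonneg (mul_nonneg (sq_nonneg c) (sub_nonneg.2 h1)) key]

theorem shrink_onSimplex {c : ℝ} (h0 : 0 ≤ c) (h1 : c ≤ 1) {v : Fin 3 → ℝ} (hv : ∀ i, 0 ≤ v i)
    (hv1 : ∑ i, v i = 1) : (∀ i, 0 ≤ shrink c v i) ∧ ∑ i, shrink c v i = 1 := by
  constructor
  · intro i
    unfold shrink
    push_cast
    nlinarith [mul_nonneg h0 (hv i)]
  · simp only [shrink, Fin.sum_univ_three] at hv1 ⊢
    push_cast
    linear_combination c * hv1

theorem anti3_bdd {u : Fin 3 → ℝ} (hu : ∀ i, 0 ≤ u i) (hu1 : ∑ i, u i = 1) :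
    |anti3 u| ≤ 10 := by
  rw [Fin.sum_univ_three] at hu1
  have e : u 2 = 1 - u 0 - u 1 := by linarith
  have p := hu 0
  have q := hu 1
  have r := hu 2
  have a0 : 0 ≤ aOf u := by
    simp only [aOf, e2Of, e]
    nlinarith [sq_nonneg (u 0 - u 1), sq_nonneg (u 0 + u 1 - 2 / 3)]
  have a1 : aOf u ≤ 1 := by
    simp only [aOf, e2Of]
    nlinarith [mul_nonneg p q, mul_nonneg q r, mul_nonneg r p]
  have pq : u 0 * u 1 * u 2 ≤ 1 := by
    have : u 0 * u 1 ≤ 1 := by nlinarith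
    nlinarith [mul_nonneg p q]
  have pq0 : 0 ≤ u 0 * u 1 * u 2 := mul_nonneg (mul_nonneg p q) r
  have c0 : |cOf2 u| ≤ 30 := by
    rw [abs_le, cOf2]
    constructor <;> linarith
  have hs : 27 * (u 0 * u 1 * u 2) ≤ 1 := by
    have key : 27 * (u 0 * u 1 * u 2) ≤ (u 0 + u 1 + u 2) ^ 3 := by
      nlinarith [mul_nonneg p (sq_nonneg (u 1 - u 2)), mul_nonneg q (sq_nonneg (u 0 - u 2)),
        mul_nonneg r (sq_nonneg (u 0 - u 1)), mul_nonneg (add_nonneg (add_nonneg p q) r)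
          (add_nonneg (add_nonneg (sq_nonneg (u 0 - u 1)) (sq_nonneg (u 1 - u 2)))
            (sq_nonneg (u 0 - u 2)))]
    rw [hu1] at key
    linarith
  have c1 : -1 ≤ cOf2 u ∧ cOf2 u ≤ 3 := by
    rw [cOf2]
    constructor <;> linarith
  rw [abs_le, anti3]
  constructor <;> nlinarith [sq_nonneg (aOf u), mul_le_mul_of_nonneg_left a1 a0]

theorem pot_three {lam : ℝ} (h0 : -(1 / 9) ≤ lam) (h1 : lam ≤ 0) :
    Pot 3 lam anti3 (3 / 2) (1 / 124200 * (81 * lam ^ 2)) where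
  apos := by norm_num
  cnn := by positivity
  bdd := ⟨10, fun _ h h' => anti3_bdd h h'⟩
  uniform := by norm_num [anti3, cOf2, aOf, e2Of]
  lower u _ hu1 := by
    rw [Fin.sum_univ_three] at hu1
    rw [← aOf_eq hu1]
    exact anti3_lower u
  pair u v hu hu1 hv hv1 := by
    have c0 : (0 : ℝ) ≤ -9 * lam := by linarith
    have c1 : -9 * lam ≤ 1 := by linarith
    obtain ⟨w0, w1⟩ := shrink_onSimplex c0 c1 hv hv1
    have h := pair_ninth u _ hu hu1 w0 w1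
    have e : shrink (-(1 / 9 : ℝ)) (shrink (-9 * lam) v) = shrink lam v := by
      funext i
      simp only [shrink]
      push_cast
      ring
    rw [e] at h
    have hv3 : v 0 + v 1 + v 2 = 1 := by rwa [Fin.sum_univ_three] at hv1
    have hm := anti3_shrink c0 c1 hv3
    have hw3 : shrink (-9 * lam) v 0 + shrink (-9 * lam) v 1 + shrink (-9 * lam) v 2 = 1 := by
      rwa [Fin.sum_univ_three] at w1
    have hd : sqDev (shrink (-9 * lam) v) = (-9 * lam) ^ 2 * sqDev v := by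
      have a := (aOf_shrink (-9 * lam) hv3).1
      rw [aOf_eq hw3, aOf_eq hv3] at a
      linarith
    rw [hd] at h
    refine h.trans (mul_le_mul_of_nonneg_left ?_ (by positivity))
    have := mul_le_mul_of_nonneg_left hm (show (0 : ℝ) ≤ (-(1 / 9)) ^ 2 by positivity)
    nlinarith [this]

theorem branch_adm {lam : ℝ} (h0 : -(1 / 9) ≤ lam) (h1 : lam ≤ 0) : Adm 3 lam :=
  adm_of_range (by norm_num) (by push_cast; linarith) (by linarith)

/-- Antiferromagnetic three-state channels with `-1/9 ≤ lam ≤ 0`: nonreconstruction up to the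
Kesten-Stigum bound on every Galton-Watson tree. -/
theorem tendsto_adv_anti_three {w : ℕ → ℝ} {d lam : ℝ} (hw : IsLaw w d)
    (h0 : -(1 / 9) ≤ lam) (h1 : lam ≤ 0)
    (hd : d * lam ^ 2 < 1 ∨ (d * lam ^ 2 ≤ 1 ∧ 0 < branchProb w)) :
    Tendsto (adv 3 w lam) atTop (𝓝 0) := by
  rcases eq_or_ne lam 0 with h | h
  · refine tendsto_adv_of_pot (pot_three h0 h1) hw (branch_adm h0 h1) (Or.inl ?_)
    subst h
    norm_num
  · refine tendsto_adv_of_pot (pot_three h0 h1) hw (branch_adm h0 h1) ?_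
    rcases hd with e | ⟨e, e'⟩
    · exact Or.inl e
    · exact Or.inr ⟨e, by positivity, e'⟩

/-- Regular trees. -/
theorem regular_anti_three {d : ℕ} (hd : 2 ≤ d) {lam : ℝ} (h0 : -(1 / 9) ≤ lam) (h1 : lam ≤ 0)
    (h : (d : ℝ) * lam ^ 2 ≤ 1) : Tendsto (adv 3 (regLaw d) lam) atTop (𝓝 0) :=
  tendsto_adv_anti_three (isLaw_regLaw d) h0 h1
    (Or.inr ⟨h, by rw [branchProb_regLaw hd]; exact one_pos⟩)

/-- Regular trees with at least `81` children, every admissible negative parameter. -/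
theorem regular_anti_three_large {d : ℕ} (hd : 81 ≤ d) {lam : ℝ} (h1 : lam ≤ 0)
    (h : (d : ℝ) * lam ^ 2 ≤ 1) : Tendsto (adv 3 (regLaw d) lam) atTop (𝓝 0) := by
  have hdr : (81 : ℝ) ≤ d := by exact_mod_cast hd
  refine regular_anti_three (by omega) ?_ h1 h
  nlinarith [sq_nonneg lam]

/-- Poisson trees. -/
theorem poisson_anti_three {d : ℝ} (hd : 0 ≤ d) {lam : ℝ} (h0 : -(1 / 9) ≤ lam) (h1 : lam ≤ 0)
    (h : d * lam ^ 2 ≤ 1) : Tendsto (adv 3 (poissonLaw d) lam) atTop (𝓝 0) := by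
  refine tendsto_adv_anti_three (isLaw_poissonLaw hd) h0 h1 ?_
  rcases hd.eq_or_lt with e | e
  · left
    rw [← e]
    norm_num
  · exact Or.inr ⟨h, branchProb_poissonLaw_pos e⟩

/-- Poisson trees with mean at least `81`, every negative parameter. -/
theorem poisson_anti_three_large {d : ℝ} (hd : 81 ≤ d) {lam : ℝ} (h1 : lam ≤ 0)
    (h : d * lam ^ 2 ≤ 1) : Tendsto (adv 3 (poissonLaw d) lam) atTop (𝓝 0) := by
  refine poisson_anti_three (by linarith) ?_ h1 h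
  nlinarith [sq_nonneg lam]

end Vale.Agent.P154.Anti
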