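import Vale.Agent.P154.Anti.MultLin
import Mathlib.Data.Fin.Tuple.Sort

/-!
# Three spins: the potential, relabelling, reduction to sorted points
-/

namespace Vale.Agent.P154.Anti

open Finset Vale.Agent.P154.Tree

variable {q : ℕ}

/-- The symmetrised potential does not see the labels. -/
theorem phi_relabel (a u : Fin q → ℝ) (s : Equiv.Perm (Fin q)) :
    phi a (fun i => u (s i)) = phi a u := by
  simp only [phi]
  congr 2
  exact Equiv.sum_comp (Equiv.mulLeft s) fun σ : Equiv.Perm (Fin q) => ex a fun i => u (σ i)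

/-- The shrinking commutes with relabelling. -/
theorem shrink_relabel (lam : ℝ) (u : Fin q → ℝ) (s : Equiv.Perm (Fin q)) :
    shrink lam (fun i => u (s i)) = fun i => shrink lam u (s i) := rfl

/-- The squared deviation does not see the labels. -/
theorem sqDev_relabel (u : Fin q → ℝ) (s : Equiv.Perm (Fin q)) :
    sqDev (fun i => u (s i)) = sqDev u :=
  Equiv.sum_comp s fun i => (u i - 1 / q) ^ 2

/-- The potential at three spins as six products. -/
theorem phi3_eq (a u : Fin 3 → ℝ) :
    phi a u = 1 - 1 / 2 *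
      (ex (fun i => a (![0, 1, 2] i)) u + ex (fun i => a (![0, 2, 1] i)) u
        + ex (fun i => a (![1, 0, 2] i)) u + ex (fun i => a (![1, 2, 0] i)) u
        + ex (fun i => a (![2, 0, 1] i)) u + ex (fun i => a (![2, 1, 0] i)) u) := by
  have huniv : (univ : Finset (Equiv.Perm (Fin 3)))
      = {1, Equiv.swap 0 1 * Equiv.swap 1 2, Equiv.swap 1 2 * Equiv.swap 0 1, Equiv.swap 1 2,
        Equiv.swap 0 2, Equiv.swap 0 1} := by decide
  have e : ∀ (s : Equiv.Perm (Fin 3)) (i j k : Fin 3), s 0 = i → s 1 = j → s 2 = k →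
      ex a (fun l => u (s l)) = u i ^ a 0 * u j ^ a 1 * u k ^ a 2 := by
    intro s i j k hi hj hk
    simp only [ex, Fin.prod_univ_three, hi, hj, hk]
  rw [phi, huniv, sum_insert (by decide), sum_insert (by decide), sum_insert (by decide),
    sum_insert (by decide), sum_insert (by decide), sum_singleton, e 1 0 1 2 rfl rfl rfl,
    e (Equiv.swap 0 1 * Equiv.swap 1 2) 1 2 0 (by decide) (by decide) (by decide),
    e (Equiv.swap 1 2 * Equiv.swap 0 1) 2 0 1 (by decide) (by decide) (by decide),
    e (Equiv.swap 1 2) 0 2 1 (by decide) (by decide) (by decide),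
    e (Equiv.swap 0 2) 2 1 0 (by decide) (by decide) (by decide),
    e (Equiv.swap 0 1) 1 0 2 (by decide) (by decide) (by decide)]
  simp only [ex, Fin.prod_univ_three, Matrix.cons_val_zero, Matrix.cons_val_one, Matrix.cons_val]
  norm_num [Nat.factorial]
  ring

/-- A symmetric property holds on the simplex as soon as it holds at the sorted points. -/
theorem sorted_cases {P : (Fin 3 → ℝ) → Prop}
    (hinv : ∀ (u : Fin 3 → ℝ) (s : Equiv.Perm (Fin 3)), P (fun i => u (s i)) → P u)
    (h : ∀ u : Fin 3 → ℝ, (∀ i, 0 ≤ u i) → ∑ i, u i = 1 → u 2 ≤ u 1 → u 1 ≤ u 0 → P u)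
    {u : Fin 3 → ℝ} (h0 : ∀ i, 0 ≤ u i) (h1 : ∑ i, u i = 1) : P u := by
  have hm := Tuple.monotone_sort u
  refine hinv u (Fin.revPerm.trans (Tuple.sort u)) (h _ (fun i => h0 _) ?_ ?_ ?_)
  · rw [Equiv.sum_comp (Fin.revPerm.trans (Tuple.sort u)) u, h1]
  · exact hm (a := (0 : Fin 3)) (b := 1) (by decide)
  · exact hm (a := (1 : Fin 3)) (b := 2) (by decide)

end Vale.Agent.P154.Anti
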