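import Vale.Agent.P154.Anti.BoxTerm
import Vale.Agent.P154.Anti.Phi3

/-!
# The kernel checker for linear inequalities between defects on the simplex

A vector is a list of integer weights for the basis `phi (n / N) (shrink (ln / ld) u)`, an
integer weight of `sqDev` and a constant. A tree of boxes shows that each vector is nonnegative
on the simplex; a box discharges the vectors for which its cubic models are nonnegative.
-/

namespace Vale.Agent.P154.Anti.Box

open Finset Vale.Agent.P154.Tree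

/-- A basis function: exponents and edge parameter. -/
structure Basis where
  n : N3
  e : Side
deriving DecidableEq

/-- A linear combination. -/
structure Vec where
  w : List ℤ
  mu : ℤ
  k : ℤ

/-- The common data. -/
structure Cfg where
  D : ℤ
  S : ℤ
  N : ℕ
  basis : List Basis
  vecs : List Vec

/-- The distinct rearrangements of exponents with multiplicities. -/
def perms (n : N3) : List (ℕ × N3) :=
  if n.n0 = n.n1 ∧ n.n1 = n.n2 then [(6, n)]
  else if n.n0 = n.n1 then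
    [(2, n), (2, ⟨n.n0, n.n2, n.n1⟩), (2, ⟨n.n2, n.n0, n.n1⟩)]
  else [(1, n), (1, ⟨n.n0, n.n2, n.n1⟩), (1, ⟨n.n1, n.n0, n.n2⟩), (1, ⟨n.n1, n.n2, n.n0⟩),
    (1, ⟨n.n2, n.n0, n.n1⟩), (1, ⟨n.n2, n.n1, n.n0⟩)]

/-- Models of a weighted sum of geometric means with the validity check. -/
def sumModels (S : ℤ) (N : ℕ) (F : Fam) : List (ℕ × N3) → List Root → Bool × P10 × P10
  | [], [] => (true, P10.const 0, P10.const 0)
  | (m, n) :: ps, r :: rs =>
    let a := rootModels S N n F r
    let b := sumModels S N F ps rs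
    (decide (n.n0 + n.n1 + n.n2 = N) && a.1 && b.1, P10.add (P10.smul m a.2.1) b.2.1,
      P10.add (P10.smul m a.2.2) b.2.2)
  | _, _ => (false, P10.const 0, P10.const 0)

/-- Models of twice a defect, in units of `1 / S`. -/
def phiModels (C : Cfg) (b : Bx) (B : Basis) (rs : List Root) : Bool × P10 × P10 :=
  let F := fam C.D b B.e
  let m := sumModels C.S C.N F (perms B.n) rs
  (famOk F && decide (0 < B.e.ld) && m.1,
    P10.add (P10.const (2 * C.S)) (P10.smul (-1) m.2.2),
    P10.add (P10.const (2 * C.S)) (P10.smul (-1) m.2.1))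

/-- Models of all basis functions. -/
def allModels (C : Cfg) (b : Bx) : List Basis → List (List Root) → Bool × List (P10 × P10)
  | [], [] => (true, [])
  | B :: Bs, r :: rs =>
    let a := phiModels C b B r
    let t := allModels C b Bs rs
    (a.1 && t.1, a.2 :: t.2)
  | _, _ => (false, [])

/-- The squared deviation times `9 D²`. -/
def sqNum (D : ℤ) (b : Bx) : P10 :=
  let d0 := 3 * (D - b.p - b.q) - D
  let d1 := 3 * b.q - D
  let d2 := 3 * b.p - D
  ⟨d0 ^ 2 + d1 ^ 2 + d2 ^ 2, 6 * b.hp * (d2 - d0), 6 * b.hq * (d1 - d0), 18 * b.hp ^ 2,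
    18 * b.hp * b.hq, 18 * b.hq ^ 2, 0, 0, 0, 0⟩

/-- The weighted part of a vector. -/
def comb : List ℤ → List (P10 × P10) → P10
  | w :: ws, m :: ms =>
    if w = 0 then comb ws ms
    else P10.add (P10.smul w (if 0 ≤ w then m.1 else m.2)) (comb ws ms)
  | _, _ => P10.const 0

/-- The lower model of twice a vector. -/
def vecPoly (C : Cfg) (b : Bx) (ms : List (P10 × P10)) (v : Vec) : P10 :=
  let sq := P10.quo (P10.smul (2 * C.S) (sqNum C.D b)) (9 * C.D ^ 2)
  P10.add (comb v.w ms)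
    (P10.add (P10.const (2 * C.S * v.k))
      (P10.add (P10.smul v.mu sq) (P10.const (-10 * |v.mu|))))

/-- The halves of a box. -/
def half (b : Bx) : Bool → Bx × Bx
  | true => (⟨b.p - b.hp / 2, b.q, b.hp / 2, b.hq⟩, ⟨b.p + b.hp / 2, b.q, b.hp / 2, b.hq⟩)
  | false => (⟨b.p, b.q - b.hq / 2, b.hp, b.hq / 2⟩, ⟨b.p, b.q + b.hq / 2, b.hp, b.hq / 2⟩)

/-- The halving is exact. -/
def halfOk (b : Bx) : Bool → Bool
  | true => decide (2 * (b.hp / 2) = b.hp)
  | false => decide (2 * (b.hq / 2) = b.hq)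

/-- The box misses the sorted part of the simplex. -/
def outside (D : ℤ) (b : Bx) : Bool :=
  decide (b.q + |b.hq| < b.p - |b.hp|) || decide (D < b.p - |b.hp| + 2 * (b.q - |b.hq|))

/-- A certificate tree. -/
inductive CTree where
  | skip
  | leaf (R : List (List Root))
  | split (axis : Bool) (l r : CTree)
  | part (R : List (List Root)) (ok : List ℕ) (t : CTree)

/-- The vectors with the given indices are nonnegative on the box. -/
def okBox (C : Cfg) (b : Bx) (R : List (List Root)) (ids : List ℕ) : Bool :=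
  let m := allModels C b C.basis R
  m.1 && ids.all fun i => P10.nonneg (vecPoly C b m.2 (C.vecs.getD i ⟨[], 0, 0⟩))

/-- The checker. -/
def check (C : Cfg) : CTree → Bx → List ℕ → Bool
  | .skip, b, ids => ids.isEmpty || outside C.D b
  | .leaf R, b, ids => okBox C b R ids
  | .split ax l r, b, ids =>
    halfOk b ax && check C l (half b ax).1 ids && check C r (half b ax).2 ids
  | .part R ok t, b, ids => okBox C b R ok && check C t b (ids.filter fun i => !ok.contains i)

/-- The box around the sorted part of the simplex. -/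
def root (D : ℤ) : Bx := ⟨D / 6, D / 4, D / 6, D / 4⟩

/-- The complete check of a certificate. -/
def checkAll (C : Cfg) (t : CTree) : Bool :=
  decide (0 < C.D) && decide (C.D % 12 = 0) && decide (0 < C.S) && decide (C.N ≠ 0)
    && check C t (root C.D) (List.range C.vecs.length)

/-- The exponents of a basis function. -/
noncomputable def Basis.expo (B : Basis) : Fin 3 → ℝ := expo3 B.n

/-- The value of a basis function. -/
noncomputable def Basis.val (B : Basis) (u : Fin 3 → ℝ) : ℝ :=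
  phi B.expo (shrink ((B.e.ln : ℝ) / B.e.ld) u)

/-- The weighted sum of basis functions. -/
noncomputable def wsum : List ℤ → List Basis → (Fin 3 → ℝ) → ℝ
  | w :: ws, B :: Bs, u => w * B.val u + wsum ws Bs u
  | _, _, _ => 0

/-- The value of a vector. -/
noncomputable def Vec.val (C : Cfg) (v : Vec) (u : Fin 3 → ℝ) : ℝ :=
  wsum v.w C.basis u + v.mu * sqDev u + v.k

/-- The point of a box at parameters in the square. -/
noncomputable def Bx.pt (D : ℤ) (b : Bx) (s t : ℝ) : Fin 3 → ℝ :=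
  ![(D - b.p - b.q - b.hp * s - b.hq * t) / D, (b.q + b.hq * t) / D, (b.p + b.hp * s) / D]

variable {C : Cfg} {b : Bx} {s t : ℝ}

theorem shrink_pt (hD : (C.D : ℝ) ≠ 0) (e : Side) (he : (e.ld : ℝ) ≠ 0) :
    shrink ((e.ln : ℝ) / e.ld) (b.pt C.D s t) = (fam C.D b e).pt s t := by
  funext i
  simp only [shrink, Fam.pt, fam]
  fin_cases i <;> simp [Bx.pt, Z3.fn] <;> field_simp <;> ring

theorem perms_sound (n : N3) {N : ℕ} (x : Fin 3 → ℝ) (hn : n.n0 + n.n1 + n.n2 = N) :
    ((perms n).map fun p => (p.1 : ℝ) * ex (expo3 p.2) x).sum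
      = ex (fun i => expo3 n (![0, 1, 2] i)) x + ex (fun i => expo3 n (![0, 2, 1] i)) x
        + ex (fun i => expo3 n (![1, 0, 2] i)) x + ex (fun i => expo3 n (![1, 2, 0] i)) x
        + ex (fun i => expo3 n (![2, 0, 1] i)) x + ex (fun i => expo3 n (![2, 1, 0] i)) x := by
  obtain ⟨a, b, c⟩ := n
  simp only at hn
  have e : ∀ i : Fin 3, expo3 ⟨a, b, c⟩ i = (![a, b, c] i : ℝ) / N := fun i => by
    rw [expo3_apply hn]; rfl
  simp only [ex, Fin.prod_univ_three, perms]
  split_ifs with h1 h2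
  · obtain ⟨rfl, rfl⟩ := h1
    simp [e, N3.fn]
    ring
  · subst h2
    simp [e, expo3_apply (N := N) (n := ⟨a, c, a⟩) (by simp; omega),
      expo3_apply (N := N) (n := ⟨c, a, a⟩) (by simp; omega), N3.fn]
    ring
  · simp [e, expo3_apply (N := N) (n := ⟨a, c, b⟩) (by simp; omega),
      expo3_apply (N := N) (n := ⟨b, a, c⟩) (by simp; omega),
      expo3_apply (N := N) (n := ⟨b, c, a⟩) (by simp; omega),
      expo3_apply (N := N) (n := ⟨c, a, b⟩) (by simp; omega),
      expo3_apply (N := N) (n := ⟨c, b, a⟩) (by simp; omega), N3.fn]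
    ring

theorem sumModels_sound {S : ℤ} {N : ℕ} {F : Fam} (hF : famOk F = true) (hN : N ≠ 0)
    (hS : 0 < S) (hs : |s| ≤ 1) (ht : |t| ≤ 1) :
    ∀ (ps : List (ℕ × N3)) (rs : List Root), (sumModels S N F ps rs).1 = true →
      (sumModels S N F ps rs).2.1.ev s t
          ≤ (S : ℝ) * (ps.map fun p => (p.1 : ℝ) * ex (expo3 p.2) (F.pt s t)).sum ∧
        (S : ℝ) * (ps.map fun p => (p.1 : ℝ) * ex (expo3 p.2) (F.pt s t)).sum
          ≤ (sumModels S N F ps rs).2.2.ev s t
  | [], [], _ => by simp [sumModels, P10.ev_const]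
  | [], _ :: _, h => by simp [sumModels] at h
  | _ :: _, [], h => by simp [sumModels] at h
  | (m, n) :: ps, r :: rs, h => by
    simp only [sumModels, Bool.and_eq_true, decide_eq_true_eq] at h
    obtain ⟨⟨hn, ha⟩, hb⟩ := h
    obtain ⟨a1, a2⟩ := rootModels_sound hF hN hn hS hs ht ha
    obtain ⟨b1, b2⟩ := sumModels_sound hF hN hS hs ht ps rs hb
    have hm : (0 : ℝ) ≤ (m : ℝ) := Nat.cast_nonneg m
    have c1 := mul_le_mul_of_nonneg_left a1 hm
    have c2 := mul_le_mul_of_nonneg_left a2 hm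
    simp only [sumModels, List.map_cons, List.sum_cons, P10.ev_add, P10.ev_smul, Int.cast_natCast]
    constructor <;> linarith

theorem phiModels_sound (hD : 0 < C.D) (hN : C.N ≠ 0) (hS : 0 < C.S) (hs : |s| ≤ 1)
    (ht : |t| ≤ 1) {B : Basis} {rs : List Root} (h : (phiModels C b B rs).1 = true) :
    (phiModels C b B rs).2.1.ev s t ≤ 2 * C.S * B.val (b.pt C.D s t) ∧
      2 * C.S * B.val (b.pt C.D s t) ≤ (phiModels C b B rs).2.2.ev s t := by
  simp only [phiModels, Bool.and_eq_true, decide_eq_true_eq] at h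
  obtain ⟨⟨hF, hld⟩, hm⟩ := h
  have hn : B.n.n0 + B.n.n1 + B.n.n2 = C.N := by
    by_contra hc
    revert hm
    simp only [perms]
    split_ifs <;> rcases rs with _ | ⟨r, rs⟩ <;> simp [sumModels, hc]
  obtain ⟨a1, a2⟩ := sumModels_sound hF hN hS hs ht _ _ hm
  have hval : 2 * (C.S : ℝ) * B.val (b.pt C.D s t) = 2 * C.S - C.S *
      ((perms B.n).map fun p => (p.1 : ℝ) * ex (expo3 p.2) ((fam C.D b B.e).pt s t)).sum := by
    rw [Basis.val, shrink_pt (by exact_mod_cast hD.ne') _ (by exact_mod_cast hld.ne'),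
      phi3_eq, Basis.expo, perms_sound B.n _ hn]
    ring
  rw [hval]
  simp only [phiModels, P10.ev_add, P10.ev_smul, P10.ev_const]
  push_cast
  constructor <;> linarith

theorem allModels_sound (hD : 0 < C.D) (hN : C.N ≠ 0) (hS : 0 < C.S) (hs : |s| ≤ 1)
    (ht : |t| ≤ 1) : ∀ (Bs : List Basis) (R : List (List Root)) (ws : List ℤ),
      (allModels C b Bs R).1 = true →
      (comb ws (allModels C b Bs R).2).ev s t ≤ 2 * C.S * wsum ws Bs (b.pt C.D s t)
  | [], [], ws, _ => by cases ws <;> simp [allModels, comb, wsum, P10.ev_const]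
  | [], _ :: _, _, h => by simp [allModels] at h
  | _ :: _, [], _, h => by simp [allModels] at h
  | B :: Bs, r :: rs, ws, h => by
    simp only [allModels, Bool.and_eq_true] at h
    rcases ws with _ | ⟨w, ws⟩
    · simp [allModels, comb, wsum, P10.ev_const]
    obtain ⟨a1, a2⟩ := phiModels_sound hD hN hS hs ht h.1
    have ih := allModels_sound hD hN hS hs ht Bs rs ws h.2
    simp only [allModels, comb, wsum]
    split_ifs with h0 hw
    · subst h0; push_cast; linarith
    · rw [P10.ev_add, P10.ev_smul]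
      have := mul_le_mul_of_nonneg_left a1 (by exact_mod_cast hw : (0 : ℝ) ≤ (w : ℝ))
      linarith
    · rw [P10.ev_add, P10.ev_smul]
      have hw' : (w : ℝ) ≤ 0 := by exact_mod_cast (not_le.1 hw).le
      have := mul_le_mul_of_nonpos_left a2 hw'
      linarith

theorem sqNum_ev (hD : 0 < C.D) :
    (P10.smul (2 * C.S) (sqNum C.D b)).ev s t / ((9 * C.D ^ 2 : ℤ) : ℝ)
      = 2 * C.S * sqDev (b.pt C.D s t) := by
  have : (C.D : ℝ) ≠ 0 := by exact_mod_cast hD.ne'
  rw [P10.ev_smul]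
  simp only [P10.ev, sqNum, sqDev, Fin.sum_univ_three, Bx.pt,
    Matrix.cons_val_zero, Matrix.cons_val_one, Matrix.head_cons, Matrix.cons_val_two,
    Matrix.tail_cons]
  push_cast
  field_simp
  ring

theorem okBox_sound (hD : 0 < C.D) (hN : C.N ≠ 0) (hS : 0 < C.S) (hs : |s| ≤ 1) (ht : |t| ≤ 1)
    {R : List (List Root)} {ids : List ℕ} (h : okBox C b R ids = true) {i : ℕ} (hi : i ∈ ids) :
    0 ≤ (C.vecs.getD i ⟨[], 0, 0⟩).val C (b.pt C.D s t) := by
  simp only [okBox, Bool.and_eq_true, List.all_eq_true] at h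
  set v := C.vecs.getD i ⟨[], 0, 0⟩
  have hp := P10.ev_nonneg (h.2 i hi) hs ht
  have hc := allModels_sound hD hN hS hs ht C.basis R v.w h.1
  have hd : (0 : ℤ) < 9 * C.D ^ 2 := by positivity
  have hr := abs_le.1 (P10.ev_quo (P10.smul (2 * C.S) (sqNum C.D b)) hd hs ht)
  rw [sqNum_ev hD] at hr
  simp only [vecPoly, P10.ev_add, P10.ev_smul, P10.ev_const] at hp
  push_cast at hp
  have hmu := abs_mul (v.mu : ℝ) (2 * C.S * sqDev (b.pt C.D s t)
    - (P10.quo (P10.smul (2 * C.S) (sqNum C.D b)) (9 * C.D ^ 2)).ev s t)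
  have hmu' := neg_abs_le ((v.mu : ℝ) * (2 * C.S * sqDev (b.pt C.D s t)
    - (P10.quo (P10.smul (2 * C.S) (sqNum C.D b)) (9 * C.D ^ 2)).ev s t))
  have hb := mul_le_mul_of_nonneg_left (abs_le.2 hr) (abs_nonneg (v.mu : ℝ))
  have hS' : (0 : ℝ) < 2 * (C.S : ℝ) := by
    have : (0 : ℝ) < (C.S : ℝ) := by exact_mod_cast hS
    linarith
  refine nonneg_of_mul_nonneg_right ?_ hS'
  rw [Vec.val]
  nlinarith

/-- Membership of a box. -/
def InBox (D : ℤ) (b : Bx) (u : Fin 3 → ℝ) : Prop :=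
  ∃ s t : ℝ, |s| ≤ 1 ∧ |t| ≤ 1 ∧ u = b.pt D s t

theorem inBox_half {D : ℤ} {u : Fin 3 → ℝ} {ax : Bool} (hh : halfOk b ax = true)
    (h : InBox D b u) : InBox D (half b ax).1 u ∨ InBox D (half b ax).2 u := by
  obtain ⟨s, t, hs, ht, rfl⟩ := h
  obtain ⟨s0, s1⟩ := abs_le.1 hs
  obtain ⟨t0, t1⟩ := abs_le.1 ht
  cases ax <;> simp only [halfOk, decide_eq_true_eq] at hh
  · have e : (b.hq : ℝ) = 2 * ((b.hq / 2 : ℤ) : ℝ) := by exact_mod_cast hh.symm
    rcases le_total t 0 with h0 | h0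
    · refine Or.inl ⟨s, 2 * t + 1, hs, abs_le.2 ⟨by linarith, by linarith⟩, funext fun i => ?_⟩
      fin_cases i <;> simp [Bx.pt, half, e] <;> ring
    · refine Or.inr ⟨s, 2 * t - 1, hs, abs_le.2 ⟨by linarith, by linarith⟩, funext fun i => ?_⟩
      fin_cases i <;> simp [Bx.pt, half, e] <;> ring
  · have e : (b.hp : ℝ) = 2 * ((b.hp / 2 : ℤ) : ℝ) := by exact_mod_cast hh.symm
    rcases le_total s 0 with h0 | h0
    · refine Or.inl ⟨2 * s + 1, t, abs_le.2 ⟨by linarith, by linarith⟩, ht, funext fun i => ?_⟩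
      fin_cases i <;> simp [Bx.pt, half, e] <;> ring
    · refine Or.inr ⟨2 * s - 1, t, abs_le.2 ⟨by linarith, by linarith⟩, ht, funext fun i => ?_⟩
      fin_cases i <;> simp [Bx.pt, half, e] <;> ring

theorem not_outside (hD : 0 < C.D) {u : Fin 3 → ℝ} (h21 : u 2 ≤ u 1) (h10 : u 1 ≤ u 0)
    (h : InBox C.D b u) : outside C.D b = false := by
  obtain ⟨s, t, hs, ht, rfl⟩ := h
  have hD' : (0 : ℝ) < (C.D : ℝ) := by exact_mod_cast hD
  simp only [Bx.pt, Matrix.cons_val_zero, Matrix.cons_val_one, Matrix.head_cons,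
    Matrix.cons_val_two, Matrix.tail_cons, div_le_div_iff_of_pos_right hD'] at h21 h10
  simp only [outside, Bool.or_eq_false_iff, decide_eq_false_iff_not, not_lt]
  have a1 : |(b.hp : ℝ) * s| ≤ |(b.hp : ℝ)| := by
    rw [abs_mul]; exact mul_le_of_le_one_right (abs_nonneg _) hs
  have a2 : |(b.hq : ℝ) * t| ≤ |(b.hq : ℝ)| := by
    rw [abs_mul]; exact mul_le_of_le_one_right (abs_nonneg _) ht
  obtain ⟨p0, p1⟩ := abs_le.1 a1
  obtain ⟨q0, q1⟩ := abs_le.1 a2
  refine ⟨?_, ?_⟩
  · have : ((b.p - |b.hp| : ℤ) : ℝ) ≤ ((b.q + |b.hq| : ℤ) : ℝ) := by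
      push_cast [Int.cast_abs]; linarith
    exact_mod_cast this
  · have : ((b.p - |b.hp| + 2 * (b.q - |b.hq|) : ℤ) : ℝ) ≤ (C.D : ℝ) := by
      push_cast [Int.cast_abs]; linarith
    exact_mod_cast this

theorem check_sound (hD : 0 < C.D) (hN : C.N ≠ 0) (hS : 0 < C.S) :
    ∀ (T : CTree) (b : Bx) (ids : List ℕ), check C T b ids = true →
      ∀ i ∈ ids, ∀ u : Fin 3 → ℝ, u 2 ≤ u 1 → u 1 ≤ u 0 → InBox C.D b u →
        0 ≤ (C.vecs.getD i ⟨[], 0, 0⟩).val C u
  | .skip, b, ids, h, i, hi, u, h21, h10, hu => by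
    simp only [check, not_outside hD h21 h10 hu, Bool.or_false, List.isEmpty_iff] at h
    simp [h] at hi
  | .leaf R, b, ids, h, i, hi, u, _, _, hu => by
    obtain ⟨s, t, hs, ht, rfl⟩ := hu
    exact okBox_sound hD hN hS hs ht h hi
  | .split ax l r, b, ids, h, i, hi, u, h21, h10, hu => by
    simp only [check, Bool.and_eq_true] at h
    rcases inBox_half h.1.1 hu with h' | h'
    · exact check_sound hD hN hS l _ _ h.1.2 i hi u h21 h10 h'
    · exact check_sound hD hN hS r _ _ h.2 i hi u h21 h10 h'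
  | .part R ok T, b, ids, h, i, hi, u, h21, h10, hu => by
    simp only [check, Bool.and_eq_true] at h
    by_cases hio : i ∈ ok
    · obtain ⟨s, t, hs, ht, rfl⟩ := hu
      exact okBox_sound hD hN hS hs ht h.1 hio
    · exact check_sound hD hN hS T b _ h.2 i (by simp [List.mem_filter, hi, hio]) u h21 h10 hu

theorem Basis.val_perm (B : Basis) (σ : Equiv.Perm (Fin 3)) (u : Fin 3 → ℝ) :
    B.val (fun i => u (σ i)) = B.val u := by
  rw [Basis.val, Basis.val, shrink_relabel, phi_relabel]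

theorem wsum_perm (σ : Equiv.Perm (Fin 3)) (u : Fin 3 → ℝ) :
    ∀ (ws : List ℤ) (Bs : List Basis), wsum ws Bs (fun i => u (σ i)) = wsum ws Bs u
  | [], _ => rfl
  | _ :: _, [] => rfl
  | w :: ws, B :: Bs => by simp only [wsum, B.val_perm, wsum_perm σ u ws Bs]

/-- A checked certificate: every vector is nonnegative on the simplex. -/
theorem checkAll_sound {T : CTree} (h : checkAll C T = true) {v : Vec} (hv : v ∈ C.vecs)
    {u : Fin 3 → ℝ} (h0 : ∀ i, 0 ≤ u i) (h1 : ∑ i, u i = 1) : 0 ≤ v.val C u := by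
  simp only [checkAll, Bool.and_eq_true, decide_eq_true_eq] at h
  obtain ⟨⟨⟨⟨hD, h12⟩, hS⟩, hN⟩, hck⟩ := h
  obtain ⟨i, hi, rfl⟩ := List.getElem_of_mem hv
  refine sorted_cases (P := fun u => 0 ≤ (C.vecs[i]).val C u) (fun w σ hw => ?_)
    (fun w w0 w1 h21 h10 => ?_) h0 h1
  · rwa [Vec.val, wsum_perm, sqDev_relabel] at hw
  · have := check_sound hD hN hS T _ _ hck i (List.mem_range.2 hi) w h21 h10 ?_
    · rwa [List.getD_eq_getElem _ _ hi] at this
    have hD' : (0 : ℝ) < (C.D : ℝ) := by exact_mod_cast hD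
    have e6 : ((C.D / 6 : ℤ) : ℝ) * 6 = C.D := by
      exact_mod_cast (show C.D / 6 * 6 = C.D by omega)
    have e4 : ((C.D / 4 : ℤ) : ℝ) * 4 = C.D := by
      exact_mod_cast (show C.D / 4 * 4 = C.D by omega)
    rw [Fin.sum_univ_three] at w1
    have := w0 1; have := w0 2
    refine ⟨6 * w 2 - 1, 4 * w 1 - 1, abs_le.2 ⟨by linarith, by linarith⟩,
      abs_le.2 ⟨by linarith, by linarith⟩, funext fun j => ?_⟩
    fin_cases j <;> simp [Bx.pt, root] <;> field_simp <;> nlinarith

/-- All vectors are nonnegative on the simplex. -/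
def Nonneg (C : Cfg) : Prop :=
  ∀ v ∈ C.vecs, ∀ u : Fin 3 → ℝ, (∀ i, 0 ≤ u i) → ∑ i, u i = 1 → 0 ≤ v.val C u

/-- A complete check shows that all vectors are nonnegative. -/
theorem nonneg_of_checkAll {T : CTree} (h : checkAll C T = true) : Nonneg C :=
  fun _ hv _ h0 h1 => checkAll_sound h hv h0 h1

end Vale.Agent.P154.Anti.Box
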