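import Vale.Agent.P154.Anti.BoxFast

/-!
# Composing certified boxes along a tree of halvings

The certified boxes are listed in the order in which the tree meets them, so one linear check
shows that they fill the box at the top.
-/

namespace Vale.Agent.P154.Anti.Box

/-- The boxes left after the tree below `b` took its leaves off the list. -/
def takeBoxes : CTree → Bx → List Bx → Option (List Bx)
  | .skip, b, x :: L => if b = x then some L else none
  | .split ax l r, b, L =>
    if halfOk b ax then
      match takeBoxes l (half b ax).1 L with
      | some L' => takeBoxes r (half b ax).2 L'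
      | none => none
    else none
  | _, _, _ => none

theorem cert_of_takeBoxes {C : Cfg} {ids : List ℕ} : ∀ (t : CTree) (b : Bx) (L L' : List Bx),
    takeBoxes t b L = some L' → (∀ x ∈ L, Cert C x ids) →
      Cert C b ids ∧ ∀ x ∈ L', Cert C x ids := by
  intro t
  induction t with
  | skip =>
    intro b L L' h hL
    cases L with
    | nil => simp [takeBoxes] at h
    | cons x L =>
      simp only [takeBoxes] at h
      split_ifs at h with hb
      simp only [Option.some.injEq] at h
      subst hb h
      exact ⟨hL _ List.mem_cons_self, fun y hy => hL y (List.mem_cons_of_mem _ hy)⟩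
  | split ax l r ihl ihr =>
    intro b L L' h hL
    simp only [takeBoxes] at h
    split_ifs at h with hh
    split at h
    · rename_i L1 h1
      obtain ⟨c1, hL1⟩ := ihl _ _ _ h1 hL
      obtain ⟨c2, hL2⟩ := ihr _ _ _ h hL1
      exact ⟨cert_split hh c1 c2, hL2⟩
    · simp at h
  | leaf R => intro b L L' h; simp [takeBoxes] at h
  | part R ok t _ => intro b L L' h; simp [takeBoxes] at h

theorem cert_of_takeBoxes_all {C : Cfg} {ids : List ℕ} {t : CTree} {b : Bx} {L : List Bx}
    (h : takeBoxes t b L = some []) (hL : ∀ x ∈ L, Cert C x ids) : Cert C b ids :=
  (cert_of_takeBoxes t b L [] h hL).1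

end Vale.Agent.P154.Anti.Box
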