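import Vale.Agent.P154.Anti.BoxPoly

/-!
# Boxes in the simplex and cubic models of geometric means on them: definitions

A box lives in the coordinates `(u 2, u 1)` over the denominator `D`. An edge parameter is given
as `ln / ld`; the value `1 / 1` stands for the vector itself.
-/

namespace Vale.Agent.P154.Anti.Box

/-- Three integers. -/
structure Z3 where
  z0 : ℤ
  z1 : ℤ
  z2 : ℤ
deriving DecidableEq

/-- Three natural numbers: exponents over a common denominator. -/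
structure N3 where
  n0 : ℕ
  n1 : ℕ
  n2 : ℕ
deriving DecidableEq

/-- A box: centres and half widths. -/
structure Bx where
  p : ℤ
  q : ℤ
  hp : ℤ
  hq : ℤ
deriving DecidableEq

/-- An edge parameter as a fraction. -/
structure Side where
  ln : ℤ
  ld : ℤ
deriving DecidableEq

/-- An affine family of vectors `(V + A s + B t) / den`. -/
structure Fam where
  den : ℤ
  V : Z3
  A : Z3
  B : Z3

/-- The family of the shrunk vectors over a box. -/
def fam (D : ℤ) (b : Bx) (e : Side) : Fam where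
  den := 3 * e.ld * D
  V := ⟨3 * e.ln * (D - b.p - b.q) + (e.ld - e.ln) * D, 3 * e.ln * b.q + (e.ld - e.ln) * D,
    3 * e.ln * b.p + (e.ld - e.ln) * D⟩
  A := ⟨-(3 * e.ln * b.hp), 0, 3 * e.ln * b.hp⟩
  B := ⟨-(3 * e.ln * b.hq), 3 * e.ln * b.hq, 0⟩

/-- The extents of the deviations. -/
def ext (F : Fam) : Z3 :=
  ⟨|F.A.z0| + |F.B.z0|, |F.A.z1| + |F.B.z1|, |F.A.z2| + |F.B.z2|⟩

/-- The centre is positive and the whole family is nonnegative. -/
def famOk (F : Fam) : Bool :=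
  decide (0 < F.den) && decide (0 < F.V.z0) && decide (0 < F.V.z1) && decide (0 < F.V.z2)
    && decide ((ext F).z0 ≤ F.V.z0) && decide ((ext F).z1 ≤ F.V.z1)
    && decide ((ext F).z2 ≤ F.V.z2)

/-- The product of the powers. -/
def pw (v : Z3) (n : N3) : ℤ := v.z0 ^ n.n0 * v.z1 ^ n.n1 * v.z2 ^ n.n2

/-- `hi` is above the geometric mean at `v / den`, in units of `1 / S`. -/
def rootHi (S den : ℤ) (N : ℕ) (n : N3) (v : Z3) (hi : ℤ) : Bool :=
  decide (0 ≤ hi) && decide (pw v n * S ^ N ≤ (hi * den) ^ N)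

/-- `lo` is below the geometric mean at `v / den`, in units of `1 / S`. -/
def rootLo (S den : ℤ) (N : ℕ) (n : N3) (v : Z3) (lo : ℤ) : Bool :=
  decide (0 ≤ lo) && decide ((lo * den) ^ N ≤ pw v n * S ^ N)

/-- The integer numerator of the cubic expansion at the centre. -/
def cubNum (N : ℕ) (n : N3) (F : Fam) : P10 :=
  let M : ℤ := N
  let w0 := F.V.z1 * F.V.z2
  let w1 := F.V.z0 * F.V.z2
  let w2 := F.V.z0 * F.V.z1
  let W := F.V.z0 * w0
  let a0 := F.A.z0 * w0
  let a1 := F.A.z1 * w1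
  let a2 := F.A.z2 * w2
  let b0 := F.B.z0 * w0
  let b1 := F.B.z1 * w1
  let b2 := F.B.z2 * w2
  let m0 : ℤ := n.n0
  let m1 : ℤ := n.n1
  let m2 : ℤ := n.n2
  let lx := m0 * a0 + m1 * a1 + m2 * a2
  let ly := m0 * b0 + m1 * b1 + m2 * b2
  let qxx := m0 * a0 ^ 2 + m1 * a1 ^ 2 + m2 * a2 ^ 2
  let qxy := 2 * (m0 * a0 * b0 + m1 * a1 * b1 + m2 * a2 * b2)
  let qyy := m0 * b0 ^ 2 + m1 * b1 ^ 2 + m2 * b2 ^ 2
  let cxxx := m0 * a0 ^ 3 + m1 * a1 ^ 3 + m2 * a2 ^ 3
  let cxxy := 3 * (m0 * a0 ^ 2 * b0 + m1 * a1 ^ 2 * b1 + m2 * a2 ^ 2 * b2)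
  let cxyy := 3 * (m0 * a0 * b0 ^ 2 + m1 * a1 * b1 ^ 2 + m2 * a2 * b2 ^ 2)
  let cyyy := m0 * b0 ^ 3 + m1 * b1 ^ 3 + m2 * b2 ^ 3
  ⟨6 * M ^ 3 * W ^ 3, 6 * M ^ 2 * W ^ 2 * lx, 6 * M ^ 2 * W ^ 2 * ly,
    3 * W * (M * lx ^ 2 - M ^ 2 * qxx), 3 * W * (2 * M * lx * ly - M ^ 2 * qxy),
    3 * W * (M * ly ^ 2 - M ^ 2 * qyy),
    lx ^ 3 - 3 * M * lx * qxx + 2 * M ^ 2 * cxxx,
    3 * lx ^ 2 * ly - 3 * M * (lx * qxy + ly * qxx) + 2 * M ^ 2 * cxxy,
    3 * lx * ly ^ 2 - 3 * M * (lx * qyy + ly * qxy) + 2 * M ^ 2 * cxyy,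
    ly ^ 3 - 3 * M * ly * qyy + 2 * M ^ 2 * cyyy⟩

/-- The common denominator of `cubNum`. -/
def cubDen (N : ℕ) (F : Fam) : ℤ :=
  6 * (N : ℤ) ^ 3 * (F.V.z0 * (F.V.z1 * F.V.z2)) ^ 3

/-- The cubic upper model from an upper value `hi` at the centre. -/
def upPoly (N : ℕ) (n : N3) (F : Fam) (hi : ℤ) : P10 :=
  P10.add (P10.quo (P10.smul hi (cubNum N n F)) (cubDen N F)) (P10.const 10)

/-- The resolution of the relative deviations. -/
def res : ℤ := 2 ^ 24

/-- A relative deviation rounded up. -/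
def relUp (x v : ℤ) : ℤ := (x * res + v - 1) / v

/-- The largest relative deviation among the exponents in use. -/
def rho (n : N3) (F : Fam) : ℤ :=
  max (if n.n0 = 0 then 0 else relUp (ext F).z0 F.V.z0)
    (max (if n.n1 = 0 then 0 else relUp (ext F).z1 F.V.z1)
      (if n.n2 = 0 then 0 else relUp (ext F).z2 F.V.z2))

/-- The bound on the fourth order remainder, in units of `1 / S`. -/
def remBound (N : ℕ) (n : N3) (F : Fam) (hi : ℤ) : ℤ :=
  let r := rho n F
  let num := hi * 5 * (res + r) * ((n.n0 : ℤ) * relUp (ext F).z0 F.V.z0 ^ 4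
    + (n.n1 : ℤ) * relUp (ext F).z1 F.V.z1 ^ 4 + (n.n2 : ℤ) * relUp (ext F).z2 F.V.z2 ^ 4)
  let den := 6 * (N : ℤ) * res * (res - r) ^ 4
  (num + den - 1) / den

/-- The cubic lower model from values `lo ≤ hi` around the value at the centre. -/
def loPoly (N : ℕ) (n : N3) (F : Fam) (lo hi : ℤ) : P10 :=
  P10.add (P10.quo (P10.smul lo (cubNum N n F)) (cubDen N F))
    (P10.const (-10 - remBound N n F hi))

/-- The vectors at the corners `(-, -)`, `(-, +)`, `(+, -)`, `(+, +)`. -/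
def corner (F : Fam) (sa sb : ℤ) : Z3 :=
  ⟨F.V.z0 + sa * F.A.z0 + sb * F.B.z0, F.V.z1 + sa * F.A.z1 + sb * F.B.z1,
    F.V.z2 + sa * F.A.z2 + sb * F.B.z2⟩

/-- The bilinear interpolation of lower values at the corners. -/
def itPoly (cmm cmp cpm cpp : ℤ) : P10 :=
  P10.add (P10.quo ⟨cmm + cmp + cpm + cpp, cpm + cpp - cmm - cmp, cmp + cpp - cmm - cpm, 0,
    cmm + cpp - cmp - cpm, 0, 0, 0, 0, 0⟩ 4) (P10.const (-10))

/-- The data for bounding one geometric mean on one box: the upper value at the centre, and for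
the lower side either a lower value there or four lower values at the corners. -/
inductive Root where
  | tay (lo hi : ℤ)
  | itp (hi cmm cmp cpm cpp : ℤ)

/-- Lower and upper models with the validity check of the data. -/
def rootModels (S : ℤ) (N : ℕ) (n : N3) (F : Fam) : Root → Bool × P10 × P10
  | .tay lo hi =>
    (rootLo S F.den N n F.V lo && rootHi S F.den N n F.V hi && decide (rho n F < res),
      loPoly N n F lo hi, upPoly N n F hi)
  | .itp hi cmm cmp cpm cpp =>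
    (rootHi S F.den N n F.V hi && rootLo S F.den N n (corner F (-1) (-1)) cmm
      && rootLo S F.den N n (corner F (-1) 1) cmp && rootLo S F.den N n (corner F 1 (-1)) cpm
      && rootLo S F.den N n (corner F 1 1) cpp,
      itPoly cmm cmp cpm cpp, upPoly N n F hi)

end Vale.Agent.P154.Anti.Box
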