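import Vale.Agent.P154.Anti.BoxFastModel

/-!
# Soundness of the fast box checker

A successful `checkFast` gives a `Cert`: the named vectors are nonnegative at the sorted points of
a box. Certificates of the halves of a box combine, so a tree may be checked in several pieces.
-/

namespace Vale.Agent.P154.Anti.Box

open Finset Vale.Agent.P154.Tree

/-- The named vectors exist and are nonnegative at the sorted points of the box. -/
def Cert (C : Cfg) (b : Bx) (ids : List ℕ) : Prop :=
  ∀ i ∈ ids, i < C.vecs.length ∧ ∀ u : Fin 3 → ℝ, u 2 ≤ u 1 → u 1 ≤ u 0 → InBox C.D b u →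
    0 ≤ (C.vecs.getD i ⟨[], 0, 0⟩).val C u

/-- The sum of the positive parts of the first entries. -/
def posSum : List Basis → List ℤ → ℕ
  | [], _ => 0
  | _ :: Bs, r => (r.headD 0).toNat + posSum Bs r.tail

/-- The sum of the negative parts of the first entries. -/
def negSum : List Basis → List ℤ → ℕ
  | [], _ => 0
  | _ :: Bs, r => (-r.headD 0).toNat + negSum Bs r.tail

theorem shl_eq (x n : ℕ) : Nat.shiftLeft x n = x * 2 ^ n := Nat.shiftLeft_eq x n

theorem land_eq (x y : ℕ) : Nat.land x y = x &&& y := rfl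

theorem shr_eq (x n : ℕ) : Nat.shiftRight x n = x >>> n := rfl

theorem ones_eq {B : ℕ} (hB : 0 < B) (n : ℕ) : ones B n = packN B n fun _ => 1 := by
  simp only [ones, packN, one_mul, Nat.pow_eq, Nat.sub_eq, Nat.mul_eq, pow_mul]
  exact (Nat.geomSum_eq (Nat.le_self_pow hB.ne' 2) n).symm

/-- All weights are within the bound. -/
def Small (rows : List (List ℤ)) : Prop := ∀ r ∈ rows, ∀ w ∈ r, w.natAbs ≤ wCap

theorem Small.tail {rows : List (List ℤ)} (h : Small rows) : Small (rows.map List.tail) := by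
  intro r hr w hw
  obtain ⟨r', hr', rfl⟩ := List.mem_map.1 hr
  exact h r' hr' w (List.mem_of_mem_tail hw)

theorem Small.head {rows : List (List ℤ)} (h : Small rows) (i : ℕ) :
    ((rows.getD i []).headD 0).natAbs ≤ wCap := by
  by_cases hi : i < rows.length
  · rw [List.getD_eq_getElem _ _ hi]
    rcases hr : rows[i] with _ | ⟨w, r⟩
    · simp
    · exact h _ (List.getElem_mem hi) w (hr ▸ List.mem_cons_self ..)
  · rw [List.getD_eq_default _ _ (by omega)]
    simp

/-- A weight within the bound fits in a narrow digit. -/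
theorem cap_lt {x : ℕ} (h : x ≤ wCap) : x < 2 ^ 64 :=
  lt_of_le_of_lt h (Nat.pow_lt_pow_right (by norm_num) (by norm_num))

theorem enc_lt (w : ℤ) : enc w < 2 ^ 128 := by
  have h64 : (2 : ℕ) ^ 64 < 2 ^ 128 := Nat.pow_lt_pow_right (by norm_num) (by norm_num)
  have hf : flag < 2 ^ 128 := Nat.pow_lt_pow_right (by norm_num) (by norm_num)
  cases w with
  | ofNat n =>
    simp only [enc, Bool.cond_eq_ite, Nat.ble_eq]
    split_ifs with h
    · exact (cap_lt h).trans h64
    · exact hf
  | negSucc n =>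
    simp only [enc, Bool.cond_eq_ite, Nat.blt, Nat.ble_eq, shl_eq, narW]
    split_ifs with h
    · have := cap_lt h
      norm_num at *
      omega
    · exact hf

theorem enc_small {w : ℤ} (h : (enc w).testBit 63 = false) : w.natAbs ≤ wCap := by
  have hf : flag.testBit 63 = true := Nat.testBit_two_pow_self
  cases w with
  | ofNat n =>
    simp only [enc, Bool.cond_eq_ite, Nat.ble_eq] at h
    split_ifs at h with hn
    · simpa using hn
    · simp [hf] at h
  | negSucc n =>
    simp only [enc, Bool.cond_eq_ite, Nat.blt, Nat.ble_eq] at h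
    split_ifs at h with hn
    · simpa using hn
    · simp [hf] at h

theorem enc_eq {w : ℤ} (h : w.natAbs ≤ wCap) :
    enc w = (-w).toNat * 2 ^ 64 + w.toNat := by
  cases w with
  | ofNat n =>
    have hn : Nat.ble n wCap = true := Nat.ble_eq_true_of_le (by simpa using h)
    simp [enc, hn]
  | negSucc n =>
    have hn : Nat.ble (n + 1) wCap = true := Nat.ble_eq_true_of_le (by simpa using h)
    simp [enc, Nat.blt, hn, narW, Nat.shiftLeft_eq]

theorem flag_lt {b : ℕ} (hb : 64 ≤ b) : flag < 2 ^ b :=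
  Nat.pow_lt_pow_right (by norm_num) (by omega)

theorem rowFlat_lt : ∀ (r : List ℤ) (m : ℕ), rowFlat r m < 2 ^ (128 * (m + 1))
  | [], m => by simp [rowFlat]
  | _ :: _, 0 => flag_lt (b := 128 * (0 + 1)) (by norm_num)
  | w :: r, m + 1 => by
    have h1 := Nat.mul_le_mul_left (2 ^ 128) (rowFlat_lt r m : rowFlat r m + 1 ≤ _)
    rw [← pow_add, show 128 + 128 * (m + 1) = 128 * (m + 1 + 1) by ring, Nat.mul_succ] at h1
    have h2 := enc_lt w
    simp only [rowFlat, flatW, Nat.add_eq, shl_eq, mul_comm _ (2 ^ 128)]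
    omega

theorem rowFlat_small : ∀ (r : List ℤ) (m : ℕ),
    (∀ j ≤ m, (rowFlat r m).testBit (128 * j + 63) = false) →
      r.length ≤ m ∧ ∀ w ∈ r, w.natAbs ≤ wCap
  | [], m, _ => by simp
  | _ :: _, 0, h => by
    have h0 : flag.testBit 63 = false := h 0 le_rfl
    have hf : flag.testBit 63 = true := Nat.testBit_two_pow_self
    simp [hf] at h0
  | w :: r, m + 1, h => by
    simp only [rowFlat, flatW, Nat.add_eq, shl_eq, mul_comm _ (2 ^ 128), add_comm (enc w)] at h
    have h0 := h 0 (Nat.zero_le _)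
    rw [Nat.testBit_two_pow_mul_add _ (enc_lt w), if_pos (by norm_num)] at h0
    obtain ⟨hl, hs⟩ := rowFlat_small r m fun j hj => by
      have := h (j + 1) (by omega)
      rwa [Nat.testBit_two_pow_mul_add _ (enc_lt w), if_neg (by omega),
        show 128 * (j + 1) + 63 - 128 = 128 * j + 63 by omega] at this
    refine ⟨by simp only [List.length_cons]; omega, fun v hv => ?_⟩
    rcases List.mem_cons.1 hv with rfl | hv
    · exact enc_small h0
    · exact hs v hv

theorem rowFlat_digit : ∀ (r : List ℤ) (m j : ℕ), r.length ≤ m →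
    rowFlat r m / 2 ^ (128 * j) % 2 ^ 128 = enc ((r.drop j).headD 0)
  | [], m, j, _ => by
    simp only [rowFlat, Nat.zero_div, Nat.zero_mod, List.drop_nil, List.headD_nil]
    rfl
  | _ :: _, 0, j, h => absurd h (by simp)
  | w :: r, m + 1, 0, _ => by
    simp only [rowFlat, flatW, Nat.add_eq, shl_eq, mul_zero, pow_zero, Nat.div_one,
      List.drop_zero, List.headD_cons]
    rw [Nat.add_mul_mod_self_right, Nat.mod_eq_of_lt (enc_lt w)]
  | w :: r, m + 1, j + 1, h => by
    simp only [rowFlat, flatW, Nat.add_eq, shl_eq, List.drop_succ_cons]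
    rw [show 128 * (j + 1) = 128 + 128 * j by ring, pow_add, ← Nat.div_div_eq_div_mul,
      Nat.add_mul_div_right _ _ (Nat.two_pow_pos _), Nat.div_eq_of_lt (enc_lt w), zero_add,
      rowFlat_digit r m j (by simpa using h)]

theorem row_bound (rows : List (List ℤ)) (i : ℕ) : rowFlat (rows.getD i []) 31 < 2 ^ 4096 :=
  lt_of_lt_of_eq (rowFlat_lt _ 31) (by norm_num)

theorem flatRows_eq : ∀ rows : List (List ℤ),
    flatRows rows = packN 4096 rows.length fun i => rowFlat (rows.getD i []) 31
  | [] => by simp [flatRows, packN]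
  | r :: rows => by
    simp only [flatRows, blkW, Nat.add_eq, shl_eq, List.length_cons, packN_succ',
      List.getD_cons_zero, List.getD_cons_succ, flatRows_eq rows, mul_comm]

theorem small_of_flag {rows : List (List ℤ)}
    (h : flatRows rows &&& (flag * ones flatW (32 * rows.length)) = 0) :
    Small rows ∧ ∀ i, (rows.getD i []).length ≤ 31 := by
  have key : ∀ i, i < rows.length → ∀ j ≤ 31,
      (rowFlat (rows.getD i []) 31).testBit (128 * j + 63) = false := fun i hi j hj => by
    have hb := congrArg (fun x => Nat.testBit x (4096 * i + (128 * j + 63))) h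
    simp only [Nat.testBit_and, Nat.zero_testBit] at hb
    rw [flatRows_eq, testBit_packN (fun k _ => row_bound rows k) i (128 * j + 63) (by omega),
      ones_eq (show 0 < flatW by decide), packN_mul] at hb
    rw [show 4096 * i + (128 * j + 63) = 128 * (32 * i + j) + 63 by omega,
      show flatW = 128 from rfl,
      testBit_packN (fun k _ => (mul_one flag).symm ▸ flag_lt (by norm_num))
        (32 * i + j) 63 (by norm_num)] at hb
    have hf : flag.testBit 63 = true := Nat.testBit_two_pow_self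
    simpa [hi, show 32 * i + j < 32 * rows.length by omega, hf] using hb
  refine ⟨fun r hr => ?_, fun i => ?_⟩
  · obtain ⟨i, hi, rfl⟩ := List.getElem_of_mem hr
    have := key i hi
    rw [List.getD_eq_getElem _ _ hi] at this
    exact (rowFlat_small _ 31 this).2
  · by_cases hi : i < rows.length
    · exact (rowFlat_small _ 31 (key i hi)).1
    · rw [List.getD_eq_default _ _ (by omega)]
      simp

/-- The bits `[t, t + s)` of every digit. -/
theorem packN_slice {B n s t : ℕ} {f : ℕ → ℕ} (hB : 0 < B) (hst : t + s ≤ B)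
    (hf : ∀ i < n, f i < 2 ^ B) :
    (packN B n f >>> t) &&& ((2 ^ s - 1) * ones B n) = packN B n fun i => f i / 2 ^ t % 2 ^ s := by
  have hm : ∀ i < n, (2 ^ s - 1) * 1 < 2 ^ B := fun i _ => by
    rw [mul_one]
    exact lt_of_lt_of_le (Nat.sub_lt (Nat.two_pow_pos _) one_pos)
      (Nat.pow_le_pow_right (by norm_num) (by omega))
  have hd : ∀ i < n, f i / 2 ^ t % 2 ^ s < 2 ^ B := fun i _ =>
    lt_of_lt_of_le (Nat.mod_lt _ (Nat.two_pow_pos _))
      (Nat.pow_le_pow_right (by norm_num) (by omega))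
  rw [ones_eq hB, packN_mul]
  refine Nat.eq_of_testBit_eq fun m => ?_
  obtain ⟨i, j, hj, rfl⟩ : ∃ i j, j < B ∧ m = B * i + j :=
    ⟨m / B, m % B, Nat.mod_lt _ hB, (Nat.div_add_mod m B).symm⟩
  rw [Nat.testBit_and, Nat.testBit_shiftRight, testBit_packN hm i j hj, testBit_packN hd i j hj,
    mul_one, Nat.testBit_two_pow_sub_one, Nat.testBit_mod_two_pow, Nat.testBit_div_two_pow]
  by_cases hjs : j < s
  · rw [show t + (B * i + j) = B * i + (t + j) by omega, testBit_packN hf i (t + j) (by omega),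
      show t + j = j + t by omega]
    by_cases hi : i < n <;> simp [hi, hjs]
  · simp [hjs]

/-- The two parts of column `j`. -/
theorem colPart_eq {rows : List (List ℤ)} (h : Small rows) (hl : ∀ i, (rows.getD i []).length ≤ 31)
    {j : ℕ} (hj : j < 32) :
    let M0 := (2 ^ 64 - 1) * ones 4096 rows.length
    colPart M0 (flatRows rows) (128 * j)
        = packN 4096 rows.length (fun i => (((rows.getD i []).drop j).headD 0).toNat) ∧
      colPart M0 (flatRows rows) (128 * j + 64)
        = packN 4096 rows.length (fun i => (-((rows.getD i []).drop j).headD 0).toNat) := by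
  intro M0
  have hw : ∀ i, (((rows.getD i []).drop j).headD 0).natAbs ≤ wCap := fun i => by
    rcases hr : (rows.getD i []).drop j with _ | ⟨w, r⟩
    · simp
    · have hm : w ∈ rows.getD i [] := List.mem_of_mem_drop (hr ▸ List.mem_cons_self ..)
      by_cases hi : i < rows.length
      · rw [List.getD_eq_getElem _ _ hi] at hm
        exact h _ (List.getElem_mem hi) w hm
      · rw [List.getD_eq_default _ _ (by omega)] at hm
        simp at hm
  have hd : ∀ i, rowFlat (rows.getD i []) 31 / 2 ^ (128 * j) % 2 ^ (64 + 64)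
      = (-((rows.getD i []).drop j).headD 0).toNat * 2 ^ 64
        + (((rows.getD i []).drop j).headD 0).toNat := fun i =>
    (rowFlat_digit _ 31 j (hl i)).trans (enc_eq (hw i))
  simp only [colPart, land_eq, shr_eq, flatRows_eq, M0]
  rw [packN_slice (by norm_num) (by omega) (fun k _ => row_bound rows k),
    packN_slice (by norm_num) (by omega) (fun k _ => row_bound rows k)]
  constructor <;> refine packN_congr fun i _ => ?_
  · have ha : (((rows.getD i []).drop j).headD 0).toNat < 2 ^ 64 :=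
      cap_lt (by have := hw i; omega)
    rw [← Nat.mod_mod_of_dvd _ (pow_dvd_pow 2 (show 64 ≤ 64 + 64 by norm_num)), hd,
      Nat.mul_add_mod_self_right, Nat.mod_eq_of_lt ha]
  · have ha : (((rows.getD i []).drop j).headD 0).toNat < 2 ^ 64 :=
      cap_lt (by have := hw i; omega)
    have hb : (-((rows.getD i []).drop j).headD 0).toNat < 2 ^ 64 :=
      cap_lt (by have := hw i; omega)
    rw [pow_add, ← Nat.div_div_eq_div_mul, ← Nat.mod_mul_right_div_self, ← pow_add, hd,
      add_comm, Nat.add_mul_div_right _ _ (Nat.two_pow_pos _), Nat.div_eq_of_lt ha, zero_add]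

/-- The columns of the weights. -/
def colsOf : List Basis → List (List ℤ) → List Col
  | [], _ => []
  | _ :: Bs, rows =>
    ⟨packN 4096 rows.length fun i => ((rows.getD i []).headD 0).toNat,
      packN 4096 rows.length fun i => (-(rows.getD i []).headD 0).toNat, wCap⟩
      :: colsOf Bs (rows.map List.tail)

theorem getD_map_drop (rows : List (List ℤ)) (j i : ℕ) :
    (rows.map (List.drop j)).getD i [] = (rows.getD i []).drop j := by
  simp [List.getD_eq_getElem?_getD, List.getElem?_map]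
  cases rows[i]? <;> simp

theorem withCols_eq {rows : List (List ℤ)} (h : Small rows)
    (hl : ∀ i, (rows.getD i []).length ≤ 31) : ∀ (Bs : List Basis) (j : ℕ), j + Bs.length ≤ 32 →
    ∀ k : List Col → Bool,
    withCols ((2 ^ 64 - 1) * ones 4096 rows.length) (flatRows rows) Bs j k
      = k (colsOf Bs (rows.map (List.drop j)))
  | [], _, _, _ => rfl
  | B :: Bs, j, hj, k => by
    simp only [List.length_cons] at hj
    obtain ⟨h1, h2⟩ := colPart_eq h hl (j := j) (by omega)
    simp only [withCols, fN_eq, Nat.add_eq, Nat.mul_eq, flatW, narW]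
    rw [withCols_eq h hl Bs (j + 1) (by omega), h1, h2]
    simp only [colsOf, List.length_map, getD_map_drop, List.map_map, Function.comp_def,
      List.tail_drop]

theorem getD_map_tail (rows : List (List ℤ)) (i : ℕ) :
    (rows.map List.tail).getD i [] = (rows.getD i []).tail := by
  simp [List.getD_eq_getElem?_getD, List.getElem?_map]
  cases rows[i]? <;> simp

theorem colTot_spec : ∀ (Bs : List Basis) (rows : List (List ℤ)), Small rows →
    (colTot (colsOf Bs rows)).wp = packN 4096 rows.length (fun i => posSum Bs (rows.getD i [])) ∧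
    (colTot (colsOf Bs rows)).wn = packN 4096 rows.length (fun i => negSum Bs (rows.getD i [])) ∧
    ∀ i, posSum Bs (rows.getD i []) ≤ (colTot (colsOf Bs rows)).wb ∧
      negSum Bs (rows.getD i []) ≤ (colTot (colsOf Bs rows)).wb
  | [], rows, _ => ⟨(packN_zero _ _).symm, (packN_zero _ _).symm, fun i => ⟨le_rfl, le_rfl⟩⟩
  | B :: Bs, rows, h => by
    obtain ⟨hp, hn, hb⟩ := colTot_spec Bs (rows.map List.tail) h.tail
    simp only [List.length_map, getD_map_tail] at hp hn hb
    simp only [colsOf, colTot, Nat.add_eq, hp, hn, packN_add, posSum, negSum]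
    refine ⟨trivial, trivial, fun i => ?_⟩
    have := hb i
    have := h.head i
    omega

/-- A product of numbers with wide and narrow digits. -/
theorem packN_outer (L : ℕ) (a : ℕ → ℕ) (d : ℕ → ℕ) :
    packN 4096 L a * packN 256 16 d = packN 4096 L fun i => packN 256 16 fun k => a i * d k := by
  rw [mul_comm, packN_mul]
  exact packN_congr fun i _ => by rw [mul_comm, packN_mul]

/-- Two packed numbers, one block for each vector, with digits at most `b`. -/
def Blocks (L P N b : ℕ) (dP dN : ℕ → ℕ → ℕ) : Prop :=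
  P = packN 4096 L (fun i => packN 256 16 (dP i)) ∧
    N = packN 4096 L (fun i => packN 256 16 (dN i)) ∧ ∀ i, ∀ k < 16, dP i k ≤ b ∧ dN i k ≤ b

variable {s t G : ℝ} {u : Fin 3 → ℝ} {C : Cfg} {X : Ctx}

theorem dotN_spec (hs : |s| ≤ 1) (ht : |t| ≤ 1) : ∀ (Bs : List Basis) (ms : List Model),
    List.Forall₂ (fun B M => M.sz = 2 ^ 129 ∧ ModelOK M (G * B.val u) s t) Bs ms →
    ∀ {rows : List (List ℤ)}, Small rows → ∀ {P N b : ℕ} {dP dN : ℕ → ℕ → ℕ} {k : ℕ → ℕ → ℕ → Bool},
      dotN (colsOf Bs rows) ms P N b k = true → Blocks rows.length P N b dP dN →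
      ∃ P' N' b' dP' dN', k P' N' b' = true ∧ Blocks rows.length P' N' b' dP' dN' ∧
        ∀ i, bev (fun j => (dP' i j : ℝ) - dN' i j
            - 2 ^ 128 * ((posSum Bs (rows.getD i []) : ℝ) - negSum Bs (rows.getD i []))) s t
          ≤ bev (fun j => (dP i j : ℝ) - dN i j) s t + G * wsum (rows.getD i []) Bs u
  | [], [], _, rows, _, P, N, b, dP, dN, k, h, hb => by
    refine ⟨P, N, b, dP, dN, h, hb, fun i => le_of_eq ?_⟩
    cases rows.getD i [] <;> simp [posSum, negSum, wsum]
  | B :: Bs, M :: ms, .cons ⟨hsz, dlo, dup, hlo, hup, hd, m1, m2⟩ hms, rows, hsm, P, N, b, dP, dN,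
      k, h, ⟨hP, hN, hb⟩ => by
    simp only [colsOf, dotN, Nat.add_eq, Nat.mul_eq] at h
    have h3 := hsm.head
    have hB : Blocks (rows.map List.tail).length
        (P + (packN 4096 rows.length fun i => ((rows.getD i []).headD 0).toNat) * M.lo)
        (N + (packN 4096 rows.length fun i => (-(rows.getD i []).headD 0).toNat) * M.up)
        (b + wCap * M.sz)
        (fun i j => dP i j + ((rows.getD i []).headD 0).toNat * dlo j)
        (fun i j => dN i j + (-(rows.getD i []).headD 0).toNat * dup j) := by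
      refine ⟨?_, ?_, fun i j hj => ⟨?_, ?_⟩⟩
      · simp only [List.length_map, hP, hlo, packN_outer, packN_add]
      · simp only [List.length_map, hN, hup, packN_outer, packN_add]
      · exact add_le_add (hb i j hj).1 (Nat.mul_le_mul (le_trans (by omega) (h3 i)) (hd j hj).1)
      · exact add_le_add (hb i j hj).2 (Nat.mul_le_mul (le_trans (by omega) (h3 i)) (hd j hj).2)
    obtain ⟨P', N', b', dP', dN', hk, hB', hle⟩ := dotN_spec hs ht Bs ms hms hsm.tail h hB
    rw [List.length_map] at hB'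
    refine ⟨P', N', b', dP', dN', hk, hB', fun i => ?_⟩
    have hle' := hle i
    simp only [getD_map_tail] at hle'
    set r := rows.getD i []
    have hw : wsum r (B :: Bs) u = (r.headD 0 : ℤ) * B.val u + wsum r.tail Bs u := by
      cases r <;> simp [wsum]
    have hab : ((r.headD 0 : ℤ) : ℝ) = ((r.headD 0).toNat : ℝ) - ((-r.headD 0).toNat : ℝ) := by
      exact_mod_cast (Int.toNat_sub_toNat_neg (r.headD 0)).symm
    have t1 := mul_le_mul_of_nonneg_left m1 (Nat.cast_nonneg (r.headD 0).toNat : (0 : ℝ) ≤ _)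
    have t2 := mul_le_mul_of_nonneg_left m2 (Nat.cast_nonneg (-r.headD 0).toNat : (0 : ℝ) ≤ _)
    rw [← bev_mul] at t1 t2
    rw [hw, hab]
    simp only [posSum, negSum]
    push_cast at hle' t1 t2 ⊢
    rw [show bev (fun j => (dP' i j : ℝ) - dN' i j - 2 ^ 128 * ((((r.headD 0).toNat : ℕ) : ℝ)
          + posSum Bs r.tail - ((((-r.headD 0).toNat : ℕ) : ℝ) + negSum Bs r.tail))) s t
        = bev (fun j => (dP' i j : ℝ) - dN' i j
            - 2 ^ 128 * ((posSum Bs r.tail : ℝ) - negSum Bs r.tail)) s t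
          - bev (fun _ => 2 ^ 128 * ((((r.headD 0).toNat : ℕ) : ℝ) - ((-r.headD 0).toNat : ℕ))) s t by
      rw [← bev_sub]; exact bev_congr fun j _ => by ring]
    rw [show bev (fun j => (dP i j : ℝ) + ((r.headD 0).toNat : ℕ) * (dlo j : ℝ)
          - ((dN i j : ℝ) + ((-r.headD 0).toNat : ℕ) * (dup j : ℝ))) s t
        = bev (fun j => (dP i j : ℝ) - dN i j) s t
          + bev (fun j => ((r.headD 0).toNat : ℕ) * ((dlo j : ℝ) - 2 ^ 128)) s t
          - bev (fun j => ((-r.headD 0).toNat : ℕ) * ((dup j : ℝ) - 2 ^ 128)) s t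
          + bev (fun _ => 2 ^ 128 * ((((r.headD 0).toNat : ℕ) : ℝ) - ((-r.headD 0).toNat : ℕ))) s t by
      rw [← bev_add, ← bev_sub, ← bev_add]; exact bev_congr fun j _ => by ring] at hle'
    linarith

theorem maskIds_bit {k : ℕ} (hk : k < 16) : ∀ (ids : List ℕ) (i : ℕ),
    (maskIds (packD fun _ => Nat.pow 2 255) ids).testBit (4096 * i + (256 * k + 255))
      = decide (i ∈ ids)
  | [], i => by simp [maskIds]
  | j :: ids, i => by
    simp only [maskIds, Nat.mul_eq, blkW]
    show (_ <<< (4096 * j) ||| maskIds _ ids).testBit _ = _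
    rw [Nat.testBit_or, maskIds_bit hk ids i, Nat.testBit_shiftLeft, packD_eq]
    simp only [Nat.pow_eq]
    by_cases hij : i = j
    · subst hij
      rw [show 4096 * i + (256 * k + 255) - 4096 * i = 256 * k + 255 by omega,
        testBit_packN (fun _ _ => Nat.pow_lt_pow_right (by norm_num) (by norm_num)) k 255
          (by norm_num)]
      simp [hk]
      exact Or.inl (by decide +kernel)
    · rcases lt_or_ge i j with hlt | hge
      · rw [decide_eq_false (by omega : ¬4096 * j ≤ 4096 * i + (256 * k + 255))]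
        simp [hij]
      · rw [show 4096 * i + (256 * k + 255) - 4096 * j = 256 * (16 * (i - j) + k) + 255 by omega,
          testBit_packN (fun _ _ => Nat.pow_lt_pow_right (by norm_num) (by norm_num)) _ 255
            (by norm_num), decide_eq_false (by omega : ¬16 * (i - j) + k < 16)]
        simp [hij]

/-- The vector with index `i` is active in a mask. -/
def Act (am i : ℕ) : Prop := ∀ k < 16, am.testBit (4096 * i + (256 * k + 255)) = true

theorem act_maskIds {ids : List ℕ} {i : ℕ} :
    Act (maskIds (packD fun _ => Nat.pow 2 255) ids) i ↔ i ∈ ids := by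
  refine ⟨fun h => ?_, fun h k hk => by rw [maskIds_bit hk]; simpa using h⟩
  have := h 0 (by norm_num)
  rwa [maskIds_bit (by norm_num), decide_eq_true_eq] at this

theorem rows_spec (hX : CtxOK X C) {k : Rows → Bool} (h : withRows C X k = true) :
    ∃ W, k W = true ∧ Small (C.vecs.map Vec.w) ∧
      W.cols = colsOf C.basis (C.vecs.map Vec.w) ∧
      W.mask = packN 4096 C.vecs.length (fun _ => packN 256 16 fun _ => 2 ^ 255) ∧
      ∃ dP dN, Blocks C.vecs.length W.cp W.cn W.cb dP dN ∧
        ∀ i j, (dP i j : ℝ) - dN i j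
          = 2 ^ 128 * ((negSum C.basis ((C.vecs.map Vec.w).getD i []) : ℝ)
              - posSum C.basis ((C.vecs.map Vec.w).getD i []))
            + 9 * (8 * (6 * (X.N : ℝ) ^ 3) * X.S * (C.vecs.getD i ⟨[], 0, 0⟩).k) := by
  simp only [withRows, fN_eq, Bool.and_eq_true, land_eq, Nat.mul_eq, Nat.pow_eq, Nat.sub_eq,
    Nat.add_eq, Nat.ble_eq] at h
  obtain ⟨⟨⟨h1, h2⟩, h3⟩, h⟩ := h
  have lw : (C.vecs.map Vec.w).length = C.vecs.length := List.length_map _
  have lk : (C.vecs.map fun v => [v.k]).length = C.vecs.length := List.length_map _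
  obtain ⟨hsw, hlw⟩ := small_of_flag (rows := C.vecs.map Vec.w)
    (lw.symm ▸ Nat.eq_of_beq_eq_true h1)
  obtain ⟨hsk, hlk⟩ := small_of_flag (rows := C.vecs.map fun v => [v.k])
    (lk.symm ▸ Nat.eq_of_beq_eq_true h2)
  have hget : ∀ i, (((C.vecs.map fun v => [v.k]).getD i []).headD 0)
      = (C.vecs.getD i ⟨[], 0, 0⟩).k := fun i => by
    simp only [List.getD_eq_getElem?_getD, List.getElem?_map]
    cases C.vecs[i]? <;> simp
  obtain ⟨kp, kn⟩ := colPart_eq hsk hlk (j := 0) (by norm_num)
  simp only [lk, mul_zero, zero_add, List.drop_zero, hget] at kp kn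
  have kb : ∀ i, (C.vecs.getD i ⟨[], 0, 0⟩).k.natAbs ≤ wCap := fun i => hget i ▸ hsk.head i
  have hcols := withCols_eq hsw hlw C.basis 0 (by omega)
  simp only [lw] at hcols
  simp only [narW, blkW] at h
  rw [hcols, show (C.vecs.map Vec.w).map (List.drop 0) = C.vecs.map Vec.w from
    (List.map_congr_left fun r _ => List.drop_zero).trans (List.map_id _)] at h
  refine ⟨_, h, hsw, rfl, ?_, ?_⟩
  · simp only [ones_eq (B := 4096) (by norm_num), packD_eq, packN_mul, mul_one, Nat.pow_eq]
  obtain ⟨hp, hn, hb⟩ := colTot_spec C.basis _ hsw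
  rw [List.length_map] at hp hn
  have kc : X.K.c.p = packN 256 16 fun _ => 9 :=
    hX.K.c.1.trans (packN_congr fun k hk => by rw [bval_one k hk]; rfl)
  set R := fun i => (C.vecs.map Vec.w).getD i [] with hR
  set U := 2 * X.S * (4 * (6 * X.N ^ 3)) with hU
  refine ⟨fun i _ => negSum C.basis (R i) * 2 ^ 128 + U * (C.vecs.getD i ⟨[], 0, 0⟩).k.toNat * 9,
    fun i _ => posSum C.basis (R i) * 2 ^ 128 + U * (-(C.vecs.getD i ⟨[], 0, 0⟩).k).toNat * 9,
    ⟨?_, ?_, fun i j _ => ?_⟩, fun i j => ?_⟩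
  · simp only [Nat.add_eq, Nat.mul_eq, hX.M6, hX.bias, ← hU, hn, kp, kc, packN_mul 4096,
      packN_outer, packN_add]
    rfl
  · simp only [Nat.add_eq, Nat.mul_eq, hX.M6, hX.bias, ← hU, hp, kn, kc, packN_mul 4096,
      packN_outer, packN_add]
    rfl
  · obtain ⟨b1, b2⟩ := hb i
    have b3 := kb i
    simp only [Nat.add_eq, Nat.mul_eq, Nat.pow_eq, hX.M6, ← hU]
    have c1 := Nat.mul_le_mul_right (2 ^ 128) b1
    have c2 := Nat.mul_le_mul_right (2 ^ 128) b2
    have c3 : U * (C.vecs.getD i ⟨[], 0, 0⟩).k.toNat * 9 ≤ 64 * U * wCap :=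
      (Nat.mul_le_mul (Nat.mul_le_mul le_rfl (le_trans (by omega) b3)) (by norm_num : 9 ≤ 64)).trans
        (le_of_eq (by ring))
    have c4 : U * (-(C.vecs.getD i ⟨[], 0, 0⟩).k).toNat * 9 ≤ 64 * U * wCap :=
      (Nat.mul_le_mul (Nat.mul_le_mul le_rfl (le_trans (by omega) b3)) (by norm_num : 9 ≤ 64)).trans
        (le_of_eq (by ring))
    exact ⟨add_le_add c2 c3, add_le_add c1 c4⟩
  · have e : (((C.vecs.getD i ⟨[], 0, 0⟩).k.toNat : ℕ) : ℝ)
        - ((-(C.vecs.getD i ⟨[], 0, 0⟩).k).toNat : ℕ) = ((C.vecs.getD i ⟨[], 0, 0⟩).k : ℝ) := by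
      exact_mod_cast Int.toNat_sub_toNat_neg _
    simp only [hU]
    push_cast
    linear_combination (2 * (X.S : ℝ) * (4 * (6 * (X.N : ℝ) ^ 3)) * 9) * e

theorem okBoxN_spec (hX : CtxOK X C) (hmu : ∀ v ∈ C.vecs, v.mu = 0) {W : Rows}
    (hsw : Small (C.vecs.map Vec.w)) (hcols : W.cols = colsOf C.basis (C.vecs.map Vec.w))
    (hmask : W.mask = packN 4096 C.vecs.length (fun _ => packN 256 16 fun _ => 2 ^ 255))
    {dP dN : ℕ → ℕ → ℕ} (hW : Blocks C.vecs.length W.cp W.cn W.cb dP dN)
    (hd : ∀ i j, (dP i j : ℝ) - dN i j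
      = 2 ^ 128 * ((negSum C.basis ((C.vecs.map Vec.w).getD i []) : ℝ)
          - posSum C.basis ((C.vecs.map Vec.w).getD i []))
        + 9 * (8 * (6 * (X.N : ℝ) ^ 3) * X.S * (C.vecs.getD i ⟨[], 0, 0⟩).k))
    (hBs : ∀ B ∈ C.basis, ∀ p ∈ perms B.n, p.2.n0 + p.2.n1 + p.2.n2 = X.N)
    {b : Bx} {R : List (List Root)} {am : ℕ}
    (h : okBoxN X W (C.basis.map fun B => (B.e, termsOf X.N (perms B.n))) b R am = true)
    {i : ℕ} (hi : Act am i) :
    i < C.vecs.length ∧
      ∀ v, InBox C.D b v → 0 ≤ (C.vecs.getD i ⟨[], 0, 0⟩).val C v := by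
  obtain ⟨p, q, hp, hq⟩ := b
  simp only [okBoxN, fN_eq, Bool.and_eq_true, decide_eq_true_eq] at h
  obtain ⟨⟨⟨⟨p0, q0⟩, hp0⟩, hq0⟩, h⟩ := h
  lift p to ℕ using p0
  lift q to ℕ using q0
  lift hp to ℕ using hp0
  lift hq to ℕ using hq0
  simp only [Int.toNat_natCast, Int.natAbs_natCast] at h
  set g := Nat.gcd (Nat.gcd (Nat.gcd p q) (Nat.gcd hp hq)) X.D with hg
  have hXD : 0 < X.D := by
    have := hX.cfg.1
    rw [← hX.D] at this
    exact_mod_cast this
  have hg0 : 0 < g := Nat.gcd_pos_of_pos_right _ hXD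
  have d0 : g ∣ X.D := Nat.gcd_dvd_right _ _
  have d1 : g ∣ Nat.gcd (Nat.gcd p q) (Nat.gcd hp hq) := Nat.gcd_dvd_left _ _
  obtain ⟨D', hD'⟩ := d0
  obtain ⟨p', hp'⟩ := d1.trans ((Nat.gcd_dvd_left _ _).trans (Nat.gcd_dvd_left p q))
  obtain ⟨q', hq'⟩ := d1.trans ((Nat.gcd_dvd_left _ _).trans (Nat.gcd_dvd_right p q))
  obtain ⟨hp1, hhp⟩ := d1.trans ((Nat.gcd_dvd_right _ _).trans (Nat.gcd_dvd_left hp hq))
  obtain ⟨hq1, hhq⟩ := d1.trans ((Nat.gcd_dvd_right _ _).trans (Nat.gcd_dvd_right hp hq))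
  rw [show Nat.div X.D g = D' by rw [hD']; exact Nat.mul_div_cancel_left _ hg0,
    show Nat.div p g = p' by rw [hp']; exact Nat.mul_div_cancel_left _ hg0,
    show Nat.div q g = q' by rw [hq']; exact Nat.mul_div_cancel_left _ hg0,
    show Nat.div hp g = hp1 by rw [hhp]; exact Nat.mul_div_cancel_left _ hg0,
    show Nat.div hq g = hq1 by rw [hhq]; exact Nat.mul_div_cancel_left _ hg0, hcols] at h
  have hD0 : 0 < D' := Nat.pos_of_mul_pos_left (hD' ▸ hXD)
  have main : ∀ s t : ℝ, |s| ≤ 1 → |t| ≤ 1 → i < C.vecs.length ∧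
      0 ≤ (C.vecs.getD i ⟨[], 0, 0⟩).val C ((⟨p', q', hp1, hq1⟩ : Bx).pt D' s t) := by
    intro s t hs ht
    obtain ⟨ms, h1, hms⟩ := allN_spec hX hD0 hs ht C.basis hBs (prev := none)
      (fun e' G' h => by simp at h) h
    have hW' : Blocks (C.vecs.map Vec.w).length W.cp W.cn W.cb dP dN := by
      rwa [List.length_map]
    obtain ⟨P, N, bd, eP, eN, h2, ⟨hP, hN, hb⟩, hle⟩ :=
      dotN_spec (u := (⟨p', q', hp1, hq1⟩ : Bx).pt D' s t) hs ht _ _ hms hsw h1 hW'
    rw [List.length_map] at hP hN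
    simp only [Bool.and_eq_true, Nat.blt, Nat.ble_eq] at h2
    obtain ⟨hbd, hand⟩ := h2
    have hbd' : bd < 2 ^ 255 := hbd
    have hand' : (P + W.mask - N) &&& am = am := Nat.eq_of_beq_eq_true hand
    rw [hmask, hP, hN, packN_add, packN_sub (fun i _ => by
      rw [packN_add]
      exact sum_le_sum fun k hk => Nat.mul_le_mul_right _
        (show eN i k ≤ eP i k + 2 ^ 255 from
          (le_trans (hb i k (mem_range.1 hk)).2 hbd'.le).trans (Nat.le_add_left _ _)))] at hand'
    have hblk : ∀ i' k, k < 16 → eP i' k + 2 ^ 255 - eN i' k < 2 ^ 256 := fun i' k hk => by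
      have := (hb i' k hk).1
      norm_num at *
      omega
    have hin : ∀ i', packN 256 16 (eP i') + packN 256 16 (fun _ => 2 ^ 255) - packN 256 16 (eN i')
        = packN 256 16 fun k => eP i' k + 2 ^ 255 - eN i' k := fun i' => by
      rw [packN_add]
      exact packN_sub fun k hk => by have := (hb i' k hk).2; omega
    simp only [hin] at hand'
    have key : ∀ k < 16, i < C.vecs.length ∧ eN i k ≤ eP i k := fun k hk => by
      have hbit := congrArg (fun x => Nat.testBit x (4096 * i + (256 * k + 255))) hand'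
      simp only [Nat.testBit_and, hi k hk, Bool.and_true] at hbit
      rw [testBit_packN (fun i' _ => packN_lt (hblk i')) i (256 * k + 255) (by omega),
        Bool.and_eq_true, decide_eq_true_eq,
        testBit_packN (hblk i) k 255 (by norm_num), Bool.and_eq_true, decide_eq_true_eq] at hbit
      refine ⟨hbit.1, ?_⟩
      have := Nat.ge_two_pow_of_testBit hbit.2.2
      have := (hb i k hk).2
      omega
    refine ⟨(key 0 (by norm_num)).1, ?_⟩
    have hle' := hle i
    simp only [hd] at hle'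
    have h0 : 0 ≤ bev (fun j => (eP i j : ℝ) - eN i j) s t := by
      refine le_of_eq_of_le ?_ (bev_mono (d := fun _ => (0 : ℝ)) hs ht fun k hk =>
        sub_nonneg.2 (Nat.cast_le.2 (key k hk).2))
      simp [bev]
    have hv : (C.vecs.getD i ⟨[], 0, 0⟩).mu = 0 := by
      rw [List.getD_eq_getElem _ _ (key 0 (by norm_num)).1]
      exact hmu _ (List.getElem_mem _)
    have hG : (0 : ℝ) < 8 * (6 * (X.N : ℝ) ^ 3) * X.S := by
      have := hX.cfg.2.2
      have := hX.cfg.2.1
      rw [← hX.N] at *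
      have hS : (0 : ℝ) < (X.S : ℝ) := by
        have : (0 : ℤ) < X.S := hX.S ▸ hX.cfg.2.1
        exact_mod_cast this
      have hN : (0 : ℝ) < (X.N : ℝ) := by exact_mod_cast Nat.pos_of_ne_zero ‹X.N ≠ 0›
      positivity
    refine nonneg_of_mul_nonneg_right ?_ hG
    have hw : (C.vecs.map Vec.w).getD i [] = (C.vecs.getD i ⟨[], 0, 0⟩).w :=
      List.getD_map C.vecs ⟨[], 0, 0⟩ Vec.w
    rw [bev_sub, bev_add, bev_const] at hle'
    rw [hw] at hle'
    have hc : bev (fun _ => 2 ^ 128 * ((negSum C.basis (C.vecs.getD i ⟨[], 0, 0⟩).w : ℝ)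
          - posSum C.basis (C.vecs.getD i ⟨[], 0, 0⟩).w)) s t
        = -bev (fun _ => 2 ^ 128 * ((posSum C.basis (C.vecs.getD i ⟨[], 0, 0⟩).w : ℝ)
          - negSum C.basis (C.vecs.getD i ⟨[], 0, 0⟩).w)) s t := by
      rw [← neg_one_mul (bev _ s t), ← bev_mul]
      exact bev_congr fun k _ => by ring
    rw [Vec.val, hv]
    push_cast
    linarith
  refine ⟨(main 0 0 (by simp) (by simp)).1, ?_⟩
  rintro v ⟨s, t, hs, ht, rfl⟩
  convert (main s t hs ht).2 using 2
  have hg' : (g : ℝ) ≠ 0 := by exact_mod_cast hg0.ne'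
  have hD'' : (D' : ℝ) ≠ 0 := by exact_mod_cast hD0.ne'
  funext j
  rw [← hX.D, hD', hp', hq', hhp, hhq]
  fin_cases j <;> simp [Bx.pt] <;> field_simp

theorem withCtx_spec (hC : cfgOk C = true) {k : Ctx → Bool} (h : withCtx C k = true) :
    ∃ X, k X = true ∧ CtxOK X C := by
  simp only [cfgOk, Bool.and_eq_true, decide_eq_true_eq] at hC
  obtain ⟨⟨⟨⟨hD, -⟩, hS⟩, hN⟩, -⟩ := hC
  simp only [withCtx, fN_eq] at h
  obtain ⟨K, hK, hk⟩ := withKeys_spec (fun K => fN (Nat.mul (Nat.pow 2 144) K.c.p) fun oneH =>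
    k ⟨C.D.toNat, C.S.toNat, C.N, Nat.pow C.S.toNat C.N, Nat.mul 6 (Nat.pow C.N 3), K,
      packD fun _ => Nat.sub (Nat.pow 2 112) 1, packD fun _ => Nat.pow 2 128, packD fun _ => 1,
      packD fun _ => Nat.pow 2 160, oneH⟩)
  simp only [fN_eq] at hk
  rw [hk] at h
  refine ⟨_, h, ⟨hD, hS, hN⟩, Int.toNat_of_nonneg hD.le, Int.toNat_of_nonneg hS.le, rfl, ?_, ?_,
    hK, ?_, ?_, ?_, ?_, ?_⟩ <;> simp only [packD_eq, Nat.pow_eq, Nat.mul_eq, Nat.sub_eq]

theorem checkN_spec (hX : CtxOK X C) {W : Rows} {Bs : List (Side × List (ℕ × N3 × Coef))} {m16 : ℕ}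
    (hm : ∀ ids i k, k < 16 → (maskIds m16 ids).testBit (4096 * i + (256 * k + 255))
      = decide (i ∈ ids))
    (hok : ∀ b R am i, okBoxN X W Bs b R am = true → Act am i → i < C.vecs.length ∧
      ∀ v, InBox C.D b v → 0 ≤ (C.vecs.getD i ⟨[], 0, 0⟩).val C v) :
    ∀ (T : CTree) (b : Bx) (am : ℕ),
      checkN X W Bs m16 T b am = true →
      ∀ i, Act am i → ∀ u : Fin 3 → ℝ, u 2 ≤ u 1 → u 1 ≤ u 0 → InBox C.D b u →
        i < C.vecs.length ∧ 0 ≤ (C.vecs.getD i ⟨[], 0, 0⟩).val C u := by
  intro T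
  induction T with
  | skip =>
    intro b am h i hi u h21 h10 hu
    simp only [checkN, hX.D, not_outside hX.cfg.1 h21 h10 hu, Bool.or_false] at h
    have := hi 0 (by norm_num)
    rw [Nat.eq_of_beq_eq_true h] at this
    simp at this
  | leaf R =>
    intro b am h i hi u _ _ hu
    exact ⟨(hok b R am i h hi).1, (hok b R am i h hi).2 u hu⟩
  | split ax l r ihl ihr =>
    intro b am h i hi u h21 h10 hu
    simp only [checkN, Bool.and_eq_true] at h
    rcases inBox_half h.1.1 hu with h' | h'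
    · exact ihl _ _ h.1.2 i hi u h21 h10 h'
    · exact ihr _ _ h.2 i hi u h21 h10 h'
  | part R ok T ih =>
    intro b am h i hi u h21 h10 hu
    simp only [checkN, fN_eq, Bool.and_eq_true] at h
    by_cases hio : i ∈ ok
    · have ha : Act (maskIds m16 ok) i := fun k hk => by rw [hm ok i k hk]; simpa using hio
      exact ⟨(hok b R _ i h.1 ha).1, (hok b R _ i h.1 ha).2 u hu⟩
    · refine ih b _ h.2 i (fun k hk => ?_) u h21 h10 hu
      show (am ^^^ _).testBit _ = true
      rw [Nat.testBit_xor, hi k hk, hm ok i k hk]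
      simp [hio]

/-- A successful check certifies the vectors on the box. -/
theorem cert_of_check (hC : cfgOk C = true) {T : CTree} {b : Bx} {ids : List ℕ}
    (hb : ∀ i ∈ ids, i < C.vecs.length) (h : checkFast C T b ids = true) : Cert C b ids := by
  have hmu : ∀ v ∈ C.vecs, v.mu = 0 := by
    simp only [cfgOk, Bool.and_eq_true, List.all_eq_true, decide_eq_true_eq] at hC
    exact hC.2
  simp only [checkFast] at h
  obtain ⟨X, h1, hX⟩ := withCtx_spec hC h
  obtain ⟨W, h2, hsw, hcols, hmask, dP, dN, hW, hd⟩ := rows_spec hX h1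
  simp only [fN_eq] at h2
  obtain ⟨h3, hBs⟩ := withBasis_spec h2
  exact fun i hi => ⟨hb i hi, fun u h21 h10 hu =>
    (checkN_spec hX (fun ids i k hk => maskIds_bit hk ids i) (fun b R am i h hi => okBoxN_spec hX hmu hsw hcols hmask hW hd hBs h hi) T b _ h3 i
      (act_maskIds.2 hi) u h21 h10 hu).2⟩

/-- A box is certified when its halves are. -/
theorem cert_split {b : Bx} {ax : Bool} {ids : List ℕ} (hh : halfOk b ax = true)
    (hl : Cert C (half b ax).1 ids) (hr : Cert C (half b ax).2 ids) : Cert C b ids :=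
  fun i hi => ⟨(hl i hi).1, fun u h21 h10 hu => (inBox_half hh hu).elim
    ((hl i hi).2 u h21 h10) ((hr i hi).2 u h21 h10)⟩

/-- Certificates of two lists of vectors. -/
theorem cert_union {b : Bx} {ids ids₁ ids₂ : List ℕ}
    (h : (ids.all fun i => ids₁.contains i || ids₂.contains i) = true) (h₁ : Cert C b ids₁)
    (h₂ : Cert C b ids₂) : Cert C b ids := fun i hi => by
  have := List.all_eq_true.1 h i hi
  rcases Bool.or_eq_true _ _ ▸ this with h' | h'
  · exact h₁ i (by simpa using h')
  · exact h₂ i (by simpa using h')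

/-- A certificate at the root: every vector is nonnegative on the simplex. -/
theorem nonneg_of_cert (hC : cfgOk C = true)
    (h : Cert C (root C.D) (List.range C.vecs.length)) : Nonneg C := by
  simp only [cfgOk, Bool.and_eq_true, List.all_eq_true, decide_eq_true_eq] at hC
  obtain ⟨⟨⟨⟨hD, h12⟩, -⟩, -⟩, -⟩ := hC
  intro v hv u h0 h1
  obtain ⟨i, hi, rfl⟩ := List.getElem_of_mem hv
  refine sorted_cases (P := fun u => 0 ≤ (C.vecs[i]).val C u) (fun w σ hw => ?_)
    (fun w w0 w1 h21 h10 => ?_) h0 h1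
  · rwa [Vec.val, wsum_perm, sqDev_relabel] at hw
  · have := (h i (List.mem_range.2 hi)).2 w h21 h10 ?_
    · rwa [List.getD_eq_getElem _ _ hi] at this
    have hD' : (0 : ℝ) < (C.D : ℝ) := by exact_mod_cast hD
    have e6 : ((C.D / 6 : ℤ) : ℝ) * 6 = C.D := by
      exact_mod_cast (show C.D / 6 * 6 = C.D by omega)
    have e4 : ((C.D / 4 : ℤ) : ℝ) * 4 = C.D := by
      exact_mod_cast (show C.D / 4 * 4 = C.D by omega)
    rw [Fin.sum_univ_three] at w1
    have := w0 1; have := w0 2
    refine ⟨6 * w 2 - 1, 4 * w 1 - 1, abs_le.2 ⟨by linarith, by linarith⟩,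
      abs_le.2 ⟨by linarith, by linarith⟩, funext fun j => ?_⟩
    fin_cases j <;> simp [Bx.pt, root] <;> field_simp <;> nlinarith

end Vale.Agent.P154.Anti.Box
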