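import Vale.Agent.P154.Anti.BoxCheck

/-!
# A fast box checker: definitions

The kernel multiplies literals of natural numbers at once, while integers cost much more. A
signed number is a pair `p - n`. A polynomial on a box is carried by its sixteen Bernstein values in
digits of base `2 ^ 256`, and all vectors are tested on a box by two multiplications per basis
function and one bit mask.
-/

namespace Vale.Agent.P154.Anti.Box

/-- Evaluate a natural number before using it. -/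
def fN {α : Type} (x : ℕ) (k : ℕ → α) : α :=
  k x

/-- The difference `p - n`. -/
structure Z2 where
  p : ℕ
  n : ℕ

namespace Z2

/-- The integer represented. -/
def val (a : Z2) : ℤ := (a.p : ℤ) - a.n

/-- Zero. -/
def zero : Z2 := ⟨0, 0⟩

/-- A natural number. -/
def ofN (a : ℕ) : Z2 := ⟨a, 0⟩

/-- An integer. -/
def ofI (z : ℤ) : Z2 := ⟨z.toNat, (-z).toNat⟩

/-- Sum. -/
def add (a b : Z2) : Z2 := ⟨Nat.add a.p b.p, Nat.add a.n b.n⟩

/-- Difference. -/
def sub (a b : Z2) : Z2 := ⟨Nat.add a.p b.n, Nat.add a.n b.p⟩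

/-- The opposite. -/
def neg (a : Z2) : Z2 := ⟨a.n, a.p⟩

/-- A natural multiple. -/
def scale (c : ℕ) (a : Z2) : Z2 := ⟨Nat.mul c a.p, Nat.mul c a.n⟩

/-- Product. -/
def mul (a b : Z2) : Z2 :=
  ⟨Nat.add (Nat.mul a.p b.p) (Nat.mul a.n b.n), Nat.add (Nat.mul a.p b.n) (Nat.mul a.n b.p)⟩

/-- The quotient rounded down by a positive number. -/
def quo (a : Z2) (d : ℕ) : Z2 :=
  ⟨Nat.div (Nat.sub a.p a.n) d, Nat.div (Nat.sub (Nat.add (Nat.sub a.n a.p) d) 1) d⟩

/-- The absolute value. -/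
def absv (a : Z2) : ℕ := Nat.add (Nat.sub a.p a.n) (Nat.sub a.n a.p)

/-- Evaluate before using. -/
def force {α : Type} (a : Z2) (k : Z2 → α) : α := fN a.p fun p => fN a.n fun n => k ⟨p, n⟩

end Z2

/-- Ten signed coefficients. -/
structure Q10 where
  c : Z2
  x : Z2
  y : Z2
  xx : Z2
  xy : Z2
  yy : Z2
  xxx : Z2
  xxy : Z2
  xyy : Z2
  yyy : Z2

namespace Q10

/-- The polynomial represented. -/
def toP (q : Q10) : P10 :=
  ⟨q.c.val, q.x.val, q.y.val, q.xx.val, q.xy.val, q.yy.val, q.xxx.val, q.xxy.val, q.xyy.val,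
    q.yyy.val⟩

/-- A constant. -/
def const (k : Z2) : Q10 :=
  ⟨k, .zero, .zero, .zero, .zero, .zero, .zero, .zero, .zero, .zero⟩

/-- Sum. -/
def add (p q : Q10) : Q10 :=
  ⟨p.c.add q.c, p.x.add q.x, p.y.add q.y, p.xx.add q.xx, p.xy.add q.xy, p.yy.add q.yy,
    p.xxx.add q.xxx, p.xxy.add q.xxy, p.xyy.add q.xyy, p.yyy.add q.yyy⟩

/-- A natural multiple. -/
def scale (k : ℕ) (p : Q10) : Q10 :=
  ⟨p.c.scale k, p.x.scale k, p.y.scale k, p.xx.scale k, p.xy.scale k, p.yy.scale k,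
    p.xxx.scale k, p.xxy.scale k, p.xyy.scale k, p.yyy.scale k⟩

/-- The opposite. -/
def neg (p : Q10) : Q10 :=
  ⟨p.c.neg, p.x.neg, p.y.neg, p.xx.neg, p.xy.neg, p.yy.neg, p.xxx.neg, p.xxy.neg, p.xyy.neg,
    p.yyy.neg⟩

/-- Coefficientwise quotient. -/
def quo (p : Q10) (d : ℕ) : Q10 :=
  ⟨p.c.quo d, p.x.quo d, p.y.quo d, p.xx.quo d, p.xy.quo d, p.yy.quo d, p.xxx.quo d,
    p.xxy.quo d, p.xyy.quo d, p.yyy.quo d⟩

/-- Evaluate before using. -/
def force {α : Type} (p : Q10) (k : Q10 → α) : α :=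
  p.c.force fun c => p.x.force fun x => p.y.force fun y => p.xx.force fun xx =>
  p.xy.force fun xy => p.yy.force fun yy => p.xxx.force fun xxx => p.xxy.force fun xxy =>
  p.xyy.force fun xyy => p.yyy.force fun yyy => k ⟨c, x, y, xx, xy, yy, xxx, xxy, xyy, yyy⟩

end Q10

/-- The data of an affine family that all rearrangements share. -/
structure FamN where
  den : ℕ
  v0 : ℕ
  v1 : ℕ
  v2 : ℕ
  A0 : Z2
  A2 : Z2
  B0 : Z2
  B1 : Z2
  e0 : ℕ
  e1 : ℕ
  e2 : ℕ

/-- Positivity at the centre and nonnegativity on the box. -/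
def FamN.ok (F : FamN) : Bool :=
  Nat.blt 0 F.den && Nat.blt 0 F.v0 && Nat.blt 0 F.v1 && Nat.blt 0 F.v2 && Nat.ble F.e0 F.v0
    && Nat.ble F.e1 F.v1 && Nat.ble F.e2 F.v2

/-- The family of a side over a box given by signed numbers. -/
def famN {α : Type} (D : ℕ) (p q hp hq ln : Z2) (ld : ℕ) (k : FamN → α) : α :=
  (Z2.scale 3 ln).force fun l3 =>
  (Z2.scale D ((Z2.ofN ld).sub ln)).force fun c =>
  let u0 := (l3.mul (((Z2.ofN D).sub p).sub q)).add c
  let u1 := (l3.mul q).add c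
  let u2 := (l3.mul p).add c
  fN (Nat.sub u0.p u0.n) fun v0 => fN (Nat.sub u1.p u1.n) fun v1 =>
  fN (Nat.sub u2.p u2.n) fun v2 =>
  (l3.mul hp).force fun A2 => (l3.mul hq).force fun B1 =>
  fN A2.absv fun e2 => fN B1.absv fun e1 =>
  fN (Nat.mul (Nat.mul 3 ld) D) fun den =>
  k ⟨den, v0, v1, v2, A2.neg, A2, B1.neg, B1, Nat.add e2 e1, e1, e2⟩

/-- Fixed point scale of the relative deviations. -/
def devBits : ℕ := 48

/-- Digit width. -/
def digW : ℕ := 256

/-- Width of the sixteen values of one vector. -/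
def blkW : ℕ := 4096

/-- The Bernstein rows in the order of the digits. -/
def rowPair (i : ℕ) : (ℤ × ℤ × ℤ) × (ℤ × ℤ × ℤ) :=
  (P10.rows.getD (i / 4) (0, 0, 0), P10.rows.getD (i % 4) (0, 0, 0))

/-- Sixteen digits as one number. -/
def packD (d : ℕ → ℕ) : ℕ :=
  (List.range 16).foldr (fun i r => Nat.add (Nat.shiftLeft (d i) (Nat.mul digW i)) r) 0

/-- The positive part of the Bernstein values. -/
def keyP (f : P10) : ℕ := packD fun i => (P10.bern f (rowPair i).1 (rowPair i).2).toNat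

/-- The negative part of the Bernstein values. -/
def keyN (f : P10) : ℕ := packD fun i => (-P10.bern f (rowPair i).1 (rowPair i).2).toNat

/-- A packed pair of a fixed polynomial. -/
structure Key where
  p : ℕ
  n : ℕ

/-- The key of a polynomial, evaluated. -/
def withKey {α : Type} (f : P10) (k : Key → α) : α :=
  fN (keyP f) fun p => fN (keyN f) fun n => k ⟨p, n⟩

/-- The keys used by the checker. -/
structure Keys where
  c : Key
  x : Key
  y : Key
  xx : Key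
  xy : Key
  yy : Key
  xxx : Key
  xxy : Key
  xyy : Key
  yyy : Key
  mm : Key
  mp : Key
  pm : Key
  pp : Key

/-- Evaluation of all keys. -/
def withKeys {α : Type} (k : Keys → α) : α :=
  withKey ⟨1, 0, 0, 0, 0, 0, 0, 0, 0, 0⟩ fun c => withKey ⟨0, 1, 0, 0, 0, 0, 0, 0, 0, 0⟩ fun x =>
  withKey ⟨0, 0, 1, 0, 0, 0, 0, 0, 0, 0⟩ fun y => withKey ⟨0, 0, 0, 1, 0, 0, 0, 0, 0, 0⟩ fun xx =>
  withKey ⟨0, 0, 0, 0, 1, 0, 0, 0, 0, 0⟩ fun xy => withKey ⟨0, 0, 0, 0, 0, 1, 0, 0, 0, 0⟩ fun yy =>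
  withKey ⟨0, 0, 0, 0, 0, 0, 1, 0, 0, 0⟩ fun xxx =>
  withKey ⟨0, 0, 0, 0, 0, 0, 0, 1, 0, 0⟩ fun xxy =>
  withKey ⟨0, 0, 0, 0, 0, 0, 0, 0, 1, 0⟩ fun xyy =>
  withKey ⟨0, 0, 0, 0, 0, 0, 0, 0, 0, 1⟩ fun yyy =>
  withKey ⟨1, -1, -1, 0, 1, 0, 0, 0, 0, 0⟩ fun mm =>
  withKey ⟨1, -1, 1, 0, -1, 0, 0, 0, 0, 0⟩ fun mp =>
  withKey ⟨1, 1, -1, 0, -1, 0, 0, 0, 0, 0⟩ fun pm =>
  withKey ⟨1, 1, 1, 0, 1, 0, 0, 0, 0, 0⟩ fun pp =>
  k ⟨c, x, y, xx, xy, yy, xxx, xxy, xyy, yyy, mm, mp, pm, pp⟩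

/-- Packed values with a bound on the digits. -/
structure PN where
  p : ℕ
  n : ℕ
  sz : ℕ

namespace PN

/-- Zero. -/
def zero : PN := ⟨0, 0, 0⟩

/-- A natural multiple of a fixed polynomial. -/
def ofKeyN (c : ℕ) (K : Key) : PN := ⟨Nat.mul c K.p, Nat.mul c K.n, Nat.mul 64 c⟩

/-- Add a multiple of a fixed polynomial. -/
def addKey (X : PN) (z : Z2) (K : Key) : PN :=
  ⟨Nat.add X.p (Nat.add (Nat.mul z.p K.p) (Nat.mul z.n K.n)),
    Nat.add X.n (Nat.add (Nat.mul z.p K.n) (Nat.mul z.n K.p)),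
    Nat.add X.sz (Nat.mul 64 (Nat.add z.p z.n))⟩

/-- Sum. -/
def add (X Y : PN) : PN := ⟨Nat.add X.p Y.p, Nat.add X.n Y.n, Nat.add X.sz Y.sz⟩

/-- A natural multiple. -/
def scale (c : ℕ) (X : PN) : PN := ⟨Nat.mul c X.p, Nat.mul c X.n, Nat.mul c X.sz⟩

/-- Add a natural multiple. -/
def addMul (X : PN) (c : ℕ) (Y : PN) : PN :=
  ⟨Nat.add X.p (Nat.mul c Y.p), Nat.add X.n (Nat.mul c Y.n), Nat.add X.sz (Nat.mul c Y.sz)⟩

/-- The opposite. -/
def swap (X : PN) : PN := ⟨X.n, X.p, X.sz⟩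

/-- Evaluate before using. -/
def force {α : Type} (X : PN) (k : PN → α) : α :=
  fN X.p fun p => fN X.n fun n => fN X.sz fun s => k ⟨p, n, s⟩

end PN

/-- A packed pair as one number with the bias added to every digit, when the digits fit. -/
def PN.biased {α : Type} (X : PN) (bias : ℕ) (k : ℕ → α) : α :=
  fN (Nat.sub (Nat.add X.p bias) X.n) k

/-- The deviations at one scale: the centre moves by `a0 s + b0 t`, `b1 t`, `a2 s`. -/
structure Devs where
  a0 : Z2
  b0 : Z2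
  b1 : Z2
  a2 : Z2

/-- The shared monomials of a side in biased form at the scale `2 ^ 144`, negated where their
coefficient in the Taylor polynomial is negative. -/
structure Mons where
  l0 : ℕ
  l1 : ℕ
  l2 : ℕ
  q00 : ℕ
  q11 : ℕ
  q22 : ℕ
  q01 : ℕ
  q02 : ℕ
  q12 : ℕ
  c000 : ℕ
  c111 : ℕ
  c222 : ℕ
  c011 : ℕ
  c022 : ℕ
  c100 : ℕ
  c122 : ℕ
  c200 : ℕ
  c211 : ℕ
  c012 : ℕ

/-- The monomials from the deviations at the scales `2 ^ 48`, `2 ^ 96`, `2 ^ 144`, and a bound of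
their digits. -/
def monsN {α : Type} (K : Keys) (bias : ℕ) (e f g : Devs) (k : Mons → ℕ → α) : α :=
  (e.a0.mul e.a0).force fun aa => ((e.a0.mul e.b0).scale 2).force fun ab =>
  (e.b0.mul e.b0).force fun bb => (e.b1.mul e.b1).force fun ee => (e.a2.mul e.a2).force fun gg =>
  (e.a2.mul e.b1).force fun ge =>
  let z := PN.zero
  let L0 := (z.addKey g.a0 K.x).addKey g.b0 K.y
  let L1 := z.addKey g.b1 K.y
  let L2 := z.addKey g.a2 K.x
  let Q00 := (((z.addKey (e.a0.mul f.a0) K.xx).addKey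
    ((e.a0.mul f.b0).add (e.b0.mul f.a0)) K.xy).addKey (e.b0.mul f.b0) K.yy).swap
  let Q11 := (z.addKey (e.b1.mul f.b1) K.yy).swap
  let Q22 := (z.addKey (e.a2.mul f.a2) K.xx).swap
  let Q01 := (z.addKey (e.a0.mul f.b1) K.xy).addKey (e.b0.mul f.b1) K.yy
  let Q02 := (z.addKey (e.a0.mul f.a2) K.xx).addKey (e.b0.mul f.a2) K.xy
  let Q12 := z.addKey (e.a2.mul f.b1) K.xy
  let C000 := (((z.addKey (aa.mul e.a0) K.xxx).addKey ((aa.mul e.b0).add (ab.mul e.a0))
    K.xxy).addKey ((ab.mul e.b0).add (bb.mul e.a0)) K.xyy).addKey (bb.mul e.b0) K.yyy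
  let C111 := z.addKey (ee.mul e.b1) K.yyy
  let C222 := z.addKey (gg.mul e.a2) K.xxx
  let C011 := ((z.addKey (ee.mul e.a0) K.xyy).addKey (ee.mul e.b0) K.yyy).swap
  let C022 := ((z.addKey (gg.mul e.a0) K.xxx).addKey (gg.mul e.b0) K.xxy).swap
  let C100 := (((z.addKey (aa.mul e.b1) K.xxy).addKey (ab.mul e.b1) K.xyy).addKey
    (bb.mul e.b1) K.yyy).swap
  let C122 := (z.addKey (gg.mul e.b1) K.xxy).swap
  let C200 := (((z.addKey (aa.mul e.a2) K.xxx).addKey (ab.mul e.a2) K.xxy).addKey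
    (bb.mul e.a2) K.xyy).swap
  let C211 := (z.addKey (ee.mul e.a2) K.xyy).swap
  let C012 := (z.addKey (ge.mul e.a0) K.xxy).addKey (ge.mul e.b0) K.xyy
  fN (Nat.add (Nat.add (Nat.add L0.sz (Nat.add L1.sz L2.sz))
      (Nat.add (Nat.add Q00.sz (Nat.add Q11.sz Q22.sz)) (Nat.add Q01.sz (Nat.add Q02.sz Q12.sz))))
      (Nat.add (Nat.add (Nat.add C000.sz (Nat.add C111.sz C222.sz))
        (Nat.add C011.sz (Nat.add C022.sz C100.sz)))
        (Nat.add (Nat.add C122.sz (Nat.add C200.sz C211.sz)) C012.sz))) fun sz =>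
  L0.biased bias fun l0 => L1.biased bias fun l1 => L2.biased bias fun l2 =>
  Q00.biased bias fun q00 => Q11.biased bias fun q11 => Q22.biased bias fun q22 =>
  Q01.biased bias fun q01 => Q02.biased bias fun q02 => Q12.biased bias fun q12 =>
  C000.biased bias fun c000 => C111.biased bias fun c111 => C222.biased bias fun c222 =>
  C011.biased bias fun c011 => C022.biased bias fun c022 => C100.biased bias fun c100 =>
  C122.biased bias fun c122 => C200.biased bias fun c200 => C211.biased bias fun c211 =>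
  C012.biased bias fun c012 =>
  k ⟨l0, l1, l2, q00, q11, q22, q01, q02, q12, c000, c111, c222, c011, c022, c100, c122, c200,
    c211, c012⟩ sz

/-- The coefficients of the monomials in six times the cubed denominator times the Taylor
polynomial, with the constant term and their total. -/
structure Coef where
  one : ℕ
  tot : ℕ
  l0 : ℕ
  l1 : ℕ
  l2 : ℕ
  q00 : ℕ
  q11 : ℕ
  q22 : ℕ
  q01 : ℕ
  q02 : ℕ
  q12 : ℕ
  c000 : ℕ
  c111 : ℕ
  c222 : ℕ
  c011 : ℕ
  c022 : ℕ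
  c100 : ℕ
  c122 : ℕ
  c200 : ℕ
  c211 : ℕ
  c012 : ℕ

/-- The coefficient of the monomial `E i * E j ^ 2` up to sign. -/
def cMix (M mi mj : ℕ) : ℕ := Nat.mul (Nat.mul 3 mi) (Nat.mul mj (Nat.sub M mj))

/-- The coefficient of the monomial `E i ^ 3`. -/
def cCube (M mi : ℕ) : ℕ := Nat.mul (Nat.mul mi (Nat.sub M mi)) (Nat.sub (Nat.mul 2 M) mi)

/-- Evaluate the coefficients. -/
def withCoef (M m0 m1 m2 : ℕ) (k : Coef → Bool) : Bool :=
  fN (Nat.mul (Nat.mul 6 (Nat.pow M 2)) m0) fun l0 =>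
  fN (Nat.mul (Nat.mul 6 (Nat.pow M 2)) m1) fun l1 =>
  fN (Nat.mul (Nat.mul 6 (Nat.pow M 2)) m2) fun l2 =>
  fN (Nat.mul (Nat.mul 3 M) (Nat.mul m0 (Nat.sub M m0))) fun q00 =>
  fN (Nat.mul (Nat.mul 3 M) (Nat.mul m1 (Nat.sub M m1))) fun q11 =>
  fN (Nat.mul (Nat.mul 3 M) (Nat.mul m2 (Nat.sub M m2))) fun q22 =>
  fN (Nat.mul (Nat.mul 6 M) (Nat.mul m0 m1)) fun q01 =>
  fN (Nat.mul (Nat.mul 6 M) (Nat.mul m0 m2)) fun q02 =>
  fN (Nat.mul (Nat.mul 6 M) (Nat.mul m1 m2)) fun q12 =>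
  fN (cCube M m0) fun c000 => fN (cCube M m1) fun c111 => fN (cCube M m2) fun c222 =>
  fN (cMix M m0 m1) fun c011 => fN (cMix M m0 m2) fun c022 => fN (cMix M m1 m0) fun c100 =>
  fN (cMix M m1 m2) fun c122 => fN (cMix M m2 m0) fun c200 => fN (cMix M m2 m1) fun c211 =>
  fN (Nat.mul 6 (Nat.mul m0 (Nat.mul m1 m2))) fun c012 =>
  fN (Nat.mul 6 (Nat.pow M 3)) fun one =>
  fN (Nat.add (Nat.add (Nat.add l0 (Nat.add l1 l2))
      (Nat.add (Nat.add q00 (Nat.add q11 q22)) (Nat.add q01 (Nat.add q02 q12))))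
      (Nat.add (Nat.add (Nat.add c000 (Nat.add c111 c222)) (Nat.add c011 (Nat.add c022 c100)))
        (Nat.add (Nat.add c122 (Nat.add c200 c211)) c012))) fun tot =>
  k ⟨one, tot, l0, l1, l2, q00, q11, q22, q01, q02, q12, c000, c111, c222, c011, c022, c100, c122,
    c200, c211, c012⟩

/-- The biased Taylor polynomial. -/
def taylorN {α : Type} (one : ℕ) (c : Coef) (G : Mons) (k : ℕ → α) : α :=
  fN (Nat.add (Nat.add
    (Nat.add (Nat.mul c.one one)
      (Nat.add (Nat.mul c.l0 G.l0) (Nat.add (Nat.mul c.l1 G.l1) (Nat.mul c.l2 G.l2))))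
    (Nat.add (Nat.add (Nat.mul c.q00 G.q00) (Nat.add (Nat.mul c.q11 G.q11) (Nat.mul c.q22 G.q22)))
      (Nat.add (Nat.mul c.q01 G.q01) (Nat.add (Nat.mul c.q02 G.q02) (Nat.mul c.q12 G.q12)))))
    (Nat.add
      (Nat.add (Nat.add (Nat.mul c.c000 G.c000) (Nat.add (Nat.mul c.c111 G.c111)
        (Nat.mul c.c222 G.c222)))
        (Nat.add (Nat.mul c.c011 G.c011) (Nat.add (Nat.mul c.c022 G.c022) (Nat.mul c.c100 G.c100))))
      (Nat.add (Nat.add (Nat.mul c.c122 G.c122) (Nat.add (Nat.mul c.c200 G.c200)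
        (Nat.mul c.c211 G.c211))) (Nat.mul c.c012 G.c012)))) k

/-- The data of a side on a box. -/
structure SideD where
  F : FamN
  r0 : ℕ
  r1 : ℕ
  r2 : ℕ
  G : Mons

/-- A relative deviation rounded up. -/
def relUpN (x v : ℕ) : ℕ := Nat.div (Nat.sub (Nat.add (Nat.mul x (Nat.pow 2 24)) v) 1) v

/-- The context of a check. -/
structure Ctx where
  D : ℕ
  S : ℕ
  N : ℕ
  SN : ℕ
  M6 : ℕ
  K : Keys
  low : ℕ
  bias : ℕ
  oneD : ℕ
  b160 : ℕ
  oneH : ℕ

/-- A signed ratio in fixed point. -/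
def devN (sc : ℕ) (A : Z2) (v : ℕ) : Z2 := (A.scale sc).quo v

/-- The deviations at one scale. -/
def withDevs {α : Type} (sc : ℕ) (F : FamN) (k : Devs → α) : α :=
  (devN sc F.A0 F.v0).force fun a0 => (devN sc F.B0 F.v0).force fun b0 =>
  (devN sc F.B1 F.v1).force fun b1 => (devN sc F.A2 F.v2).force fun a2 => k ⟨a0, b0, b1, a2⟩

/-- Compute the data of a side. -/
def sideN (X : Ctx) (D : ℕ) (p q hp hq : Z2) (e : Side) (k : SideD → Bool) : Bool :=
  fN e.ld.toNat fun ld => (Z2.ofI e.ln).force fun ln =>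
  Nat.blt 0 ld && famN D p q hp hq ln ld fun F => F.ok &&
    withDevs (Nat.pow 2 48) F fun e => withDevs (Nat.pow 2 96) F fun f =>
    withDevs (Nat.pow 2 144) F fun g =>
    fN (relUpN F.e0 F.v0) fun r0 => fN (relUpN F.e1 F.v1) fun r1 =>
    fN (relUpN F.e2 F.v2) fun r2 =>
    monsN X.K X.b160 e f g fun G sz => Nat.blt sz (Nat.pow 2 160) && k ⟨F, r0, r1, r2, G⟩

/-- `hi` is above the geometric mean. -/
def rootHiN (SN den N m0 m1 m2 v0 v1 v2 hi : ℕ) : Bool :=
  Nat.ble (Nat.mul (Nat.mul (Nat.mul (Nat.pow v0 m0) (Nat.pow v1 m1)) (Nat.pow v2 m2)) SN)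
    (Nat.pow (Nat.mul hi den) N)

/-- `lo` is below the geometric mean. -/
def rootLoN (SN den N m0 m1 m2 v0 v1 v2 lo : ℕ) : Bool :=
  Nat.ble (Nat.pow (Nat.mul lo den) N)
    (Nat.mul (Nat.mul (Nat.mul (Nat.pow v0 m0) (Nat.pow v1 m1)) (Nat.pow v2 m2)) SN)

/-- A lower value at a corner. -/
def cornerLoN (SN N m0 m1 m2 : ℕ) (F : FamN) (sa sb : Bool) (lo : ℕ) : Bool :=
  let A0 := cond sa F.A0 F.A0.neg
  let A2 := cond sa F.A2 F.A2.neg
  let B0 := cond sb F.B0 F.B0.neg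
  let B1 := cond sb F.B1 F.B1.neg
  let c0 := ((Z2.ofN F.v0).add A0).add B0
  let c1 := (Z2.ofN F.v1).add B1
  let c2 := (Z2.ofN F.v2).add A2
  rootLoN SN F.den N m0 m1 m2 (Nat.sub c0.p c0.n) (Nat.sub c1.p c1.n) (Nat.sub c2.p c2.n) lo

/-- Accumulated bounds: biased Taylor sums below and above, the totals of their coefficients,
the constants below and above, the interpolated part and a bound of its digits. -/
structure Acc where
  lh : ℕ
  uh : ℕ
  dl : ℕ
  du : ℕ
  cl : ℕ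
  cu : ℕ
  il : ℕ
  ib : ℕ

/-- The rounding allowance in final units. -/
def corrN (N hi : ℕ) : ℕ :=
  Nat.mul 4 (Nat.add (Nat.shiftRight (Nat.mul (Nat.mul 240 (Nat.pow N 3)) hi) 48) 2)

/-- Bounds of one geometric mean times the multiplicity. -/
def rootN (X : Ctx) (m0 m1 m2 : ℕ) (c : Coef) (G : SideD) (mult : ℕ) (r : Root) (acc : Acc)
    (k : Acc → Bool) : Bool :=
  match r with
  | .tay (.ofNat lo) (.ofNat hi) =>
    rootLoN X.SN G.F.den X.N m0 m1 m2 G.F.v0 G.F.v1 G.F.v2 lo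
    && rootHiN X.SN G.F.den X.N m0 m1 m2 G.F.v0 G.F.v1 G.F.v2 hi
    && fN (cond (Nat.beq m0 0) 0 G.r0) fun r0 =>
      fN (cond (Nat.beq m1 0) 0 G.r1) fun r1 =>
      fN (cond (Nat.beq m2 0) 0 G.r2) fun r2 =>
      fN (cond (Nat.ble r0 r1) (cond (Nat.ble r1 r2) r2 r1) (cond (Nat.ble r0 r2) r2 r0)) fun r =>
      Nat.blt r (Nat.pow 2 24) && Nat.ble lo hi &&
      fN (Nat.add (Nat.div (Nat.mul (Nat.mul (Nat.mul hi 5) (Nat.add (Nat.pow 2 24) r))
          (Nat.add (Nat.add (Nat.mul m0 (Nat.pow r0 4)) (Nat.mul m1 (Nat.pow r1 4)))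
            (Nat.mul m2 (Nat.pow r2 4))))
          (Nat.mul (Nat.mul (Nat.mul 6 X.N) (Nat.pow 2 24))
            (Nat.pow (Nat.sub (Nat.pow 2 24) r) 4))) 1) fun rem =>
      fN (corrN X.N hi) fun corr =>
      fN (Nat.mul mult (Nat.mul 4 lo)) fun a => fN (Nat.mul mult (Nat.mul 4 hi)) fun b =>
      taylorN X.oneH c G.G fun T =>
      fN (Nat.add acc.lh (Nat.mul a T)) fun lh => fN (Nat.add acc.uh (Nat.mul b T)) fun uh =>
      fN (Nat.add acc.dl (Nat.mul a c.tot)) fun dl => fN (Nat.add acc.du (Nat.mul b c.tot)) fun du =>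
      fN (Nat.add acc.cl (Nat.mul mult (Nat.add corr (Nat.mul 4 (Nat.mul X.M6 rem))))) fun cl =>
      fN (Nat.add acc.cu (Nat.mul mult corr)) fun cu => k ⟨lh, uh, dl, du, cl, cu, acc.il, acc.ib⟩
  | .itp (.ofNat hi) (.ofNat cmm) (.ofNat cmp) (.ofNat cpm) (.ofNat cpp) =>
    rootHiN X.SN G.F.den X.N m0 m1 m2 G.F.v0 G.F.v1 G.F.v2 hi
      && cornerLoN X.SN X.N m0 m1 m2 G.F false false cmm
      && cornerLoN X.SN X.N m0 m1 m2 G.F false true cmp
      && cornerLoN X.SN X.N m0 m1 m2 G.F true false cpm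
      && cornerLoN X.SN X.N m0 m1 m2 G.F true true cpp
      && fN (corrN X.N hi) fun corr =>
        fN (Nat.mul mult X.M6) fun w => fN (Nat.mul mult (Nat.mul 4 hi)) fun b =>
        taylorN X.oneH c G.G fun T =>
        fN (Nat.add acc.il (Nat.mul w (Nat.add
          (Nat.add (Nat.mul cmm X.K.mm.p) (Nat.mul cmp X.K.mp.p))
          (Nat.add (Nat.mul cpm X.K.pm.p) (Nat.mul cpp X.K.pp.p))))) fun il =>
        fN (Nat.add acc.ib (Nat.mul w (Nat.add (Nat.add cmm cmp) (Nat.add cpm cpp)))) fun ib =>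
        fN (Nat.add acc.uh (Nat.mul b T)) fun uh =>
        fN (Nat.add acc.du (Nat.mul b c.tot)) fun du =>
        fN (Nat.add acc.cu (Nat.mul mult corr)) fun cu =>
        k ⟨acc.lh, uh, acc.dl, du, acc.cl, cu, il, ib⟩
  | _ => false

/-- Bounds of a weighted sum of geometric means. -/
def sumN (X : Ctx) (G : SideD) :
    List (ℕ × N3 × Coef) → List Root → Acc → (Acc → Bool) → Bool
  | [], [], A, k => k A
  | (m, n, c) :: ps, r :: rs, A, k =>
    rootN X n.n0 n.n1 n.n2 c G m r A fun A => sumN X G ps rs A k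
  | _, _, _, _ => false

/-- Biased models: below twice the defect, and above it. -/
structure Model where
  lo : ℕ
  up : ℕ
  sz : ℕ

/-- From the bounds of the sum to biased models of the defect. -/
def finN (X : Ctx) (A : Acc) (k : Model → Bool) : Bool :=
  fN (Nat.mul (Nat.mul 2 X.S) (Nat.mul 4 X.M6)) fun two =>
  fN (Nat.mul (Nat.pow 2 16) A.du) fun du => fN (Nat.mul (Nat.pow 2 16) A.dl) fun dl =>
  Nat.blt (Nat.add A.du A.dl) (Nat.pow 2 90) &&
  Nat.blt (Nat.add (Nat.add (Nat.add two A.cl) (Nat.add A.cu A.ib))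
    (Nat.add du dl)) (Nat.pow 2 110) &&
    fN (Nat.sub (Nat.add X.bias (Nat.add (Nat.mul two X.K.c.p) (Nat.mul du X.oneD)))
      (Nat.add (Nat.land (Nat.shiftRight A.uh 144) X.low) (Nat.add X.oneD (Nat.mul A.cu X.K.c.p))))
      fun lo =>
    fN (Nat.sub (Nat.add X.bias (Nat.add (Nat.mul (Nat.add two A.cl) X.K.c.p) (Nat.mul dl X.oneD)))
      (Nat.add (Nat.land (Nat.shiftRight A.lh 144) X.low) A.il)) fun up =>
    k ⟨lo, up, Nat.pow 2 129⟩

/-- The same side. -/
def sameSide (a b : Side) : Bool := decide (a.ln = b.ln) && decide (a.ld = b.ld)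

/-- Use the cached side or compute the data. -/
def withSide (X : Ctx) (D : ℕ) (p q hp hq : Z2) (e : Side) (prev : Option (Side × SideD))
    (k : SideD → Bool) : Bool :=
  match prev with
  | some (e', G) => if sameSide e' e then k G else sideN X D p q hp hq e k
  | none => sideN X D p q hp hq e k

/-- Models of all basis functions. -/
def allN (X : Ctx) (D : ℕ) (p q hp hq : Z2) :
    List (Side × List (ℕ × N3 × Coef)) → List (List Root) → Option (Side × SideD) →
      (List Model → Bool) → Bool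
  | [], [], _, k => k []
  | B :: Bs, r :: rs, prev, k =>
    withSide X D p q hp hq B.1 prev fun G =>
      sumN X G B.2 r ⟨0, 0, 0, 0, 0, 0, 0, 0⟩ fun A =>
        finN X A fun M => allN X D p q hp hq Bs rs (some (B.1, G)) fun t => k (M :: t)
  | _, _, _, _ => false

/-- The packed weights of one basis function over all vectors. -/
structure Col where
  wp : ℕ
  wn : ℕ
  wb : ℕ

/-- The bound of the weights in absolute value. -/
def wCap : ℕ := Nat.pow 2 62

/-- Width of a narrow digit. -/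
def narW : ℕ := 64

/-- Stride of the weights within a block. -/
def flatW : ℕ := 128

/-- The marker of a weight or a row out of bounds. -/
def flag : ℕ := Nat.pow 2 63

/-- A weight in two narrow digits, the positive part below. -/
def enc (w : ℤ) : ℕ :=
  match w with
  | .ofNat n => cond (Nat.ble n wCap) n flag
  | .negSucc n => cond (Nat.blt n wCap) (Nat.shiftLeft (Nat.succ n) narW) flag

/-- The weights of one row, at most `m` of them, as one block. -/
def rowFlat : List ℤ → ℕ → ℕ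
  | [], _ => 0
  | _ :: _, 0 => flag
  | w :: ws, m + 1 => Nat.add (enc w) (Nat.shiftLeft (rowFlat ws m) flatW)

/-- The blocks of all rows as one number. -/
def flatRows : List (List ℤ) → ℕ
  | [] => 0
  | r :: rs => Nat.add (rowFlat r 31) (Nat.shiftLeft (flatRows rs) blkW)

/-- The number with `1` in each of the `n` lowest digits of base `2 ^ B`. -/
def ones (B n : ℕ) : ℕ := Nat.div (Nat.sub (Nat.pow 2 (Nat.mul B n)) 1) (Nat.sub (Nat.pow 2 B) 1)

/-- One narrow digit of every block. -/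
def colPart (M0 x t : ℕ) : ℕ := Nat.land (Nat.shiftRight x t) M0

/-- The columns, evaluated from the flat rows. -/
def withCols (M0 x : ℕ) : List Basis → ℕ → (List Col → Bool) → Bool
  | [], _, k => k []
  | _ :: Bs, j, k =>
    fN (colPart M0 x (Nat.mul flatW j)) fun p =>
    fN (colPart M0 x (Nat.add (Nat.mul flatW j) narW)) fun n =>
      withCols M0 x Bs (Nat.add j 1) fun cs => k (⟨p, n, wCap⟩ :: cs)

/-- Totals of the columns. -/
def colTot : List Col → Col
  | [] => ⟨0, 0, 0⟩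
  | c :: cs =>
    let t := colTot cs
    ⟨Nat.add c.wp t.wp, Nat.add c.wn t.wn, Nat.add c.wb t.wb⟩

/-- The data of the vectors. -/
structure Rows where
  cols : List Col
  cp : ℕ
  cn : ℕ
  cb : ℕ
  mask : ℕ

/-- Evaluate the data of the vectors. -/
def withRows (C : Cfg) (X : Ctx) (k : Rows → Bool) : Bool :=
  fN C.vecs.length fun L =>
  fN (Nat.mul (Nat.sub (Nat.pow 2 narW) 1) (ones blkW L)) fun M0 =>
  fN (Nat.mul flag (ones flatW (Nat.mul 32 L))) fun F0 =>
  fN (flatRows (C.vecs.map Vec.w)) fun x =>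
  fN (flatRows (C.vecs.map fun v => [v.k])) fun xk =>
  Nat.beq (Nat.land x F0) 0 && Nat.beq (Nat.land xk F0) 0 && Nat.ble C.basis.length 32 &&
  withCols M0 x C.basis 0 fun cols =>
    let t := colTot cols
    fN t.wp fun twp => fN t.wn fun twn => fN t.wb fun twb =>
    fN (colPart M0 xk 0) fun kp => fN (colPart M0 xk narW) fun kn =>
    fN (Nat.mul (Nat.mul 2 X.S) (Nat.mul 4 X.M6)) fun u =>
    fN (Nat.add (Nat.mul twn X.bias) (Nat.mul (Nat.mul u kp) X.K.c.p)) fun cp =>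
    fN (Nat.add (Nat.mul twp X.bias) (Nat.mul (Nat.mul u kn) X.K.c.p)) fun cn =>
    fN (Nat.add (Nat.mul twb (Nat.pow 2 128)) (Nat.mul (Nat.mul 64 u) wCap)) fun cb =>
    fN (Nat.mul (packD fun _ => Nat.pow 2 255) (ones blkW L)) fun mask =>
    k ⟨cols, cp, cn, cb, mask⟩

/-- The rearrangements with their coefficients. -/
def withTerms (N : ℕ) : List (ℕ × N3) → (List (ℕ × N3 × Coef) → Bool) → Bool
  | [], k => k []
  | (m, n) :: ps, k =>
    Nat.beq (Nat.add (Nat.add n.n0 n.n1) n.n2) N &&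
      withCoef N n.n0 n.n1 n.n2 fun c => withTerms N ps fun t => k ((m, n, c) :: t)

/-- The basis with its coefficients. -/
def withBasis (N : ℕ) : List Basis → (List (Side × List (ℕ × N3 × Coef)) → Bool) → Bool
  | [], k => k []
  | B :: Bs, k => withTerms N (perms B.n) fun t => withBasis N Bs fun l => k ((B.e, t) :: l)

/-- The weighted sums of the biased models. -/
def dotN : List Col → List Model → ℕ → ℕ → ℕ → (ℕ → ℕ → ℕ → Bool) → Bool
  | c :: cs, m :: ms, P, N, b, k =>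
    dotN cs ms (Nat.add P (Nat.mul c.wp m.lo)) (Nat.add N (Nat.mul c.wn m.up))
      (Nat.add b (Nat.mul c.wb m.sz)) k
  | [], [], P, N, b, k => k P N b
  | _, _, _, _, _, _ => false

/-- All active vectors are nonnegative on a box. -/
def okBoxN (X : Ctx) (W : Rows) (Bs : List (Side × List (ℕ × N3 × Coef))) (b : Bx) (R : List (List Root)) (am : ℕ) :
    Bool :=
  fN (Nat.gcd (Nat.gcd (Nat.gcd b.p.natAbs b.q.natAbs) (Nat.gcd b.hp.natAbs b.hq.natAbs)) X.D)
    fun g =>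
  fN b.p.toNat fun p => fN b.q.toNat fun q => fN b.hp.toNat fun hp => fN b.hq.toNat fun hq =>
  decide (0 ≤ b.p) && decide (0 ≤ b.q) && decide (0 ≤ b.hp) && decide (0 ≤ b.hq) &&
  fN (Nat.div X.D g) fun D => fN (Nat.div p g) fun p => fN (Nat.div q g) fun q =>
  fN (Nat.div hp g) fun hp => fN (Nat.div hq g) fun hq =>
  allN X D (Z2.ofN p) (Z2.ofN q) (Z2.ofN hp) (Z2.ofN hq) Bs R none fun ms => dotN W.cols ms W.cp W.cn W.cb fun P N bd =>
    Nat.blt bd (Nat.pow 2 255)
      && Nat.beq (Nat.land (Nat.sub (Nat.add P W.mask) N) am) am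

/-- The mask of a list of vectors, in evaluated form. -/
def maskIds : ℕ → List ℕ → ℕ
  | _, [] => 0
  | m, i :: is => Nat.lor (Nat.shiftLeft m (Nat.mul blkW i)) (maskIds m is)

/-- The tree. -/
def checkN (X : Ctx) (W : Rows) (Bs : List (Side × List (ℕ × N3 × Coef))) (m16 : ℕ) : CTree → Bx → ℕ → Bool
  | .skip, b, am => Nat.beq am 0 || outside X.D b
  | .leaf R, b, am => okBoxN X W Bs b R am
  | .split ax l r, b, am =>
    halfOk b ax && checkN X W Bs m16 l (half b ax).1 am && checkN X W Bs m16 r (half b ax).2 am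
  | .part R ok t, b, am =>
    fN (maskIds m16 ok) fun okm =>
      okBoxN X W Bs b R okm && fN (Nat.xor am okm) fun rest => checkN X W Bs m16 t b rest

/-- The context of a configuration, evaluated. -/
def withCtx (C : Cfg) (k : Ctx → Bool) : Bool :=
  fN C.D.toNat fun D => fN C.S.toNat fun S => fN (Nat.pow S C.N) fun SN =>
  fN (Nat.mul 6 (Nat.pow C.N 3)) fun M6 =>
  fN (packD fun _ => Nat.sub (Nat.pow 2 112) 1) fun low =>
  fN (packD fun _ => Nat.pow 2 128) fun bias => fN (packD fun _ => 1) fun oneD =>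
  fN (packD fun _ => Nat.pow 2 160) fun b160 =>
  withKeys fun K => fN (Nat.mul (Nat.pow 2 144) K.c.p) fun oneH =>
  k ⟨D, S, C.N, SN, M6, K, low, bias, oneD, b160, oneH⟩

/-- The configuration is admissible. -/
def cfgOk (C : Cfg) : Bool :=
  decide (0 < C.D) && decide (C.D % 12 = 0) && decide (0 < C.S) && decide (C.N ≠ 0)
    && C.vecs.all fun v => decide (v.mu = 0)

/-- The check of a subtree for the given active vectors. -/
def checkFast (C : Cfg) (t : CTree) (b : Bx) (ids : List ℕ) : Bool :=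
  withCtx C fun X => withRows C X fun W => fN (packD fun _ => Nat.pow 2 255) fun m16 =>
    fN (maskIds m16 ids) fun am => withBasis X.N C.basis fun Bs => checkN X W Bs m16 t b am

end Vale.Agent.P154.Anti.Box
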