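import Vale.Agent.P154.Anti.BoxFast

/-!
# Several subtrees under one context

The context of the fast checker is computed once for a list of subtrees.
-/

namespace Vale.Agent.P154.Anti.Box

/-- A subtree with its box and its active vectors. -/
structure Job where
  t : CTree
  b : Bx
  ids : List ℕ

/-- The check of several subtrees. -/
def checkMany (C : Cfg) (js : List Job) : Bool :=
  withCtx C fun X => withRows C X fun W => fN (packD fun _ => Nat.pow 2 255) fun m16 =>
    withBasis X.N C.basis fun Bs =>
      js.all fun j => fN (maskIds m16 j.ids) fun am => checkN X W Bs m16 j.t j.b am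

theorem withCtx_mono (C : Cfg) {k k' : Ctx → Bool} (h : ∀ x, k x = true → k' x = true)
    (hk : withCtx C k = true) : withCtx C k' = true := by
  simp only [withCtx, withKeys, withKey, fN_eq] at hk ⊢
  exact h _ hk

theorem withCols_mono : ∀ (M0 x : ℕ) (Bs : List Basis) (j : ℕ) {k k' : List Col → Bool},
    (∀ c, k c = true → k' c = true) → withCols M0 x Bs j k = true →
      withCols M0 x Bs j k' = true
  | _, _, [], _, _, _, h, hk => h _ hk
  | M0, x, _ :: Bs, j, k, k', h, hk => by
    simp only [withCols, fN_eq] at hk ⊢
    exact withCols_mono M0 x Bs _ (fun c hc => h _ hc) hk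

theorem withRows_mono (C : Cfg) (X : Ctx) {k k' : Rows → Bool} (h : ∀ x, k x = true → k' x = true)
    (hk : withRows C X k = true) : withRows C X k' = true := by
  simp only [withRows, fN_eq, Bool.and_eq_true] at hk ⊢
  exact ⟨hk.1, withCols_mono _ _ _ _ (fun _ hc => h _ hc) hk.2⟩

theorem withTerms_mono (N : ℕ) : ∀ (ps : List (ℕ × N3)) {k k' : List (ℕ × N3 × Coef) → Bool},
    (∀ x, k x = true → k' x = true) → withTerms N ps k = true → withTerms N ps k' = true
  | [], _, _, h, hk => h _ hk
  | (_, _) :: ps, k, k', h, hk => by
    simp only [withTerms, withCoef, fN_eq, Bool.and_eq_true] at hk ⊢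
    exact ⟨hk.1, withTerms_mono N ps (fun x hx => h _ hx) hk.2⟩

theorem withBasis_mono (N : ℕ) : ∀ (Bs : List Basis)
    {k k' : List (Side × List (ℕ × N3 × Coef)) → Bool},
    (∀ x, k x = true → k' x = true) → withBasis N Bs k = true → withBasis N Bs k' = true
  | [], _, _, h, hk => h _ hk
  | _ :: Bs, k, k', h, hk => by
    simp only [withBasis] at hk ⊢
    exact withTerms_mono N _ (fun t ht => withBasis_mono N Bs (fun x hx => h _ hx) ht) hk

/-- Each of the subtrees passes the single check. -/
theorem checkFast_of_many {C : Cfg} {js : List Job} (h : checkMany C js = true) {j : Job}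
    (hj : j ∈ js) : checkFast C j.t j.b j.ids = true := by
  refine withCtx_mono C (fun X hX => withRows_mono C X (fun W hW => ?_) hX) h
  simp only [fN_eq] at hW ⊢
  exact withBasis_mono X.N C.basis (fun Bs hB => List.all_eq_true.1 hB j hj) hW

/-- The same, by position. -/
theorem checkFast_of_many_get {C : Cfg} {js : List Job} (h : checkMany C js = true) (i : ℕ)
    {j : Job} (hi : js[i]? = some j) : checkFast C j.t j.b j.ids = true :=
  checkFast_of_many h (List.mem_of_getElem? hi)

/-- Each of the subtrees certifies its vectors. -/
theorem cert_of_many {C : Cfg} (hC : cfgOk C = true) {js : List Job} (h : checkMany C js = true)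
    {j : Job} (hj : j ∈ js) (hb : ∀ i ∈ j.ids, i < C.vecs.length) : Cert C j.b j.ids :=
  cert_of_check hC hb (checkFast_of_many h hj)

/-- The same, by position. -/
theorem cert_of_many_get {C : Cfg} (hC : cfgOk C = true) {js : List Job}
    (h : checkMany C js = true) (i : ℕ) {j : Job} (hi : js[i]? = some j)
    (hb : ∀ i ∈ j.ids, i < C.vecs.length) : Cert C j.b j.ids :=
  cert_of_check hC hb (checkFast_of_many_get h i hi)

end Vale.Agent.P154.Anti.Box
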