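import Vale.Agent.P154.Anti.BoxFastTaylor

/-!
# The biased models of the basis functions on a box
-/

namespace Vale.Agent.P154.Anti.Box

open Finset Vale.Agent.P154.Tree

variable {s t : ℝ} {X : Ctx} {C : Cfg} {G : SideD} {e : Side} {u : Fin 3 → ℝ} {n : N3}

/-- The invariant of the accumulated bounds of the value `V`. -/
def AccOK (A : Acc) (V s t : ℝ) : Prop :=
  ∃ fl fu fi : ℝ, RepB A.lh (A.dl * 2 ^ 160) (A.dl * 2 ^ 162) s t fl ∧
    RepB A.uh (A.du * 2 ^ 160) (A.du * 2 ^ 162) s t fu ∧ RepB A.il 0 (A.ib * 64) s t fi ∧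
    fl / 2 ^ 144 + fi - A.cl ≤ V ∧ V ≤ fu / 2 ^ 144 + A.cu

theorem AccOK.zero : AccOK ⟨0, 0, 0, 0, 0, 0, 0, 0⟩ 0 s t := by
  refine ⟨0, 0, 0, ?_, ?_, ?_, ?_, ?_⟩
  · simpa using RepB.zero (s := s) (t := t)
  · simpa using RepB.zero (s := s) (t := t)
  · simpa using RepB.zero (s := s) (t := t)
  · simp
  · simp

theorem rootHiN_spec {den N v0 v1 v2 hi S : ℕ}
    (h : rootHiN (S ^ N) den N n.n0 n.n1 n.n2 v0 v1 v2 hi = true) :
    rootHi (S : ℤ) den N n ⟨v0, v1, v2⟩ hi = true := by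
  simp only [rootHiN, Nat.ble_eq, Nat.mul_eq, Nat.pow_eq] at h
  simp only [rootHi, Bool.and_eq_true]
  exact ⟨decide_eq_true (Int.natCast_nonneg _),
    decide_eq_true (by simp only [pw]; exact_mod_cast h)⟩

theorem rootLoN_spec {den N v0 v1 v2 lo S : ℕ}
    (h : rootLoN (S ^ N) den N n.n0 n.n1 n.n2 v0 v1 v2 lo = true) :
    rootLo (S : ℤ) den N n ⟨v0, v1, v2⟩ lo = true := by
  simp only [rootLoN, Nat.ble_eq, Nat.mul_eq, Nat.pow_eq] at h
  simp only [rootLo, Bool.and_eq_true]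
  exact ⟨decide_eq_true (Int.natCast_nonneg _),
    decide_eq_true (by simp only [pw]; exact_mod_cast h)⟩

theorem corner_nonneg {F : Fam} (h : famOk F = true) {sa sb : ℤ} (ha : |(sa : ℝ)| ≤ 1)
    (hb : |(sb : ℝ)| ≤ 1) (i : Fin 3) : 0 ≤ (corner F sa sb).fn i := by
  obtain ⟨-, -, hE⟩ := famOk_spec h
  have h1 : (0 : ℝ) ≤ (F.V.fn i : ℝ) + (F.A.fn i * sa + F.B.fn i * sb) := by
    linarith [hE i, (abs_le.1 (abs_dev_le ha hb (F.A.fn i : ℝ) (F.B.fn i : ℝ))).1]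
  have e : ((corner F sa sb).fn i : ℝ) = (F.V.fn i : ℝ) + (F.A.fn i * sa + F.B.fn i * sb) := by
    fin_cases i <;> simp [corner, Z3.fn] <;> ring
  exact_mod_cast e ▸ h1

theorem cornerLoN_spec {S N : ℕ} {F : FamN} (hok : famOk F.toFam = true) {sa sb : Bool} {lo : ℕ}
    (h : cornerLoN (S ^ N) N n.n0 n.n1 n.n2 F sa sb lo = true) :
    rootLo (S : ℤ) F.den N n (corner F.toFam (cond sa 1 (-1)) (cond sb 1 (-1))) lo = true := by
  have hc := corner_nonneg hok (sa := cond sa 1 (-1)) (sb := cond sb 1 (-1))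
    (by cases sa <;> simp) (by cases sb <;> simp)
  simp only [cornerLoN] at h
  have h' := rootLoN_spec h
  have c0 := hc 0
  have c1 := hc 1
  have c2 := hc 2
  simp only [corner, FamN.toFam, Z3.fn, Matrix.cons_val_zero, Matrix.cons_val_one,
    Matrix.head_cons, Matrix.cons_val_two, Matrix.tail_cons, mul_zero, add_zero] at c0 c1 c2
  simp only [corner, FamN.toFam, mul_zero, add_zero]
  cases sa <;> cases sb <;>
    simp only [cond_true, cond_false, Nat.sub_eq, Nat.add_eq, Z2.ofN, Z2.add, Z2.neg, Z2.val,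
      one_mul, neg_mul] at h' c0 c1 c2 ⊢ <;>
    (convert h' using 3 <;> omega)

/-- The bilinear lower bound of the mean from lower values at the corners. -/
theorem corner_low {F : Fam} {S : ℤ} {N : ℕ} (h : famOk F = true) (hN : N ≠ 0)
    (hn : n.n0 + n.n1 + n.n2 = N) (hS : 0 < S) (hs : |s| ≤ 1) (ht : |t| ≤ 1)
    {cmm cmp cpm cpp : ℤ} (hmm : rootLo S F.den N n (corner F (-1) (-1)) cmm = true)
    (hmp : rootLo S F.den N n (corner F (-1) 1) cmp = true)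
    (hpm : rootLo S F.den N n (corner F 1 (-1)) cpm = true)
    (hpp : rootLo S F.den N n (corner F 1 1) cpp = true) :
    (cmm : ℝ) * ((1 - s) * (1 - t)) + cmp * ((1 - s) * (1 + t)) + cpm * ((1 + s) * (1 - t))
        + cpp * ((1 + s) * (1 + t)) ≤ 4 * S * ex (expo3 n) (F.pt s t) := by
  obtain ⟨ha, ha1⟩ := expo3_simplex hN hn
  obtain ⟨hd, -, -⟩ := famOk_spec h
  obtain ⟨s0, s1⟩ := abs_le.1 hs
  obtain ⟨t0, t1⟩ := abs_le.1 ht
  set P : Fin 4 → Z3 := ![corner F (-1) (-1), corner F (-1) 1, corner F 1 (-1), corner F 1 1]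
    with hP
  have hP0 : ∀ k i, (0 : ℝ) ≤ ((P k).fn i : ℝ) := fun k i => by
    have := corner_nonneg h (sa := -1) (sb := -1) (by simp) (by simp) i
    have := corner_nonneg h (sa := -1) (sb := 1) (by simp) (by simp) i
    have := corner_nonneg h (sa := 1) (sb := -1) (by simp) (by simp) i
    have := corner_nonneg h (sa := 1) (sb := 1) (by simp) (by simp) i
    fin_cases k <;> simp [hP] <;> assumption
  set b : Fin 4 → ℝ := ![(1 - s) * (1 - t) / 4, (1 - s) * (1 + t) / 4, (1 + s) * (1 - t) / 4,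
    (1 + s) * (1 + t) / 4] with hb
  have hb0 : ∀ k, 0 ≤ b k := fun k => by
    have u0 : 0 ≤ 1 - s := by linarith
    have u1 : 0 ≤ 1 + s := by linarith
    have v0 : 0 ≤ 1 - t := by linarith
    have v1 : 0 ≤ 1 + t := by linarith
    fin_cases k <;> simp [hb] <;> positivity
  have hge := ex_ge_sum ha ha1 (univ : Finset (Fin 4)) (b := b)
    (P := fun k i => ((P k).fn i : ℝ) / F.den) (fun k _ => hb0 k)
    fun k _ i => div_nonneg (hP0 k i) hd.le
  have hpt : (fun i => ∑ k, b k * (((P k).fn i : ℝ) / F.den)) = F.pt s t := funext fun i => by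
    simp only [Fam.pt, Fin.sum_univ_four]
    fin_cases i <;> simp [hb, hP, corner, Z3.fn] <;> ring
  rw [hpt] at hge
  have hl : ∀ (k : Fin 4) (c : ℤ), rootLo S F.den N n (P k) c = true →
      (c : ℝ) ≤ S * ex (expo3 n) (fun i => ((P k).fn i : ℝ) / F.den) := fun k c hc =>
    rootLo_sound hN hn hS (by exact_mod_cast hd) (fun i => by exact_mod_cast hP0 k i) hc
  have l0 := mul_le_mul_of_nonneg_left (hl 0 cmm (by simpa [hP] using hmm)) (hb0 0)
  have l1 := mul_le_mul_of_nonneg_left (hl 1 cmp (by simpa [hP] using hmp)) (hb0 1)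
  have l2 := mul_le_mul_of_nonneg_left (hl 2 cpm (by simpa [hP] using hpm)) (hb0 2)
  have l3 := mul_le_mul_of_nonneg_left (hl 3 cpp (by simpa [hP] using hpp)) (hb0 3)
  have hmul := mul_le_mul_of_nonneg_left hge (by exact_mod_cast hS.le : (0 : ℝ) ≤ S)
  rw [Fin.sum_univ_four] at hmul
  have e : (cmm : ℝ) * ((1 - s) * (1 - t)) + cmp * ((1 - s) * (1 + t))
      + cpm * ((1 + s) * (1 - t)) + cpp * ((1 + s) * (1 + t))
      = 4 * (b 0 * cmm + b 1 * cmp + b 2 * cpm + b 3 * cpp) := by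
    simp [hb]
    ring
  rw [e]
  linarith

theorem corr_ge (N hi : ℕ) :
    4 * (240 * (N : ℝ) ^ 3 * hi / 2 ^ 48) ≤ (corrN N hi : ℕ) := by
  have h : 240 * N ^ 3 * hi < 2 ^ 48 * ((240 * N ^ 3 * hi) / 2 ^ 48 + 1) :=
    Nat.lt_mul_div_succ _ (by positivity)
  have h' : (240 : ℝ) * (N : ℝ) ^ 3 * hi
      ≤ 2 ^ 48 * ((((240 * N ^ 3 * hi) / 2 ^ 48 : ℕ) : ℝ) + 1) := by exact_mod_cast h.le
  rw [← div_le_iff₀' (by positivity)] at h'
  simp only [corrN, Nat.mul_eq, Nat.add_eq, Nat.pow_eq]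
  rw [show Nat.shiftRight (240 * N ^ 3 * hi) 48 = (240 * N ^ 3 * hi) / 2 ^ 48 from
    Nat.shiftRight_eq_div_pow _ _]
  push_cast
  linarith

/-- The upper side and, for small relative deviations, the lower side. -/
theorem taylor_sound (hX : CtxOK X C) (hG : SideOK G e u s t) (hs : |s| ≤ 1) (ht : |t| ≤ 1)
    (hn : n.n0 + n.n1 + n.n2 = X.N) {hi : ℕ}
    (hh : rootHi (X.S : ℤ) G.F.den X.N n G.F.toFam.V hi = true) {T f : ℝ}
    (hT : T = cubT3 (expo3 n) (epsAt G.F.toFam s t))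
    (hf : |f / 2 ^ 144 - 6 * (X.N : ℝ) ^ 3 * T| ≤ 240 * (X.N : ℝ) ^ 3 / 2 ^ 48) :
    4 * (6 * (X.N : ℝ) ^ 3) * X.S * ex (expo3 n) (G.F.toFam.pt s t)
        ≤ 4 * hi * (f / 2 ^ 144) + corrN X.N hi ∧
      ∀ {lo r rem : ℕ}, lo ≤ hi → rootLo (X.S : ℤ) G.F.den X.N n G.F.toFam.V lo = true →
        r < 2 ^ 24 → ∀ r0 r1 r2 : ℕ, (∀ i, n.fn i ≠ 0 → ![G.r0, G.r1, G.r2] i ≤ r
          ∧ ![r0, r1, r2] i = ![G.r0, G.r1, G.r2] i) →
        hi * 5 * (2 ^ 24 + r) * (n.n0 * r0 ^ 4 + n.n1 * r1 ^ 4 + n.n2 * r2 ^ 4)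
          / (6 * X.N * 2 ^ 24 * (2 ^ 24 - r) ^ 4) + 1 = rem →
        4 * lo * (f / 2 ^ 144) - (corrN X.N hi + 4 * ((6 * (X.N : ℝ) ^ 3) * rem))
          ≤ 4 * (6 * (X.N : ℝ) ^ 3) * X.S * ex (expo3 n) (G.F.toFam.pt s t) := by
  obtain ⟨x, eps, hxe, hx, he, -, he1, hpt⟩ := pt_eq hG.ok hs ht
  have hN : X.N ≠ 0 := hX.N ▸ hX.cfg.2.2
  have hS : (0 : ℤ) < X.S := hX.S ▸ hX.cfg.2.1
  obtain ⟨ha, ha1⟩ := expo3_simplex hN hn
  obtain ⟨hd, hV, -⟩ := famOk_spec hG.ok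
  have heq : eps = epsAt G.F.toFam s t := funext he
  rw [← heq] at hT
  have hS' : (0 : ℝ) < (X.S : ℝ) := by exact_mod_cast hS
  have hN' : (0 : ℝ) < (X.N : ℝ) := by exact_mod_cast Nat.pos_of_ne_zero hN
  have hd' : (0 : ℤ) < G.F.den := by
    simpa [FamN.toFam] using hd
  have hexp : 0 < ex (expo3 n) x := prod_pos fun i _ => Real.rpow_pos_of_pos (hx i) _
  have hup : ex (expo3 n) (G.F.toFam.pt s t) ≤ ex (expo3 n) x * T := by
    rw [hpt, hT]
    exact ex_le_cubT3 ha hx he1 ha1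
  have hE : 0 ≤ ex (expo3 n) (G.F.toFam.pt s t) :=
    ex_nonneg _ (pt_nonneg hG.ok hs ht)
  have hT0 : 0 ≤ T := nonneg_of_mul_nonneg_right (hE.trans hup) hexp
  have hhi := rootHi_sound hN hn hS hd' (fun i => by exact_mod_cast (hV i).le) hh
  have hxeq : x = fun i => (G.F.toFam.V.fn i : ℝ) / G.F.toFam.den := funext hxe
  have hden : ((G.F.den : ℤ) : ℝ) = (G.F.toFam.den : ℝ) := rfl
  rw [hden, ← hxeq] at hhi
  push_cast at hhi
  have hhi0 : (0 : ℝ) ≤ hi := Nat.cast_nonneg _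
  have hc := corr_ge X.N hi
  obtain ⟨f0, f1⟩ := abs_le.1 hf
  have k1 := mul_le_mul_of_nonneg_left hup (by positivity : (0 : ℝ) ≤ 24 * (X.N : ℝ) ^ 3 * X.S)
  have k2 := mul_le_mul_of_nonneg_right hhi
    (by positivity : (0 : ℝ) ≤ 24 * (X.N : ℝ) ^ 3 * T)
  have k3 := mul_le_mul_of_nonneg_left f0 (by positivity : (0 : ℝ) ≤ 4 * (hi : ℝ))
  refine ⟨by linarith only [hc, k1, k2, k3], ?_⟩
  intro lo r rem hlohi hlo hr r0 r1 r2 hri hrem
  have hlo' := rootLo_sound hN hn hS hd' (fun i => by exact_mod_cast (hV i).le) hlo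
  rw [hden, ← hxeq] at hlo'
  push_cast at hlo'
  set R : ℝ := (r : ℝ) / 2 ^ 24 with hR
  have hR0 : 0 ≤ R := by positivity
  have hr' : (r : ℝ) < 2 ^ 24 := by exact_mod_cast hr
  have hR1 : R < 1 := by rw [hR, div_lt_one (by positivity)]; exact hr'
  have hbd : ∀ i, n.fn i ≠ 0 → |eps i| ≤ ((![r0, r1, r2] i : ℕ) : ℝ) / 2 ^ 24 := fun i hi' => by
    rw [(hri i hi').2, he, abs_div, abs_of_pos (hV i), div_le_div_iff₀ (hV i) (by positivity)]
    have h := (abs_dev_le hs ht (G.F.toFam.A.fn i : ℝ) (G.F.toFam.B.fn i)).trans (hG.rel i)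
    rw [le_div_iff₀ (by positivity)] at h
    linarith
  have her : ∀ i, expo3 n i ≠ 0 → |eps i| ≤ R := fun i hi' => by
    have hi'' : n.fn i ≠ 0 := fun h0 => hi' (by rw [expo3_apply hn, h0]; simp)
    refine (hbd i hi'').trans ?_
    rw [(hri i hi'').2]
    exact div_le_div_of_nonneg_right (by exact_mod_cast (hri i hi'').1) (by positivity)
  have hlow := cubT3_le_ex ha hx he1 ha1 hR0 hR1 her
  rw [← hpt, ← hT] at hlow
  have hsum : ∑ i, expo3 n i * eps i ^ 4 ≤ ((n.n0 : ℝ) * (r0 : ℝ) ^ 4 + n.n1 * (r1 : ℝ) ^ 4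
      + n.n2 * (r2 : ℝ) ^ 4) / (X.N * ((2 : ℝ) ^ 24) ^ 4) := by
    have h1 : ∀ i, expo3 n i * eps i ^ 4
        ≤ (n.fn i : ℝ) * ((![r0, r1, r2] i : ℕ) : ℝ) ^ 4 / (X.N * ((2 : ℝ) ^ 24) ^ 4) := fun i => by
      rw [expo3_apply hn]
      by_cases hi' : n.fn i = 0
      · simp [hi']
      have h4 := pow_le_pow_left₀ (abs_nonneg _) (hbd i hi') 4
      rw [show |eps i| ^ 4 = eps i ^ 4 from Even.pow_abs ⟨2, rfl⟩ _, div_pow] at h4
      refine le_trans (mul_le_mul_of_nonneg_left h4 (by positivity)) (le_of_eq ?_)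
      field_simp
    refine (sum_le_sum fun i _ => h1 i).trans (le_of_eq ?_)
    simp only [Fin.sum_univ_three, N3.fn, Matrix.cons_val_zero, Matrix.cons_val_one,
      Matrix.head_cons, Matrix.cons_val_two, Matrix.tail_cons]
    ring
  have hfac : 0 ≤ 5 / 6 * (1 + R) / (1 - R) ^ 4 := by positivity
  have hq : (hi : ℝ) * (5 / 6 * (1 + R) / (1 - R) ^ 4
      * (((n.n0 : ℝ) * (r0 : ℝ) ^ 4 + n.n1 * (r1 : ℝ) ^ 4 + n.n2 * (r2 : ℝ) ^ 4)
        / (X.N * ((2 : ℝ) ^ 24) ^ 4))) ≤ rem := by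
    set num := hi * 5 * (2 ^ 24 + r) * (n.n0 * r0 ^ 4 + n.n1 * r1 ^ 4 + n.n2 * r2 ^ 4) with hnum
    set den := 6 * X.N * 2 ^ 24 * (2 ^ 24 - r) ^ 4 with hdn
    have hden0 : 0 < den := by
      have : 0 < 2 ^ 24 - r := by omega
      have := Nat.pos_of_ne_zero hN
      simp only [hdn]
      positivity
    have h : num ≤ den * rem := by
      rw [← hrem]; exact (Nat.lt_mul_div_succ num hden0).le
    have h' : (num : ℝ) ≤ (den : ℝ) * rem := by exact_mod_cast h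
    rw [← div_le_iff₀' (by exact_mod_cast hden0)] at h'
    refine le_trans (le_of_eq ?_) h'
    simp only [hnum, hdn, hR]
    have es : ((2 ^ 24 - r : ℕ) : ℝ) = (2 : ℝ) ^ 24 - r := by rw [Nat.cast_sub hr.le]; norm_num
    simp only [Nat.cast_mul, Nat.cast_add, Nat.cast_pow, Nat.cast_ofNat, es]
    have : (2 : ℝ) ^ 24 - r ≠ 0 := by linarith
    field_simp
  have hr4 := (mul_le_mul hhi (mul_le_mul_of_nonneg_left hsum hfac)
    (mul_nonneg hfac (sum_nonneg fun i _ => mul_nonneg (ha i) (by positivity))) hhi0).trans hq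
  have k4 := mul_le_mul_of_nonneg_left hlow (by positivity : (0 : ℝ) ≤ 24 * (X.N : ℝ) ^ 3 * X.S)
  have k5 := mul_le_mul_of_nonneg_right hlo' (by positivity : (0 : ℝ) ≤ 24 * (X.N : ℝ) ^ 3 * T)
  have k6 := mul_le_mul_of_nonneg_left f1 (by positivity : (0 : ℝ) ≤ 4 * (lo : ℝ))
  have k7 := mul_le_mul_of_nonneg_left hr4 (by positivity : (0 : ℝ) ≤ 24 * (X.N : ℝ) ^ 3)
  have k8 := mul_le_mul_of_nonneg_right (by exact_mod_cast hlohi : (lo : ℝ) ≤ hi)
    (by positivity : (0 : ℝ) ≤ 4 * (240 * (X.N : ℝ) ^ 3 / 2 ^ 48))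
  linarith only [hc, k4, k5, k6, k7, k8]

theorem keyCorner_rep (K : Key) (u : P10) (hK : KeyOK K u) (h0 : ∀ k < 16, 0 ≤ bval u k) {v : ℝ}
    (hv : u.ev s t = v) (c : ℕ) : RepB (Nat.mul c K.p) 0 (c * 64) s t (c * v) := by
  simpa [hv] using (RepB.of_key (s := s) (t := t) hK h0).mul c

/-- The largest relative deviation among the exponents in use. -/
theorem maxRel_spec (n : N3) (r0 r1 r2 : ℕ) (i : Fin 3) (h : n.fn i ≠ 0) :
    let a := cond (Nat.beq n.n0 0) 0 r0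
    let b := cond (Nat.beq n.n1 0) 0 r1
    let c := cond (Nat.beq n.n2 0) 0 r2
    ![r0, r1, r2] i ≤ cond (Nat.ble a b) (cond (Nat.ble b c) c b) (cond (Nat.ble a c) c a) ∧
      ![a, b, c] i = ![r0, r1, r2] i := by
  intro a b c
  have hm : a ≤ cond (Nat.ble a b) (cond (Nat.ble b c) c b) (cond (Nat.ble a c) c a) ∧
      b ≤ cond (Nat.ble a b) (cond (Nat.ble b c) c b) (cond (Nat.ble a c) c a) ∧
      c ≤ cond (Nat.ble a b) (cond (Nat.ble b c) c b) (cond (Nat.ble a c) c a) := by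
    simp only [Bool.cond_eq_ite, Nat.ble_eq]
    split_ifs <;> omega
  have z : ∀ m r : ℕ, m ≠ 0 → cond (Nat.beq m 0) 0 r = r := fun m r hm => by
    cases m
    · exact absurd rfl hm
    · rfl
  fin_cases i
  · have e : a = r0 := z _ _ (by simpa [N3.fn] using h)
    exact ⟨e ▸ hm.1, e⟩
  · have e : b = r1 := z _ _ (by simpa [N3.fn] using h)
    exact ⟨e ▸ hm.2.1, e⟩
  · have e : c = r2 := z _ _ (by simpa [N3.fn] using h)
    exact ⟨e ▸ hm.2.2, e⟩

theorem rootN_spec (hX : CtxOK X C) (hG : SideOK G e u s t) (hs : |s| ≤ 1) (ht : |t| ≤ 1)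
    (hn : n.n0 + n.n1 + n.n2 = X.N) {m : ℕ} {r : Root} {A : Acc} {V : ℝ} {k : Acc → Bool}
    (h : rootN X n.n0 n.n1 n.n2 (coefOf X.N n) G m r A k = true) (hA : AccOK A V s t) :
    ∃ A', k A' = true ∧ AccOK A'
      (V + m * (4 * (6 * (X.N : ℝ) ^ 3) * X.S * ex (expo3 n) (G.F.toFam.pt s t))) s t := by
  obtain ⟨T, f, hk, hTr, hf⟩ := taylor_rep hX hG hs ht hn
  obtain ⟨fl, fu, fi, al, au, ai, a1, a2⟩ := hA
  have hV : G.F.toFam.V = ⟨(G.F.v0 : ℤ), G.F.v1, G.F.v2⟩ := rfl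
  have m0 : (0 : ℝ) ≤ m := Nat.cast_nonneg m
  cases r with
  | tay lo hi =>
    rcases lo with lo | lo <;> rcases hi with hi | hi <;>
      simp only [rootN, fN_eq, hk, hX.SN, Bool.and_eq_true, reduceCtorEq, Nat.blt,
        Nat.ble_eq] at h
    obtain ⟨⟨hl, hh⟩, ⟨hr, hlh⟩, hA'⟩ := h
    refine ⟨_, hA', ?_⟩
    have hh' := hV.symm ▸ rootHiN_spec hh
    obtain ⟨up, low⟩ := taylor_sound hX hG hs ht hn hh' rfl hf
    have low' := low (rem := _) hlh (hV.symm ▸ rootLoN_spec hl) hr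
      (cond (Nat.beq n.n0 0) 0 G.r0) (cond (Nat.beq n.n1 0) 0 G.r1) (cond (Nat.beq n.n2 0) 0 G.r2)
      (fun i hi' => maxRel_spec n G.r0 G.r1 G.r2 i hi') rfl
    refine ⟨fl + (m * (4 * lo) : ℕ) * f, fu + (m * (4 * hi) : ℕ) * f, fi, ?_, ?_, ai, ?_, ?_⟩
    · exact (al.add (hTr.mul _)).conv (by simp only [Nat.add_eq, Nat.mul_eq]; ring)
        (le_of_eq (by simp only [Nat.add_eq, Nat.mul_eq]; ring))
    · exact (au.add (hTr.mul _)).conv (by simp only [Nat.add_eq, Nat.mul_eq]; ring)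
        (le_of_eq (by simp only [Nat.add_eq, Nat.mul_eq]; ring))
    · have := mul_le_mul_of_nonneg_left low' m0
      simp only [Nat.add_eq, Nat.mul_eq, Nat.pow_eq, Nat.sub_eq, hX.M6,
        show ∀ a b : ℕ, Nat.div a b = a / b from fun _ _ => rfl]
      push_cast at this ⊢
      linarith
    · have := mul_le_mul_of_nonneg_left up m0
      simp only [Nat.add_eq, Nat.mul_eq]
      push_cast
      linarith
  | itp hi cmm cmp cpm cpp =>
    rcases hi with hi | hi <;> rcases cmm with cmm | cmm <;> rcases cmp with cmp | cmp <;>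
      rcases cpm with cpm | cpm <;> rcases cpp with cpp | cpp <;>
      simp only [rootN, fN_eq, hk, hX.SN, Bool.and_eq_true, reduceCtorEq] at h
    obtain ⟨⟨⟨⟨⟨hh, l1⟩, l2⟩, l3⟩, l4⟩, hA'⟩ := h
    refine ⟨_, hA', ?_⟩
    have hh' := hV.symm ▸ rootHiN_spec hh
    obtain ⟨up, -⟩ := taylor_sound hX hG hs ht hn hh' rfl hf
    have hS : (0 : ℤ) < X.S := hX.S ▸ hX.cfg.2.1
    have low := corner_low hG.ok (hX.N ▸ hX.cfg.2.2) hn hS hs ht
      (by simpa [FamN.toFam] using cornerLoN_spec hG.ok l1)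
      (by simpa [FamN.toFam] using cornerLoN_spec hG.ok l2)
      (by simpa [FamN.toFam] using cornerLoN_spec hG.ok l3)
      (by simpa [FamN.toFam] using cornerLoN_spec hG.ok l4)
    push_cast at low
    have i1 := keyCorner_rep (s := s) (t := t) _ _ hX.K.mm (by decide +kernel)
      (v := (1 - s) * (1 - t)) (by simp [P10.ev]; ring) cmm
    have i2 := keyCorner_rep (s := s) (t := t) _ _ hX.K.mp (by decide +kernel)
      (v := (1 - s) * (1 + t)) (by simp [P10.ev]; ring) cmp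
    have i3 := keyCorner_rep (s := s) (t := t) _ _ hX.K.pm (by decide +kernel)
      (v := (1 + s) * (1 - t)) (by simp [P10.ev]; ring) cpm
    have i4 := keyCorner_rep (s := s) (t := t) _ _ hX.K.pp (by decide +kernel)
      (v := (1 + s) * (1 + t)) (by simp [P10.ev]; ring) cpp
    have il := ai.add (((i1.add i2).add (i3.add i4)).mul (Nat.mul m X.M6))
    refine ⟨fl, fu + (m * (4 * hi) : ℕ) * f, _, al, ?_, il.conv (by simp) ?_, ?_, ?_⟩
    · exact (au.add (hTr.mul _)).conv (by simp only [Nat.add_eq, Nat.mul_eq]; ring)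
        (le_of_eq (by simp only [Nat.add_eq, Nat.mul_eq]; ring))
    · exact le_of_eq (by simp only [Nat.add_eq, Nat.mul_eq]; ring)
    · have := mul_le_mul_of_nonneg_left low (by positivity : (0 : ℝ) ≤ m * (6 * (X.N : ℝ) ^ 3))
      simp only [Nat.mul_eq, hX.M6]
      push_cast
      linarith
    · have := mul_le_mul_of_nonneg_left up m0
      simp only [Nat.add_eq, Nat.mul_eq]
      push_cast
      linarith

/-- The rearrangements with their coefficients. -/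
def termsOf (N : ℕ) (ps : List (ℕ × N3)) : List (ℕ × N3 × Coef) :=
  ps.map fun p => (p.1, p.2, coefOf N p.2)

theorem withTerms_spec {N : ℕ} : ∀ {ps : List (ℕ × N3)} {k : List (ℕ × N3 × Coef) → Bool},
    withTerms N ps k = true →
      k (termsOf N ps) = true ∧ ∀ p ∈ ps, p.2.n0 + p.2.n1 + p.2.n2 = N
  | [], k, h => ⟨h, by simp⟩
  | (m, n) :: ps, k, h => by
    simp only [withTerms, Bool.and_eq_true, withCoef_eq] at h
    obtain ⟨h1, h2⟩ := withTerms_spec h.2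
    refine ⟨h1, fun p hp => ?_⟩
    rcases List.mem_cons.1 hp with rfl | hp
    · exact Nat.eq_of_beq_eq_true h.1
    · exact h2 p hp

theorem sumN_spec (hX : CtxOK X C) (hG : SideOK G e u s t) (hs : |s| ≤ 1) (ht : |t| ≤ 1) :
    ∀ (ps : List (ℕ × N3)), (∀ p ∈ ps, p.2.n0 + p.2.n1 + p.2.n2 = X.N) →
      ∀ {rs : List Root} {A : Acc} {V : ℝ} {k : Acc → Bool},
      sumN X G (termsOf X.N ps) rs A k = true → AccOK A V s t →
      ∃ A', k A' = true ∧ AccOK A' (V + 4 * (6 * (X.N : ℝ) ^ 3) * X.S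
        * (ps.map fun p => (p.1 : ℝ) * ex (expo3 p.2) (G.F.toFam.pt s t)).sum) s t
  | [], _, [], A, V, k, h, hA => ⟨A, h, by simpa using hA⟩
  | [], _, _ :: _, _, _, _, h, _ => by simp [termsOf, sumN] at h
  | _ :: _, _, [], _, _, _, h, _ => by simp [termsOf, sumN] at h
  | (m, n) :: ps, hn, r :: rs, A, V, k, h, hA => by
    simp only [termsOf, List.map_cons, sumN] at h
    obtain ⟨A1, h1, hA1⟩ := rootN_spec hX hG hs ht (hn (m, n) (List.mem_cons_self)) h hA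
    obtain ⟨A2, h2, hA2⟩ := sumN_spec hX hG hs ht ps
      (fun p hp => hn p (List.mem_cons_of_mem _ hp)) h1 hA1
    refine ⟨A2, h2, ?_⟩
    convert hA2 using 1
    simp only [List.map_cons, List.sum_cons]
    ring

/-- Biased models enclose a value. -/
def ModelOK (M : Model) (v s t : ℝ) : Prop :=
  ∃ dlo dup : ℕ → ℕ, M.lo = packN 256 16 dlo ∧ M.up = packN 256 16 dup ∧
    (∀ k < 16, dlo k ≤ M.sz ∧ dup k ≤ M.sz) ∧
    bev (fun k => (dlo k : ℝ) - 2 ^ 128) s t ≤ v ∧ v ≤ bev (fun k => (dup k : ℝ) - 2 ^ 128) s t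

theorem bval_one (k : ℕ) (hk : k < 16) : bval ⟨1, 0, 0, 0, 0, 0, 0, 0, 0, 0⟩ k = 9 := by
  revert k
  decide +kernel

theorem finN_spec (hX : CtxOK X C) (hs : |s| ≤ 1) (ht : |t| ≤ 1) {A : Acc} {V : ℝ}
    {k : Model → Bool} (h : finN X A k = true) (hA : AccOK A V s t) :
    ∃ M, k M = true ∧ M.sz = 2 ^ 129 ∧
      ModelOK M (8 * (6 * (X.N : ℝ) ^ 3) * X.S - V) s t := by
  obtain ⟨fl, fu, fi, al, au, ai, a1, a2⟩ := hA
  simp only [finN, fN_eq, Bool.and_eq_true] at h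
  obtain ⟨⟨g1, g2⟩, hk⟩ := h
  simp only [Nat.blt, Nat.ble_eq, Nat.succ_eq_add_one, Nat.add_eq, Nat.mul_eq, Nat.pow_eq,
    hX.M6] at g1 g2
  refine ⟨_, hk, rfl, ?_⟩
  obtain ⟨dl, hdl, bl, efl⟩ := al
  obtain ⟨du, hdu, bu, efu⟩ := au
  obtain ⟨di, hdi, bi, efi⟩ := ai
  set two := 2 * X.S * (4 * (6 * X.N ^ 3)) with htwo
  have kc : X.K.c.p = packN 256 16 fun _ => 9 :=
    hX.K.c.1.trans (packN_congr fun k hk => by rw [bval_one k hk]; rfl)
  have fits : ∀ (d : ℕ → ℕ) (w : ℕ), w < 2 ^ 90 → (∀ k < 16, d k ≤ w * 2 ^ 162) →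
      ∀ k < 16, d k < 2 ^ 256 ∧ d k / 2 ^ 144 ≤ w * 2 ^ 18 := fun d w hw hd k hk => by
    have := hd k hk
    constructor
    · have : w * 2 ^ 162 < 2 ^ 90 * 2 ^ 162 := Nat.mul_lt_mul_of_pos_right hw (by positivity)
      norm_num at *
      omega
    · refine Nat.div_le_of_le_mul ?_
      norm_num at *
      omega
  have gu := fits du A.du (by omega) bu
  have gl := fits dl A.dl (by omega) bl
  have hsh : ∀ d : ℕ → ℕ, (∀ k < 16, d k < 2 ^ 256) →
      Nat.land (Nat.shiftRight (packN 256 16 d) 144) X.low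
        = packN 256 16 fun k => d k / 2 ^ 144 := fun d hd => by
    rw [hX.low]
    exact packN_shift_mask (s := 144) (by norm_num) hd
  refine ⟨fun k => 2 ^ 128 + (two * 9 + 2 ^ 16 * A.du) - (du k / 2 ^ 144 + (1 + A.cu * 9)),
    fun k => 2 ^ 128 + ((two + A.cl) * 9 + 2 ^ 16 * A.dl) - (dl k / 2 ^ 144 + di k),
    ?_, ?_, fun k hk => ?_, ?_, ?_⟩
  · simp only [Nat.add_eq, Nat.mul_eq, Nat.sub_eq, Nat.pow_eq, hX.bias, hX.oneD, hX.M6, hdu,
      hsh du fun k hk => (gu k hk).1, kc, packN_add, packN_mul, mul_one, ← htwo]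
    exact packN_sub fun k hk => by
      have := (gu k hk).2
      norm_num at *
      omega
  · simp only [Nat.add_eq, Nat.mul_eq, Nat.sub_eq, Nat.pow_eq, hX.bias, hX.oneD, hX.M6, hdl, hdi,
      hsh dl fun k hk => (gl k hk).1, kc, packN_add, packN_mul, mul_one, ← htwo]
    exact packN_sub fun k hk => by
      have := (gl k hk).2
      have := bi k hk
      norm_num at *
      omega
  · norm_num at *
    constructor <;> omega
  · have hle : ∀ k < 16, ((2 ^ 128 + (two * 9 + 2 ^ 16 * A.du)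
          - (du k / 2 ^ 144 + (1 + A.cu * 9)) : ℕ) : ℝ) - 2 ^ 128
        ≤ 9 * ((two : ℝ) - A.cu) - 1 / 2 ^ 144 * ((du k : ℝ) - (A.du * 2 ^ 160 : ℕ)) := by
      intro k hk
      have := (gu k hk).2
      rw [Nat.cast_sub (by norm_num at *; omega)]
      have h2 : du k ≤ 2 ^ 144 * (du k / 2 ^ 144 + 1) :=
        (Nat.lt_mul_div_succ _ (by positivity)).le
      have h2' : (du k : ℝ) ≤ 2 ^ 144 * (((du k / 2 ^ 144 : ℕ) : ℝ) + 1) := by exact_mod_cast h2
      rw [← div_le_iff₀' (by positivity)] at h2'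
      push_cast
      linarith
    refine (bev_mono hs ht hle).trans ?_
    rw [bev_sub, bev_const, bev_mul, efu]
    simp only [htwo]
    push_cast
    linarith
  · have hle : ∀ k < 16, 9 * ((two : ℝ) + A.cl)
          - (1 / 2 ^ 144 * ((dl k : ℝ) - (A.dl * 2 ^ 160 : ℕ)) + ((di k : ℝ) - (0 : ℕ)))
        ≤ ((2 ^ 128 + ((two + A.cl) * 9 + 2 ^ 16 * A.dl)
          - (dl k / 2 ^ 144 + di k) : ℕ) : ℝ) - 2 ^ 128 := by
      intro k hk
      have := (gl k hk).2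
      have := bi k hk
      rw [Nat.cast_sub (by norm_num at *; omega)]
      have h2 : 2 ^ 144 * (dl k / 2 ^ 144) ≤ dl k := Nat.mul_div_le _ _
      have h2' : (2 : ℝ) ^ 144 * (((dl k / 2 ^ 144 : ℕ) : ℝ)) ≤ dl k := by exact_mod_cast h2
      rw [← le_div_iff₀' (by positivity)] at h2'
      push_cast
      linarith
    refine le_trans ?_ (bev_mono hs ht hle)
    rw [bev_sub, bev_add, bev_const, bev_mul, efl, efi]
    simp only [htwo]
    push_cast
    linarith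

theorem perms_head (n : N3) : ∃ m, (m, n) ∈ perms n := by
  unfold perms
  split_ifs <;> exact ⟨_, List.mem_cons_self⟩

theorem withBasis_spec {N : ℕ} : ∀ {Bs : List Basis}
    {k : List (Side × List (ℕ × N3 × Coef)) → Bool}, withBasis N Bs k = true →
      k (Bs.map fun B => (B.e, termsOf N (perms B.n))) = true ∧
        ∀ B ∈ Bs, ∀ p ∈ perms B.n, p.2.n0 + p.2.n1 + p.2.n2 = N
  | [], k, h => ⟨h, by simp⟩
  | B :: Bs, k, h => by
    simp only [withBasis] at h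
    obtain ⟨h1, h2⟩ := withTerms_spec h
    obtain ⟨h3, h4⟩ := withBasis_spec h1
    refine ⟨h3, fun B' hB' => ?_⟩
    rcases List.mem_cons.1 hB' with rfl | hB'
    · exact h2
    · exact h4 B' hB'

theorem withSide_spec (hX : CtxOK X C) {D p q hp hq : ℕ} (hD : 0 < D)
    {prev : Option (Side × SideD)} (hs : |s| ≤ 1) (ht : |t| ≤ 1)
    (hprev : ∀ e' G', prev = some (e', G') → SideOK G' e' ((⟨p, q, hp, hq⟩ : Bx).pt D s t) s t)
    {k : SideD → Bool} (h : withSide X D (.ofN p) (.ofN q) (.ofN hp) (.ofN hq) e prev k = true) :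
    ∃ G, k G = true ∧ SideOK G e ((⟨p, q, hp, hq⟩ : Bx).pt D s t) s t := by
  rcases prev with _ | ⟨e', G'⟩
  · exact sideN_spec hX.K hX.b160 hD h hs ht
  · by_cases he : sameSide e' e = true
    · simp only [withSide, he, if_true] at h
      refine ⟨G', h, ?_⟩
      simp only [sameSide, Bool.and_eq_true, decide_eq_true_eq] at he
      obtain ⟨a, b⟩ := e'
      obtain ⟨c, d⟩ := e
      obtain ⟨rfl, rfl⟩ := he
      exact hprev _ _ rfl
    · simp only [withSide, he, Bool.false_eq_true, if_false] at h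
      exact sideN_spec hX.K hX.b160 hD h hs ht

theorem allN_spec (hX : CtxOK X C) {D p q hp hq : ℕ} (hD : 0 < D) (hs : |s| ≤ 1) (ht : |t| ≤ 1) :
    ∀ (Bs : List Basis), (∀ B ∈ Bs, ∀ p ∈ perms B.n, p.2.n0 + p.2.n1 + p.2.n2 = X.N) →
      ∀ {R : List (List Root)} {prev : Option (Side × SideD)} {k : List Model → Bool},
      (∀ e' G', prev = some (e', G') → SideOK G' e' ((⟨p, q, hp, hq⟩ : Bx).pt D s t) s t) →
      allN X D (.ofN p) (.ofN q) (.ofN hp) (.ofN hq)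
        (Bs.map fun B => (B.e, termsOf X.N (perms B.n))) R prev k = true →
      ∃ ms, k ms = true ∧ List.Forall₂ (fun B M => M.sz = 2 ^ 129 ∧ ModelOK M
        (8 * (6 * (X.N : ℝ) ^ 3) * X.S * B.val ((⟨p, q, hp, hq⟩ : Bx).pt D s t)) s t) Bs ms
  | [], _, [], _, k, _, h => ⟨[], h, .nil⟩
  | [], _, _ :: _, _, _, _, h => by simp [allN] at h
  | _ :: _, _, [], _, _, _, h => by simp [allN] at h
  | B :: Bs, hn, r :: rs, prev, k, hprev, h => by
    simp only [List.map_cons, allN] at h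
    obtain ⟨G, h1, hG⟩ := withSide_spec hX hD hs ht hprev h
    have hB := hn B List.mem_cons_self
    obtain ⟨A, h2, hA⟩ := sumN_spec hX hG hs ht _ hB h1 AccOK.zero
    obtain ⟨M, h3, hsz, hM⟩ := finN_spec hX hs ht h2 hA
    obtain ⟨ms, h4, hms⟩ := allN_spec hX hD hs ht Bs
      (fun B' hB' => hn B' (List.mem_cons_of_mem _ hB'))
      (fun e' G' h => by obtain ⟨rfl, rfl⟩ := Prod.mk.injEq .. ▸ Option.some.inj h; exact hG) h3
    refine ⟨M :: ms, h4, .cons ⟨hsz, ?_⟩ hms⟩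
    convert hM using 1
    obtain ⟨m, hm⟩ := perms_head B.n
    rw [Basis.val, ← hG.pt, phi3_eq, Basis.expo, perms_sound B.n _ (hB _ hm)]
    ring

end Vale.Agent.P154.Anti.Box
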