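import Vale.Agent.P154.Anti.BoxFastDef

/-!
# Numbers with fixed width digits and Bernstein values

Linear operations act digit by digit as long as no digit overflows, and the sixteen Bernstein
values determine a cubic on the square.
-/

namespace Vale.Agent.P154.Anti.Box

open Finset

theorem fN_eq {α : Type} (x : ℕ) (k : ℕ → α) : fN x k = k x := by
  rfl

theorem Z2.force_eq {α : Type} (a : Z2) (k : Z2 → α) : a.force k = k a := by
  simp only [Z2.force, fN_eq]

theorem PN.force_eq {α : Type} (X : PN) (k : PN → α) : X.force k = k X := by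
  simp only [PN.force, fN_eq]

/-- The number with the first `n` digits `f` in base `2 ^ b`. -/
def packN (b n : ℕ) (f : ℕ → ℕ) : ℕ := ∑ i ∈ range n, f i * 2 ^ (b * i)

theorem foldr_shift (d : ℕ → ℕ) (w : ℕ) : ∀ l : List ℕ,
    l.foldr (fun i r => Nat.add (Nat.shiftLeft (d i) (Nat.mul w i)) r) 0
      = (l.map fun i => d i * 2 ^ (w * i)).sum
  | [] => rfl
  | i :: l => by
    rw [List.foldr_cons, List.map_cons, List.sum_cons, foldr_shift d w l]
    show d i <<< (w * i) + _ = _
    rw [Nat.shiftLeft_eq]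

theorem packD_eq (d : ℕ → ℕ) : packD d = packN 256 16 d :=
  (foldr_shift d digW (List.range 16)).trans rfl

theorem packN_succ (b n : ℕ) (f : ℕ → ℕ) :
    packN b (n + 1) f = packN b n f + f n * 2 ^ (b * n) := sum_range_succ _ _

theorem packN_succ' (b n : ℕ) (f : ℕ → ℕ) :
    packN b (n + 1) f = f 0 + 2 ^ b * packN b n (fun i => f (i + 1)) := by
  simp only [packN]
  rw [sum_range_succ', mul_sum, add_comm, mul_zero, pow_zero, mul_one]
  refine congrArg (f 0 + ·) (sum_congr rfl fun i _ => ?_)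
  rw [show b * (i + 1) = b + b * i by ring, pow_add]
  ring

theorem packN_add (b n : ℕ) (f g : ℕ → ℕ) :
    packN b n f + packN b n g = packN b n fun i => f i + g i := by
  simp only [packN, ← sum_add_distrib, add_mul]

theorem packN_mul (b n c : ℕ) (f : ℕ → ℕ) : c * packN b n f = packN b n fun i => c * f i := by
  simp only [packN, mul_sum, mul_assoc]

theorem packN_congr {b n : ℕ} {f g : ℕ → ℕ} (h : ∀ i < n, f i = g i) :
    packN b n f = packN b n g :=
  sum_congr rfl fun i hi => by rw [h i (mem_range.1 hi)]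

theorem packN_zero (b n : ℕ) : packN b n (fun _ => 0) = 0 := by simp [packN]

theorem packN_lt {b : ℕ} : ∀ {n : ℕ} {f : ℕ → ℕ}, (∀ i < n, f i < 2 ^ b) →
    packN b n f < 2 ^ (b * n)
  | 0, f, _ => by simp [packN]
  | n + 1, f, h => by
    rw [packN_succ]
    have h1 := packN_lt (n := n) fun i hi => h i (by omega)
    have h2 : f n + 1 ≤ 2 ^ b := h n (by omega)
    have h3 := Nat.mul_le_mul_right (2 ^ (b * n)) h2
    rw [add_mul, one_mul] at h3
    rw [show b * (n + 1) = b + b * n by ring, pow_add]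
    omega

theorem testBit_packN {b : ℕ} : ∀ {n : ℕ} {f : ℕ → ℕ}, (∀ i < n, f i < 2 ^ b) →
    ∀ i j, j < b → (packN b n f).testBit (b * i + j) = (decide (i < n) && (f i).testBit j)
  | 0, f, _, i, j, _ => by simp [packN]
  | n + 1, f, h, i, j, hj => by
    rw [packN_succ', add_comm (f 0)]
    rw [Nat.testBit_two_pow_mul_add _ (h 0 (by omega))]
    rcases Nat.eq_zero_or_pos i with rfl | hi
    · simp [hj]
    · obtain ⟨i, rfl⟩ : ∃ k, i = k + 1 := ⟨i - 1, by omega⟩
      rw [if_neg (by rw [mul_add, mul_one]; omega)]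
      rw [show b * (i + 1) + j - b = b * i + j by rw [mul_add, mul_one]; omega]
      rw [testBit_packN (fun k hk => h (k + 1) (by omega)) i j hj]
      simp

theorem packN_shift_mask {n s : ℕ} {f : ℕ → ℕ} (hs : s ≤ 256) (hf : ∀ i < n, f i < 2 ^ 256) :
    (packN 256 n f >>> s) &&& packN 256 n (fun _ => 2 ^ (256 - s) - 1)
      = packN 256 n fun i => f i / 2 ^ s := by
  have hm : ∀ i < n, 2 ^ (256 - s) - 1 < 2 ^ 256 := fun i _ =>
    lt_of_lt_of_le (Nat.sub_lt (Nat.two_pow_pos _) one_pos)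
      (Nat.pow_le_pow_right (by norm_num) (Nat.sub_le _ _))
  have hd : ∀ i < n, f i / 2 ^ s < 2 ^ 256 := fun i hi =>
    lt_of_le_of_lt (Nat.div_le_self _ _) (hf i hi)
  refine Nat.eq_of_testBit_eq fun m => ?_
  obtain ⟨i, j, hj, rfl⟩ : ∃ i j, j < 256 ∧ m = 256 * i + j :=
    ⟨m / 256, m % 256, Nat.mod_lt _ (by norm_num), (Nat.div_add_mod m 256).symm⟩
  rw [Nat.testBit_and, Nat.testBit_shiftRight, testBit_packN hm i j hj, testBit_packN hd i j hj,
    Nat.testBit_two_pow_sub_one, Nat.testBit_div_two_pow]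
  rcases lt_or_ge i n with hi | hi
  · rcases lt_or_ge j (256 - s) with hjs | hjs
    · rw [show s + (256 * i + j) = 256 * i + (s + j) by ring,
        testBit_packN hf i (s + j) (by omega)]
      simp [hi, hjs, add_comm s j]
    · have : (f i).testBit (j + s) = false := Nat.testBit_eq_false_of_lt
        (lt_of_lt_of_le (hf i hi) (Nat.pow_le_pow_right (by norm_num) (by omega)))
      simp [not_lt.2 hjs, this]
  · simp [not_lt.2 hi]

theorem packN_sub {b n : ℕ} {f g : ℕ → ℕ} (h : ∀ i < n, g i ≤ f i) :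
    packN b n f - packN b n g = packN b n fun i => f i - g i := by
  refine Nat.sub_eq_of_eq_add ?_
  rw [packN_add]
  exact packN_congr fun i hi => (Nat.sub_add_cancel (h i hi)).symm

/-- The cubic Bernstein basis on `[-1, 1]`, times eight. -/
def bP (i : ℕ) (s : ℝ) : ℝ :=
  if i = 0 then (1 - s) ^ 3 else if i = 1 then 3 * ((1 - s) ^ 2 * (1 + s))
    else if i = 2 then 3 * ((1 - s) * (1 + s) ^ 2) else (1 + s) ^ 3

/-- The cubic with the Bernstein values `d`, times nine. -/
noncomputable def bev (d : ℕ → ℝ) (s t : ℝ) : ℝ :=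
  (∑ k ∈ range 16, bP (k / 4) s * bP (k % 4) t * d k) / 576

theorem bev_add (d e : ℕ → ℝ) (s t : ℝ) :
    bev (fun k => d k + e k) s t = bev d s t + bev e s t := by
  simp only [bev, mul_add, sum_add_distrib, add_div]

theorem bev_sub (d e : ℕ → ℝ) (s t : ℝ) :
    bev (fun k => d k - e k) s t = bev d s t - bev e s t := by
  simp only [bev, mul_sub, sum_sub_distrib, sub_div]

theorem bev_mul (c : ℝ) (d : ℕ → ℝ) (s t : ℝ) : bev (fun k => c * d k) s t = c * bev d s t := by
  simp only [bev, mul_div_assoc', mul_sum]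
  exact congrArg (· / 576) (sum_congr rfl fun k _ => by ring)

theorem bev_mono {d e : ℕ → ℝ} {s t : ℝ} (hs : |s| ≤ 1) (ht : |t| ≤ 1)
    (h : ∀ k < 16, d k ≤ e k) : bev d s t ≤ bev e s t := by
  have hP : ∀ i : ℕ, ∀ x : ℝ, |x| ≤ 1 → 0 ≤ bP i x := fun i x hx => by
    obtain ⟨x0, x1⟩ := abs_le.1 hx
    have a0 : 0 ≤ 1 - x := by linarith
    have a1 : 0 ≤ 1 + x := by linarith
    unfold bP
    split_ifs <;> positivity
  refine div_le_div_of_nonneg_right (sum_le_sum fun k hk => ?_) (by norm_num)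
  exact mul_le_mul_of_nonneg_left (h k (mem_range.1 hk)) (mul_nonneg (hP _ s hs) (hP _ t ht))

theorem bev_congr {d e : ℕ → ℝ} {s t : ℝ} (h : ∀ k < 16, d k = e k) : bev d s t = bev e s t :=
  congrArg (· / 576) (sum_congr rfl fun k hk => by rw [h k (mem_range.1 hk)])

/-- The Bernstein value of a polynomial at a digit. -/
def bval (u : P10) (k : ℕ) : ℤ := P10.bern u (rowPair k).1 (rowPair k).2

theorem bev_bval (u : P10) (s t : ℝ) : bev (fun k => (bval u k : ℝ)) s t = u.ev s t := by
  simp [bev, sum_range_succ, bP, bval, rowPair, P10.rows, P10.bern, P10.ev]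
  ring

theorem bev_const (c : ℝ) (s t : ℝ) : bev (fun _ => 9 * c) s t = c := by
  simp [bev, sum_range_succ, bP]
  ring

/-- A key holds the Bernstein values of a polynomial, at most `64` in absolute value. -/
def KeyOK (K : Key) (u : P10) : Prop :=
  K.p = packN 256 16 (fun k => (bval u k).toNat) ∧
    K.n = packN 256 16 (fun k => (-bval u k).toNat) ∧ ∀ k < 16, (bval u k).natAbs ≤ 64

/-- The packed pair `X` represents the value `f` of a cubic at `(s, t)`. -/
def RepP (X : PN) (s t f : ℝ) : Prop :=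
  ∃ dp dn : ℕ → ℕ, X.p = packN 256 16 dp ∧ X.n = packN 256 16 dn ∧
    (∀ k < 16, dp k ≤ X.sz ∧ dn k ≤ X.sz) ∧
    bev (fun k => (dp k : ℝ) - dn k) s t = f

/-- The number `X` represents `f` with the bias `c` in each digit and digits at most `B`. -/
def RepB (X : ℕ) (c B : ℕ) (s t f : ℝ) : Prop :=
  ∃ d : ℕ → ℕ, X = packN 256 16 d ∧ (∀ k < 16, d k ≤ B) ∧
    bev (fun k => (d k : ℝ) - c) s t = f

variable {s t f g : ℝ}

theorem RepP.zero : RepP PN.zero s t 0 :=
  ⟨fun _ => 0, fun _ => 0, (packN_zero _ _).symm, (packN_zero _ _).symm,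
    fun _ _ => ⟨le_rfl, le_rfl⟩, by simp [bev]⟩

theorem RepP.addKey {X : PN} (h : RepP X s t f) {z : Z2} {K : Key} {u : P10} (hK : KeyOK K u) :
    RepP (X.addKey z K) s t (f + z.val * u.ev s t) := by
  obtain ⟨dp, dn, hp, hn, hsz, hf⟩ := h
  obtain ⟨kp, kn, kb⟩ := hK
  refine ⟨fun k => dp k + (z.p * (bval u k).toNat + z.n * (-bval u k).toNat),
    fun k => dn k + (z.p * (-bval u k).toNat + z.n * (bval u k).toNat), ?_, ?_, fun k hk => ?_, ?_⟩
  · simp only [PN.addKey, Nat.add_eq, Nat.mul_eq, hp, kp, kn, packN_mul, packN_add]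
  · simp only [PN.addKey, Nat.add_eq, Nat.mul_eq, hn, kp, kn, packN_mul, packN_add]
  · obtain ⟨s1, s2⟩ := hsz k hk
    have b1 : (bval u k).toNat ≤ 64 := by have := kb k hk; omega
    have b2 : (-bval u k).toNat ≤ 64 := by have := kb k hk; omega
    have := Nat.mul_le_mul_left z.p b1
    have := Nat.mul_le_mul_left z.p b2
    have := Nat.mul_le_mul_left z.n b1
    have := Nat.mul_le_mul_left z.n b2
    simp only [PN.addKey, Nat.add_eq, Nat.mul_eq]
    constructor <;> omega
  · rw [← hf, ← bev_bval u s t, ← bev_mul, ← bev_add]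
    refine bev_congr fun k _ => ?_
    have e : ((bval u k).toNat : ℝ) - ((-bval u k).toNat : ℝ) = (bval u k : ℝ) := by
      exact_mod_cast Int.toNat_sub_toNat_neg (bval u k)
    simp only [Z2.val]
    push_cast
    linear_combination ((z.p : ℝ) - z.n) * e

theorem RepP.swap {X : PN} (h : RepP X s t f) : RepP X.swap s t (-f) := by
  obtain ⟨dp, dn, hp, hn, hsz, hf⟩ := h
  refine ⟨dn, dp, hn, hp, fun k hk => (hsz k hk).symm, ?_⟩
  rw [← hf, bev_sub, bev_sub]
  ring

theorem RepP.biased {X : PN} (h : RepP X s t f) {c : ℕ} (hc : X.sz ≤ c) :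
    RepB (Nat.sub (Nat.add X.p (packN 256 16 fun _ => c)) X.n) c (2 * c) s t f := by
  obtain ⟨dp, dn, hp, hn, hsz, hf⟩ := h
  refine ⟨fun k => dp k + c - dn k, ?_, fun k hk => ?_, ?_⟩
  · simp only [Nat.sub_eq, Nat.add_eq, hp, hn, packN_add]
    exact packN_sub fun k hk => by have := (hsz k hk).2; omega
  · have := (hsz k hk).1
    simp only
    omega
  · rw [← hf]
    refine bev_congr fun k hk => ?_
    have := (hsz k hk).2
    rw [Nat.cast_sub (by omega)]
    push_cast
    ring

theorem RepB.zero : RepB 0 0 0 s t 0 :=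
  ⟨fun _ => 0, (packN_zero _ _).symm, fun _ _ => le_rfl, by simp [bev]⟩

theorem RepB.mul {X c B : ℕ} (h : RepB X c B s t f) (a : ℕ) :
    RepB (Nat.mul a X) (a * c) (a * B) s t (a * f) := by
  obtain ⟨d, hd, hb, hf⟩ := h
  refine ⟨fun k => a * d k, by simp only [Nat.mul_eq, hd, packN_mul],
    fun k hk => Nat.mul_le_mul_left a (hb k hk), ?_⟩
  rw [← hf, ← bev_mul]
  exact bev_congr fun k _ => by push_cast; ring

theorem RepB.add {X Y c c' B B' : ℕ} (h : RepB X c B s t f) (h' : RepB Y c' B' s t g) :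
    RepB (Nat.add X Y) (c + c') (B + B') s t (f + g) := by
  obtain ⟨d, hd, hb, hf⟩ := h
  obtain ⟨e, he, hb', hg⟩ := h'
  refine ⟨fun k => d k + e k, by simp only [Nat.add_eq, hd, he, packN_add],
    fun k hk => add_le_add (hb k hk) (hb' k hk), ?_⟩
  rw [← hf, ← hg, ← bev_add]
  exact bev_congr fun k _ => by push_cast; ring

theorem RepB.mono {X c B B' : ℕ} (h : RepB X c B s t f) (hB : B ≤ B') : RepB X c B' s t f := by
  obtain ⟨d, hd, hb, hf⟩ := h
  exact ⟨d, hd, fun k hk => (hb k hk).trans hB, hf⟩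

theorem RepB.of_key {K : Key} {u : P10} (hK : KeyOK K u) (h0 : ∀ k < 16, 0 ≤ bval u k) :
    RepB K.p 0 64 s t (u.ev s t) := by
  refine ⟨_, hK.1, fun k hk => ?_, ?_⟩
  · have := hK.2.2 k hk
    omega
  · rw [← bev_bval u s t]
    refine bev_congr fun k hk => ?_
    have : ((bval u k).toNat : ℝ) = (bval u k : ℝ) := by
      exact_mod_cast Int.toNat_of_nonneg (h0 k hk)
    rw [this, Nat.cast_zero, sub_zero]

end Vale.Agent.P154.Anti.Box
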