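import Vale.Agent.P154.Anti.BoxFastPack

/-!
# The family, the fixed point deviations and their monomials on a box
-/

namespace Vale.Agent.P154.Anti.Box

open Finset Vale.Agent.P154.Tree

namespace Z2

theorem val_add (a b : Z2) : (a.add b).val = a.val + b.val := by
  simp only [add, val, Nat.add_eq]; push_cast; ring

theorem val_sub (a b : Z2) : (a.sub b).val = a.val - b.val := by
  simp only [sub, val, Nat.add_eq]; push_cast; ring

theorem val_neg (a : Z2) : a.neg.val = -a.val := by simp [neg, val]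

theorem val_scale (c : ℕ) (a : Z2) : (a.scale c).val = c * a.val := by
  simp only [scale, val, Nat.mul_eq]; push_cast; ring

theorem val_mul (a b : Z2) : (a.mul b).val = a.val * b.val := by
  simp only [mul, val, Nat.add_eq, Nat.mul_eq]; push_cast; ring

theorem val_ofI (z : ℤ) : (ofI z).val = z := by simp only [ofI, val]; omega

theorem val_ofN (a : ℕ) : (ofN a).val = a := by simp [ofN, val]

theorem val_zero : zero.val = 0 := by simp [zero, val]

theorem val_absv (a : Z2) : (a.absv : ℤ) = |a.val| := by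
  simp only [absv, val, Nat.add_eq, Nat.sub_eq]
  rcases le_total a.n a.p with h | h
  · rw [abs_of_nonneg (by omega), Nat.sub_eq_zero_of_le h]; omega
  · rw [abs_of_nonpos (by omega), Nat.sub_eq_zero_of_le h]; omega

theorem quo_close (a : Z2) {d : ℕ} (hd : 0 < d) :
    |((a.quo d).val : ℝ) - (a.val : ℝ) / d| ≤ 1 := by
  have hd' : (0 : ℝ) < d := by exact_mod_cast hd
  set x := a.p - a.n with hx
  set y := a.n - a.p with hy
  have hv : (a.val : ℝ) = (x : ℝ) - y := by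
    have : a.val = (x : ℤ) - y := by simp only [val, hx, hy]; omega
    rw [this]; push_cast; rfl
  have h1 : d * (x / d) ≤ x := Nat.mul_div_le x d
  have h2 : x < d * (x / d + 1) := Nat.lt_mul_div_succ x hd
  have h3 : d * ((y + d - 1) / d) ≤ y + d - 1 := Nat.mul_div_le _ d
  have h4 : y + d - 1 < d * ((y + d - 1) / d + 1) := Nat.lt_mul_div_succ _ hd
  rw [Nat.mul_add, Nat.mul_one] at h2 h4
  have h3' : d * ((y + d - 1) / d) + 1 ≤ y + d := by omega
  have h4' : y ≤ d * ((y + d - 1) / d) := by omega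
  have hxy : x = 0 ∨ y = 0 := by omega
  have e : ((a.quo d).val : ℝ) = ((x / d : ℕ) : ℝ) - (((y + d - 1) / d : ℕ) : ℝ) := by
    simp only [quo, val, hx, hy]
    push_cast
    rfl
  have c1 : (d : ℝ) * ((x / d : ℕ) : ℝ) ≤ x := by exact_mod_cast h1
  have c2 : (x : ℝ) ≤ d * ((x / d : ℕ) : ℝ) + d := by exact_mod_cast h2.le
  have c3 : (d : ℝ) * (((y + d - 1) / d : ℕ) : ℝ) + 1 ≤ y + d := by exact_mod_cast h3'
  have c4 : (y : ℝ) ≤ d * (((y + d - 1) / d : ℕ) : ℝ) := by exact_mod_cast h4'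
  have hx0 : x = 0 → ((x / d : ℕ) : ℝ) = 0 := fun h => by simp [h]
  have hy0 : y = 0 → (((y + d - 1) / d : ℕ) : ℝ) = 0 := fun h => by
    rw [h, Nat.div_eq_of_lt (by omega), Nat.cast_zero]
  rw [e, hv]
  rcases hxy with h | h
  · have e1 := hx0 h
    have e2 : (x : ℝ) = 0 := by simp [h]
    rw [e1, e2]
    rw [show (0 : ℝ) - (((y + d - 1) / d : ℕ) : ℝ) - (0 - (y : ℝ)) / d
      = ((y : ℝ) - d * (((y + d - 1) / d : ℕ) : ℝ)) / d by field_simp; ring, abs_div,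
      abs_of_pos hd', div_le_one hd', abs_le]
    constructor <;> linarith
  · have e1 := hy0 h
    have e2 : (y : ℝ) = 0 := by simp [h]
    rw [e1, e2]
    rw [show ((x / d : ℕ) : ℝ) - 0 - ((x : ℝ) - 0) / d
      = ((d : ℝ) * ((x / d : ℕ) : ℝ) - x) / d by field_simp; ring, abs_div,
      abs_of_pos hd', div_le_one hd', abs_le]
    constructor <;> linarith

end Z2

/-- The integer family behind the data. -/
def FamN.toFam (F : FamN) : Fam :=
  ⟨F.den, ⟨F.v0, F.v1, F.v2⟩, ⟨F.A0.val, 0, F.A2.val⟩, ⟨F.B0.val, F.B1.val, 0⟩⟩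

theorem famN_spec {D : ℕ} {p q hp hq : ℕ} {e : Side} (he : 0 < e.ld) {k : FamN → Bool}
    (h : famN D (.ofN p) (.ofN q) (.ofN hp) (.ofN hq) (.ofI e.ln) e.ld.toNat k = true)
    (hk : ∀ F, k F = true → F.ok = true) :
    ∃ F : FamN, k F = true ∧ F.toFam = fam D ⟨p, q, hp, hq⟩ e ∧ famOk F.toFam = true ∧
      (F.e0 : ℤ) = (ext F.toFam).z0 ∧ (F.e1 : ℤ) = (ext F.toFam).z1 ∧
      (F.e2 : ℤ) = (ext F.toFam).z2 := by
  simp only [famN, fN_eq, Z2.force_eq] at h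
  refine ⟨_, h, ?_⟩
  have hok := hk _ h
  simp only [FamN.ok, Bool.and_eq_true, Nat.blt, Nat.ble_eq, Nat.sub_eq, Nat.add_eq,
    Nat.mul_eq] at hok
  obtain ⟨⟨⟨⟨⟨⟨o0, o1⟩, o2⟩, o3⟩, o4⟩, o5⟩, o6⟩ := hok
  have hld : ((e.ld.toNat : ℕ) : ℤ) = e.ld := Int.toNat_of_nonneg he.le
  have vpos : ∀ u : Z2, 1 ≤ u.p - u.n → ((u.p - u.n : ℕ) : ℤ) = u.val := fun u hu => by
    simp only [Z2.val]; omega
  refine ⟨?_, ?_⟩
  · simp only [FamN.toFam, fam, Nat.sub_eq, vpos _ o1, vpos _ o2, vpos _ o3, Nat.mul_eq,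
      Fam.mk.injEq, Z3.mk.injEq]
    simp only [Z2.val_add, Z2.val_sub, Z2.val_mul, Z2.val_scale, Z2.val_ofN, Z2.val_ofI,
      Z2.val_neg, hld]
    push_cast
    rw [hld]
    refine ⟨?_, ⟨?_, ?_, ?_⟩, ⟨?_, ?_, ?_⟩, ?_, ?_, ?_⟩ <;>
      first | trivial | ring
  · refine ⟨?_, ?_, ?_, ?_⟩
    · simp only [famOk, ext, FamN.toFam, Nat.sub_eq, Nat.mul_eq, Z2.val_neg, abs_neg,
        abs_zero, add_zero, zero_add, Bool.and_eq_true, decide_eq_true_eq, ← Z2.val_absv]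
      norm_cast
    · simp [ext, FamN.toFam, Z2.val_neg, ← Z2.val_absv]
    · simp [ext, FamN.toFam, ← Z2.val_absv]
    · simp [ext, FamN.toFam, ← Z2.val_absv]

/-- The keys are those of the monomials and the corner functions. -/
structure KeysOK (K : Keys) : Prop where
  c : KeyOK K.c ⟨1, 0, 0, 0, 0, 0, 0, 0, 0, 0⟩
  x : KeyOK K.x ⟨0, 1, 0, 0, 0, 0, 0, 0, 0, 0⟩
  y : KeyOK K.y ⟨0, 0, 1, 0, 0, 0, 0, 0, 0, 0⟩
  xx : KeyOK K.xx ⟨0, 0, 0, 1, 0, 0, 0, 0, 0, 0⟩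
  xy : KeyOK K.xy ⟨0, 0, 0, 0, 1, 0, 0, 0, 0, 0⟩
  yy : KeyOK K.yy ⟨0, 0, 0, 0, 0, 1, 0, 0, 0, 0⟩
  xxx : KeyOK K.xxx ⟨0, 0, 0, 0, 0, 0, 1, 0, 0, 0⟩
  xxy : KeyOK K.xxy ⟨0, 0, 0, 0, 0, 0, 0, 1, 0, 0⟩
  xyy : KeyOK K.xyy ⟨0, 0, 0, 0, 0, 0, 0, 0, 1, 0⟩
  yyy : KeyOK K.yyy ⟨0, 0, 0, 0, 0, 0, 0, 0, 0, 1⟩
  mm : KeyOK K.mm ⟨1, -1, -1, 0, 1, 0, 0, 0, 0, 0⟩
  mp : KeyOK K.mp ⟨1, -1, 1, 0, -1, 0, 0, 0, 0, 0⟩
  pm : KeyOK K.pm ⟨1, 1, -1, 0, -1, 0, 0, 0, 0, 0⟩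
  pp : KeyOK K.pp ⟨1, 1, 1, 0, 1, 0, 0, 0, 0, 0⟩

theorem keyOK_mk (f : P10) (h : ∀ k < 16, (bval f k).natAbs ≤ 64) :
    KeyOK ⟨keyP f, keyN f⟩ f := by
  unfold KeyOK keyP keyN
  rw [packD_eq, packD_eq]
  exact ⟨rfl, rfl, h⟩

theorem withKeys_spec {α : Type} (k : Keys → α) :
    ∃ K, KeysOK K ∧ withKeys k = k K := by
  refine ⟨_, ?_, by simp only [withKeys, withKey, fN_eq]; rfl⟩
  constructor <;> exact keyOK_mk _ (by decide +kernel)

/-- The scaled linear forms at a point. -/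
def devAt (d : Devs) (s t : ℝ) : Fin 3 → ℝ :=
  ![(d.a0.val : ℝ) * s + (d.b0.val : ℝ) * t, (d.b1.val : ℝ) * t, (d.a2.val : ℝ) * s]

/-- The monomials hold the products of the forms `x`, `y`, `z`. -/
structure MonsOK (G : Mons) (c : ℕ) (s t : ℝ) (x y z : Fin 3 → ℝ) : Prop where
  l0 : RepB G.l0 c (2 * c) s t (z 0)
  l1 : RepB G.l1 c (2 * c) s t (z 1)
  l2 : RepB G.l2 c (2 * c) s t (z 2)
  q00 : RepB G.q00 c (2 * c) s t (-(x 0 * y 0))
  q11 : RepB G.q11 c (2 * c) s t (-(x 1 * y 1))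
  q22 : RepB G.q22 c (2 * c) s t (-(x 2 * y 2))
  q01 : RepB G.q01 c (2 * c) s t (x 0 * y 1)
  q02 : RepB G.q02 c (2 * c) s t (x 0 * y 2)
  q12 : RepB G.q12 c (2 * c) s t (x 2 * y 1)
  c000 : RepB G.c000 c (2 * c) s t (x 0 * x 0 * x 0)
  c111 : RepB G.c111 c (2 * c) s t (x 1 * x 1 * x 1)
  c222 : RepB G.c222 c (2 * c) s t (x 2 * x 2 * x 2)
  c011 : RepB G.c011 c (2 * c) s t (-(x 0 * x 1 * x 1))
  c022 : RepB G.c022 c (2 * c) s t (-(x 0 * x 2 * x 2))
  c100 : RepB G.c100 c (2 * c) s t (-(x 1 * x 0 * x 0))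
  c122 : RepB G.c122 c (2 * c) s t (-(x 1 * x 2 * x 2))
  c200 : RepB G.c200 c (2 * c) s t (-(x 2 * x 0 * x 0))
  c211 : RepB G.c211 c (2 * c) s t (-(x 2 * x 1 * x 1))
  c012 : RepB G.c012 c (2 * c) s t (x 0 * x 1 * x 2)

variable {s t : ℝ}

theorem RepP.biased_eq {X : PN} {f g : ℝ} (h : RepP X s t f) (e : f = g) {c : ℕ}
    (hc : X.sz ≤ c) :
    RepB (Nat.sub (Nat.add X.p (packN 256 16 fun _ => c)) X.n) c (2 * c) s t g :=
  e ▸ h.biased hc

theorem monsN_spec {K : Keys} (hK : KeysOK K) {c : ℕ} {e f g : Devs} {k : Mons → ℕ → Bool}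
    (h : monsN K (packN 256 16 fun _ => c) e f g k = true) :
    ∃ G sz, k G sz = true ∧
      (sz ≤ c → MonsOK G c s t (devAt e s t) (devAt f s t) (devAt g s t)) := by
  simp only [monsN, fN_eq, Z2.force_eq, PN.biased] at h
  refine ⟨_, _, h, fun hs => ?_⟩
  simp only [Nat.add_eq] at hs
  have z := RepP.zero (s := s) (t := t)
  constructor
  · exact ((z.addKey hK.x).addKey hK.y).biased_eq (by simp [devAt, P10.ev]) (by omega)
  · exact (z.addKey hK.y).biased_eq (by simp [devAt, P10.ev]) (by omega)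
  · exact (z.addKey hK.x).biased_eq (by simp [devAt, P10.ev]) (by omega)
  · exact (((z.addKey hK.xx).addKey hK.xy).addKey hK.yy).swap.biased_eq
      (by simp [devAt, P10.ev, Z2.val_add, Z2.val_mul]; ring) (by omega)
  · exact (z.addKey hK.yy).swap.biased_eq
      (by simp [devAt, P10.ev, Z2.val_mul]; ring) (by omega)
  · exact (z.addKey hK.xx).swap.biased_eq
      (by simp [devAt, P10.ev, Z2.val_mul]; ring) (by omega)
  · exact ((z.addKey hK.xy).addKey hK.yy).biased_eq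
      (by simp [devAt, P10.ev, Z2.val_mul]; ring) (by omega)
  · exact ((z.addKey hK.xx).addKey hK.xy).biased_eq
      (by simp [devAt, P10.ev, Z2.val_mul]; ring) (by omega)
  · exact (z.addKey hK.xy).biased_eq (by simp [devAt, P10.ev, Z2.val_mul]; ring) (by omega)
  · exact ((((z.addKey hK.xxx).addKey hK.xxy).addKey hK.xyy).addKey hK.yyy).biased_eq
      (by simp [devAt, P10.ev, Z2.val_mul, Z2.val_add, Z2.val_scale]; ring) (by omega)
  · exact (z.addKey hK.yyy).biased_eq (by simp [devAt, P10.ev, Z2.val_mul]; ring) (by omega)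
  · exact (z.addKey hK.xxx).biased_eq (by simp [devAt, P10.ev, Z2.val_mul]; ring) (by omega)
  · exact ((z.addKey hK.xyy).addKey hK.yyy).swap.biased_eq
      (by simp [devAt, P10.ev, Z2.val_mul]; ring) (by omega)
  · exact ((z.addKey hK.xxx).addKey hK.xxy).swap.biased_eq
      (by simp [devAt, P10.ev, Z2.val_mul]; ring) (by omega)
  · exact (((z.addKey hK.xxy).addKey hK.xyy).addKey hK.yyy).swap.biased_eq
      (by simp [devAt, P10.ev, Z2.val_mul, Z2.val_scale]; ring) (by omega)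
  · exact (z.addKey hK.xxy).swap.biased_eq
      (by simp [devAt, P10.ev, Z2.val_mul]; ring) (by omega)
  · exact (((z.addKey hK.xxx).addKey hK.xxy).addKey hK.xyy).swap.biased_eq
      (by simp [devAt, P10.ev, Z2.val_mul, Z2.val_scale]; ring) (by omega)
  · exact (z.addKey hK.xyy).swap.biased_eq
      (by simp [devAt, P10.ev, Z2.val_mul]; ring) (by omega)
  · exact ((z.addKey hK.xxy).addKey hK.xyy).biased_eq
      (by simp [devAt, P10.ev, Z2.val_mul]; ring) (by omega)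

/-- The data of a side at a point of a box. -/
structure SideOK (G : SideD) (e : Side) (u : Fin 3 → ℝ) (s t : ℝ) : Prop where
  ok : famOk G.F.toFam = true
  pt : G.F.toFam.pt s t = shrink ((e.ln : ℝ) / e.ld) u
  rel : ∀ i : Fin 3, |(G.F.toFam.A.fn i : ℝ)| + |(G.F.toFam.B.fn i : ℝ)|
    ≤ (G.F.toFam.V.fn i : ℝ) * ((![G.r0, G.r1, G.r2] i : ℕ) : ℝ) / 2 ^ 24
  mons : ∃ de df dg : Devs, MonsOK G.G (2 ^ 160) s t (devAt de s t) (devAt df s t) (devAt dg s t) ∧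
    ∀ i : Fin 3, ∀ x : ℝ × Devs, x ∈ [((2 : ℝ) ^ 48, de), ((2 : ℝ) ^ 96, df), ((2 : ℝ) ^ 144, dg)] →
      |devAt x.2 s t i / x.1
        - ((G.F.toFam.A.fn i : ℝ) * s + (G.F.toFam.B.fn i : ℝ) * t) / G.F.toFam.V.fn i|
        ≤ 2 / (2 : ℝ) ^ 48

theorem devN_close {sc v : ℕ} (hsc : 0 < sc) (hv : 0 < v) (A : Z2) :
    |((devN sc A v).val : ℝ) / sc - (A.val : ℝ) / v| ≤ 1 / sc := by
  have h := Z2.quo_close (A.scale sc) hv
  have hsc' : (0 : ℝ) < sc := by exact_mod_cast hsc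
  have hv' : (0 : ℝ) < v := by exact_mod_cast hv
  rw [Z2.val_scale] at h
  push_cast at h
  rw [show ((devN sc A v).val : ℝ) / sc - (A.val : ℝ) / v
    = (((devN sc A v).val : ℝ) - (sc : ℝ) * A.val / v) / sc by field_simp, abs_div,
    abs_of_pos hsc']
  exact div_le_div_of_nonneg_right h hsc'.le

theorem devs_close {F : FamN} (hok : famOk F.toFam = true) (hs : |s| ≤ 1) (ht : |t| ≤ 1) {sc : ℕ}
    (hsc : 2 ^ 48 ≤ sc) (i : Fin 3) :
    |devAt ⟨devN sc F.A0 F.v0, devN sc F.B0 F.v0, devN sc F.B1 F.v1, devN sc F.A2 F.v2⟩ s t i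
        / (sc : ℝ)
      - ((F.toFam.A.fn i : ℝ) * s + (F.toFam.B.fn i : ℝ) * t) / F.toFam.V.fn i|
      ≤ 2 / (2 : ℝ) ^ 48 := by
  obtain ⟨-, hV, -⟩ := famOk_spec hok
  have h0 : 0 < F.v0 := by simpa [FamN.toFam, Z3.fn] using hV 0
  have h1 : 0 < F.v1 := by simpa [FamN.toFam, Z3.fn] using hV 1
  have h2 : 0 < F.v2 := by simpa [FamN.toFam, Z3.fn] using hV 2
  have hsc0 : 0 < sc := lt_of_lt_of_le (by positivity) hsc
  have hb : 1 / (sc : ℝ) ≤ 1 / (2 : ℝ) ^ 48 :=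
    one_div_le_one_div_of_le (by positivity) (by exact_mod_cast hsc)
  have mul : ∀ {x y e : ℝ}, |x| ≤ e → |y| ≤ 1 → |x * y| ≤ e := fun {x y e} hx hy => by
    rw [abs_mul]
    exact (mul_le_of_le_one_right (abs_nonneg x) hy).trans hx
  have a0 := mul ((devN_close hsc0 h0 F.A0).trans hb) hs
  have b0 := mul ((devN_close hsc0 h0 F.B0).trans hb) ht
  have b1 := mul ((devN_close hsc0 h1 F.B1).trans hb) ht
  have a2 := mul ((devN_close hsc0 h2 F.A2).trans hb) hs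
  have n0 : (0 : ℝ) < F.v0 := by exact_mod_cast h0
  have n1 : (0 : ℝ) < F.v1 := by exact_mod_cast h1
  have n2 : (0 : ℝ) < F.v2 := by exact_mod_cast h2
  rw [abs_le] at a0 b0 b1 a2 ⊢
  fin_cases i <;> simp [devAt, FamN.toFam, Z3.fn, add_div, sub_mul, div_mul_eq_mul_div] at * <;>
    constructor <;> linarith

theorem relUpN_spec {x v : ℕ} (hv : 0 < v) : x * 2 ^ 24 ≤ relUpN x v * v := by
  have h := Nat.lt_mul_div_succ (x * 2 ^ 24 + v - 1) hv
  have : relUpN x v = (x * 2 ^ 24 + v - 1) / v := rfl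
  rw [Nat.mul_add, Nat.mul_one, Nat.mul_comm v, ← this] at h
  omega

theorem sideN_spec {X : Ctx} (hK : KeysOK X.K) (hb : X.b160 = packN 256 16 fun _ => 2 ^ 160)
    {D p q hp hq : ℕ} (hD : 0 < D) {e : Side} {k : SideD → Bool}
    (h : sideN X D (.ofN p) (.ofN q) (.ofN hp) (.ofN hq) e k = true)
    (hs : |s| ≤ 1) (ht : |t| ≤ 1) :
    ∃ G, k G = true ∧ SideOK G e ((⟨p, q, hp, hq⟩ : Bx).pt D s t) s t := by
  simp only [sideN, fN_eq, Z2.force_eq, Bool.and_eq_true] at h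
  obtain ⟨hld, h⟩ := h
  have he : 0 < e.ld := by
    have : 1 ≤ e.ld.toNat := by simpa [Nat.blt, Nat.ble_eq] using hld
    omega
  obtain ⟨F, hF, htf, hok, x0, x1, x2⟩ :=
    famN_spec he h fun F hF => (Bool.and_eq_true _ _ ▸ hF).1
  simp only [Bool.and_eq_true, withDevs, Z2.force_eq, hb] at hF
  obtain ⟨G, sz, hG, hmons⟩ := monsN_spec (s := s) (t := t) hK hF.2
  simp only [Bool.and_eq_true] at hG
  refine ⟨_, hG.2, ⟨hok, ?_, fun i => ?_, ?_⟩⟩
  · rw [htf]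
    exact (shrink_pt (C := ⟨D, 1, 1, [], []⟩) (by simp; omega) e
      (by exact_mod_cast he.ne')).symm
  · obtain ⟨-, hV, -⟩ := famOk_spec hok
    have h0 : 0 < F.v0 := by simpa [FamN.toFam, Z3.fn] using hV 0
    have h1 : 0 < F.v1 := by simpa [FamN.toFam, Z3.fn] using hV 1
    have h2 : 0 < F.v2 := by simpa [FamN.toFam, Z3.fn] using hV 2
    have key : ∀ (z : ℤ) (x r v : ℕ), (x : ℤ) = z → x * 2 ^ 24 ≤ r * v →
        (z : ℝ) ≤ (v : ℝ) * r / 2 ^ 24 := fun z x r v hz hxr => by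
      rw [le_div_iff₀ (by positivity), ← hz]
      rw [mul_comm (v : ℝ)]
      exact_mod_cast hxr
    have k0 := key _ _ _ _ x0 (relUpN_spec h0)
    have k1 := key _ _ _ _ x1 (relUpN_spec h1)
    have k2 := key _ _ _ _ x2 (relUpN_spec h2)
    simp only [ext, Int.cast_add, Int.cast_abs] at k0 k1 k2
    fin_cases i
    · simpa [FamN.toFam, Z3.fn] using k0
    · simpa [FamN.toFam, Z3.fn] using k1
    · simpa [FamN.toFam, Z3.fn] using k2
  · refine ⟨_, _, _, hmons (by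
      have := hG.1
      simp only [Nat.blt, Nat.ble_eq] at this
      exact le_of_lt this), fun i x hx => ?_⟩
    simp only [List.mem_cons, List.not_mem_nil, or_false] at hx
    have cl := fun m (hm : 48 ≤ m) => devs_close (F := F) hok hs ht (sc := 2 ^ m)
      (Nat.pow_le_pow_right (by norm_num) hm) i
    simp only [Nat.cast_pow, Nat.cast_ofNat] at cl
    rcases hx with rfl | rfl | rfl
    exacts [cl 48 le_rfl, cl 96 (by norm_num), cl 144 (by norm_num)]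

end Vale.Agent.P154.Anti.Box
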