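import Vale.Agent.P154.Anti.BoxFastSide

/-!
# The fixed point Taylor polynomial of a geometric mean
-/

namespace Vale.Agent.P154.Anti.Box

open Finset Vale.Agent.P154.Tree

/-- The context is that of the configuration. -/
structure CtxOK (X : Ctx) (C : Cfg) : Prop where
  cfg : 0 < C.D ∧ 0 < C.S ∧ C.N ≠ 0
  D : (X.D : ℤ) = C.D
  S : (X.S : ℤ) = C.S
  N : X.N = C.N
  SN : X.SN = X.S ^ X.N
  M6 : X.M6 = 6 * X.N ^ 3
  K : KeysOK X.K
  low : X.low = packN 256 16 fun _ => 2 ^ 112 - 1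
  bias : X.bias = packN 256 16 fun _ => 2 ^ 128
  oneD : X.oneD = packN 256 16 fun _ => 1
  b160 : X.b160 = packN 256 16 fun _ => 2 ^ 160
  oneH : X.oneH = 2 ^ 144 * X.K.c.p

/-- The coefficients computed by `withCoef`. -/
def coefOf (M : ℕ) (n : N3) : Coef :=
  let l := fun m => 6 * M ^ 2 * m
  let d := fun m => 3 * M * (m * (M - m))
  let o := fun a b => 6 * M * (a * b)
  let c := cCube M
  let x := cMix M
  let t := 6 * (n.n0 * (n.n1 * n.n2))
  ⟨6 * M ^ 3,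
    l n.n0 + (l n.n1 + l n.n2)
      + (d n.n0 + (d n.n1 + d n.n2) + (o n.n0 n.n1 + (o n.n0 n.n2 + o n.n1 n.n2)))
      + (c n.n0 + (c n.n1 + c n.n2) + (x n.n0 n.n1 + (x n.n0 n.n2 + x n.n1 n.n0))
        + (x n.n1 n.n2 + (x n.n2 n.n0 + x n.n2 n.n1) + t)),
    l n.n0, l n.n1, l n.n2, d n.n0, d n.n1, d n.n2, o n.n0 n.n1, o n.n0 n.n2, o n.n1 n.n2,
    c n.n0, c n.n1, c n.n2, x n.n0 n.n1, x n.n0 n.n2, x n.n1 n.n0, x n.n1 n.n2, x n.n2 n.n0,
    x n.n2 n.n1, t⟩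

theorem withCoef_eq (M : ℕ) (n : N3) (k : Coef → Bool) :
    withCoef M n.n0 n.n1 n.n2 k = k (coefOf M n) := by
  simp only [withCoef, fN_eq, Nat.mul_eq, Nat.add_eq, Nat.pow_eq, Nat.sub_eq, coefOf]

theorem coef_one_le_tot {M : ℕ} {n : N3} (hn : n.n0 + n.n1 + n.n2 = M) :
    (coefOf M n).one ≤ (coefOf M n).tot := by
  have h : 6 * M ^ 3 = 6 * M ^ 2 * n.n0 + (6 * M ^ 2 * n.n1 + 6 * M ^ 2 * n.n2) := by
    rw [← hn]; ring
  simp only [coefOf]
  omega

/-- Six times the cubed total times the Taylor polynomial, with separate arguments in the linear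
and quadratic terms. -/
def tp (M : ℝ) (m x y z : Fin 3 → ℝ) : ℝ :=
  6 * M ^ 3 + 6 * M ^ 2 * (m 0 * z 0 + m 1 * z 1 + m 2 * z 2)
    - 3 * M * (m 0 * (M - m 0) * (x 0 * y 0) + m 1 * (M - m 1) * (x 1 * y 1)
      + m 2 * (M - m 2) * (x 2 * y 2))
    + 6 * M * (m 0 * m 1 * (x 0 * y 1) + m 0 * m 2 * (x 0 * y 2) + m 1 * m 2 * (x 2 * y 1))
    + (m 0 * (M - m 0) * (2 * M - m 0) * (x 0 * x 0 * x 0)
      + m 1 * (M - m 1) * (2 * M - m 1) * (x 1 * x 1 * x 1)
      + m 2 * (M - m 2) * (2 * M - m 2) * (x 2 * x 2 * x 2))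
    - 3 * (m 0 * m 1 * (M - m 1) * (x 0 * x 1 * x 1) + m 0 * m 2 * (M - m 2) * (x 0 * x 2 * x 2)
      + m 1 * m 0 * (M - m 0) * (x 1 * x 0 * x 0) + m 1 * m 2 * (M - m 2) * (x 1 * x 2 * x 2)
      + m 2 * m 0 * (M - m 0) * (x 2 * x 0 * x 0) + m 2 * m 1 * (M - m 1) * (x 2 * x 1 * x 1))
    + 6 * (m 0 * m 1 * m 2) * (x 0 * x 1 * x 2)

theorem tp_self {M : ℝ} (hM : M ≠ 0) (m e : Fin 3 → ℝ) :
    tp M m e e e = 6 * M ^ 3 * cubT3 (fun i => m i / M) e := by
  simp only [tp, cubT3, Fin.sum_univ_three]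
  field_simp
  ring

theorem tp_err {M δ : ℝ} {m x y z e : Fin 3 → ℝ} (hm : ∀ i, 0 ≤ m i) (hs : m 0 + m 1 + m 2 = M)
    (hd : 0 ≤ δ) (hd1 : δ ≤ 1 / 10) (he : ∀ i, |e i| ≤ 1) (hx : ∀ i, |x i - e i| ≤ δ)
    (hy : ∀ i, |y i - e i| ≤ δ) (hz : ∀ i, |z i - e i| ≤ δ) :
    |tp M m x y z - tp M m e e e| ≤ 120 * M ^ 3 * δ := by
  have hm1 : ∀ i, m i ≤ M := fun i => by
    have := hm 0; have := hm 1; have := hm 2
    fin_cases i <;> simp <;> linarith
  have hM : 0 ≤ M := (hm 0).trans (hm1 0)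
  have hx1 : ∀ i, |x i| ≤ 1 + δ := fun i => by
    have := abs_sub_abs_le_abs_sub (x i) (e i); linarith [hx i, he i]
  have hy1 : ∀ i, |y i| ≤ 1 + δ := fun i => by
    have := abs_sub_abs_le_abs_sub (y i) (e i); linarith [hy i, he i]
  have P : ∀ i j, |x i * y j - e i * e j| ≤ 3 * δ := fun i j => by
    rw [show x i * y j - e i * e j = (x i - e i) * y j + e i * (y j - e j) by ring]
    refine (abs_add_le _ _).trans ?_
    rw [abs_mul, abs_mul]
    have := mul_le_mul (hx i) (hy1 j) (abs_nonneg _) hd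
    have := mul_le_mul (he i) (hy j) (abs_nonneg _) zero_le_one
    nlinarith only [this, hd, hd1, mul_le_mul (hx i) (hy1 j) (abs_nonneg _) hd]
  have Q : ∀ i j k, |x i * x j * x k - e i * e j * e k| ≤ 7 * δ := fun i j k => by
    rw [show x i * x j * x k - e i * e j * e k = (x i - e i) * (x j * x k)
      + e i * ((x j - e j) * x k + e j * (x k - e k)) by ring]
    refine (abs_add_le _ _).trans ?_
    rw [abs_mul, abs_mul, abs_mul]
    have h1 := mul_le_mul (hx i) (mul_le_mul (hx1 j) (hx1 k) (abs_nonneg _) (by linarith))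
      (by positivity) hd
    have h2 : |(x j - e j) * x k + e j * (x k - e k)| ≤ δ * (1 + δ) + 1 * δ :=
      (abs_add_le _ _).trans (by
        rw [abs_mul, abs_mul]
        exact add_le_add (mul_le_mul (hx j) (hx1 k) (abs_nonneg _) hd)
          (mul_le_mul (he j) (hx k) (abs_nonneg _) zero_le_one))
    have h3 := mul_le_mul (he i) h2 (abs_nonneg _) zero_le_one
    have hd2 : δ * δ ≤ δ * (1 / 10) := mul_le_mul_of_nonneg_left hd1 hd
    have hd3 : δ * δ * δ ≤ δ * δ * (1 / 10) :=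
      mul_le_mul_of_nonneg_left hd1 (mul_nonneg hd hd)
    linarith only [h1, h3, hd2, hd3, hd]
  have T : ∀ {c w b : ℝ}, 0 ≤ c → |w| ≤ b → -(c * b) ≤ c * w ∧ c * w ≤ c * b := fun {c w b} hc hw =>
    ⟨by nlinarith only [hc, (abs_le.1 hw).1], mul_le_mul_of_nonneg_left (abs_le.1 hw).2 hc⟩
  have n0 := hm 0
  have n1 := hm 1
  have n2 := hm 2
  have s0 : 0 ≤ M - m 0 := sub_nonneg.2 (hm1 0)
  have s1 : 0 ≤ M - m 1 := sub_nonneg.2 (hm1 1)
  have s2 : 0 ≤ M - m 2 := sub_nonneg.2 (hm1 2)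
  have a0 : 0 ≤ 2 * M - m 0 := by linarith
  have a1 : 0 ≤ 2 * M - m 1 := by linarith
  have a2 : 0 ≤ 2 * M - m 2 := by linarith
  have l0 := T (c := 6 * M ^ 2 * m 0) (by positivity) (hz 0)
  have l1 := T (c := 6 * M ^ 2 * m 1) (by positivity) (hz 1)
  have l2 := T (c := 6 * M ^ 2 * m 2) (by positivity) (hz 2)
  have q00 := T (c := 3 * M * (m 0 * (M - m 0))) (by positivity) (P 0 0)
  have q11 := T (c := 3 * M * (m 1 * (M - m 1))) (by positivity) (P 1 1)
  have q22 := T (c := 3 * M * (m 2 * (M - m 2))) (by positivity) (P 2 2)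
  have q01 := T (c := 6 * M * (m 0 * m 1)) (by positivity) (P 0 1)
  have q02 := T (c := 6 * M * (m 0 * m 2)) (by positivity) (P 0 2)
  have q12 := T (c := 6 * M * (m 1 * m 2)) (by positivity) (P 2 1)
  have c0 := T (c := m 0 * (M - m 0) * (2 * M - m 0)) (by positivity) (Q 0 0 0)
  have c1 := T (c := m 1 * (M - m 1) * (2 * M - m 1)) (by positivity) (Q 1 1 1)
  have c2 := T (c := m 2 * (M - m 2) * (2 * M - m 2)) (by positivity) (Q 2 2 2)
  have c01 := T (c := 3 * (m 0 * m 1 * (M - m 1))) (by positivity) (Q 0 1 1)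
  have c02 := T (c := 3 * (m 0 * m 2 * (M - m 2))) (by positivity) (Q 0 2 2)
  have c10 := T (c := 3 * (m 1 * m 0 * (M - m 0))) (by positivity) (Q 1 0 0)
  have c12 := T (c := 3 * (m 1 * m 2 * (M - m 2))) (by positivity) (Q 1 2 2)
  have c20 := T (c := 3 * (m 2 * m 0 * (M - m 0))) (by positivity) (Q 2 0 0)
  have c21 := T (c := 3 * (m 2 * m 1 * (M - m 1))) (by positivity) (Q 2 1 1)
  have c3 := T (c := 6 * (m 0 * m 1 * m 2)) (by positivity) (Q 0 1 2)
  have tot : 6 * M ^ 3 * δ + 6 * M ^ 3 * (3 * δ) + 11 * M ^ 3 * (7 * δ) ≤ 120 * M ^ 3 * δ := by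
    linarith only [mul_nonneg (pow_nonneg hM 3) hd]
  have el : 6 * M ^ 2 * m 0 + 6 * M ^ 2 * m 1 + 6 * M ^ 2 * m 2 = 6 * M ^ 3 := by rw [← hs]; ring
  have eq2 : 3 * M * (m 0 * (M - m 0)) + 3 * M * (m 1 * (M - m 1)) + 3 * M * (m 2 * (M - m 2))
      + 6 * M * (m 0 * m 1) + 6 * M * (m 0 * m 2) + 6 * M * (m 1 * m 2) ≤ 6 * M ^ 3 := by
    have e : 6 * M ^ 3 - (3 * M * (m 0 * (M - m 0)) + 3 * M * (m 1 * (M - m 1))
      + 3 * M * (m 2 * (M - m 2)) + 6 * M * (m 0 * m 1) + 6 * M * (m 0 * m 2)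
      + 6 * M * (m 1 * m 2)) = 6 * M * (m 0 * m 0 + m 1 * m 1 + m 2 * m 2) := by rw [← hs]; ring
    have : 0 ≤ 6 * M * (m 0 * m 0 + m 1 * m 1 + m 2 * m 2) := by positivity
    linarith
  have cube : ∀ i, m i * (M - m i) * (2 * M - m i) ≤ 2 * M ^ 2 * m i := fun i => by
    linarith only [mul_nonneg (mul_nonneg (hm i) (hm i))
      (show 0 ≤ 3 * M - m i by linarith only [hm1 i, hM])]
  have mix : ∀ i j, 3 * (m i * m j * (M - m j)) ≤ 3 * M * (m i * m j) := fun i j => by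
    linarith only [mul_nonneg (mul_nonneg (hm i) (hm j)) (hm j)]
  have eq3 : m 0 * (M - m 0) * (2 * M - m 0) + m 1 * (M - m 1) * (2 * M - m 1)
      + m 2 * (M - m 2) * (2 * M - m 2) + 3 * (m 0 * m 1 * (M - m 1))
      + 3 * (m 0 * m 2 * (M - m 2)) + 3 * (m 1 * m 0 * (M - m 0)) + 3 * (m 1 * m 2 * (M - m 2))
      + 3 * (m 2 * m 0 * (M - m 0)) + 3 * (m 2 * m 1 * (M - m 1)) + 6 * (m 0 * m 1 * m 2)
      ≤ 11 * M ^ 3 := by
    have h3 : m 0 * m 1 * m 2 ≤ M * M * M :=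
      mul_le_mul (mul_le_mul (hm1 0) (hm1 1) n1 hM) (hm1 2) n2 (by positivity)
    have h2 : m 0 * m 1 + m 0 * m 2 + m 1 * m 0 + m 1 * m 2 + m 2 * m 0 + m 2 * m 1 ≤ M * M := by
      rw [← hs]; linarith only [sq_nonneg (m 0), sq_nonneg (m 1), sq_nonneg (m 2)]
    have h2' := mul_le_mul_of_nonneg_left h2 (by positivity : (0 : ℝ) ≤ 3 * M)
    have h1 : 2 * M ^ 2 * m 0 + 2 * M ^ 2 * m 1 + 2 * M ^ 2 * m 2 = 2 * M ^ 3 := by rw [← hs]; ring
    linarith only [mix 0 1, mix 0 2, mix 1 0, mix 1 2, mix 2 0, mix 2 1, cube 0, cube 1, cube 2,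
      h1, h2', h3]
  have b1 := mul_le_mul_of_nonneg_right el.le hd
  have b2 := mul_le_mul_of_nonneg_right eq2 (by positivity : (0 : ℝ) ≤ 3 * δ)
  have b3 := mul_le_mul_of_nonneg_right eq3 (by positivity : (0 : ℝ) ≤ 7 * δ)
  have U := (add_le_add l0.2 (add_le_add l1.2 (add_le_add l2.2 (add_le_add q01.2 (add_le_add q02.2
    (add_le_add q12.2 (add_le_add c0.2 (add_le_add c1.2 (add_le_add c2.2 c3.2)))))))))
  have L := (add_le_add l0.1 (add_le_add l1.1 (add_le_add l2.1 (add_le_add q01.1 (add_le_add q02.1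
    (add_le_add q12.1 (add_le_add c0.1 (add_le_add c1.1 (add_le_add c2.1 c3.1)))))))))
  have U' := (add_le_add q00.1 (add_le_add q11.1 (add_le_add q22.1 (add_le_add c01.1 (add_le_add
    c02.1 (add_le_add c10.1 (add_le_add c12.1 (add_le_add c20.1 c21.1))))))))
  have L' := (add_le_add q00.2 (add_le_add q11.2 (add_le_add q22.2 (add_le_add c01.2 (add_le_add
    c02.2 (add_le_add c10.2 (add_le_add c12.2 (add_le_add c20.2 c21.2))))))))
  simp only [tp]
  rw [abs_le]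
  constructor
  · linarith only [L, L', b1, b2, b3, tot]
  · linarith only [U, U', b1, b2, b3, tot]

variable {s t : ℝ}

theorem RepB.conv {X c c' B B' : ℕ} {f : ℝ} (h : RepB X c B s t f) (hc : c = c') (hB : B ≤ B') :
    RepB X c' B' s t f := hc ▸ h.mono hB

theorem keyOne_rep {X : Ctx} {C : Cfg} (hX : CtxOK X C) : RepB X.K.c.p 0 64 s t 1 := by
  have h := RepB.of_key (s := s) (t := t) hX.K.c (by decide +kernel)
  simpa [P10.ev] using h

/-- The relative deviations of a family at a point. -/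
noncomputable def epsAt (F : Fam) (s t : ℝ) (i : Fin 3) : ℝ :=
  ((F.A.fn i : ℝ) * s + (F.B.fn i : ℝ) * t) / F.V.fn i

theorem taylor_rep {X : Ctx} {C : Cfg} (hX : CtxOK X C) {G : SideD} {e : Side} {u : Fin 3 → ℝ}
    (hG : SideOK G e u s t) (hs : |s| ≤ 1) (ht : |t| ≤ 1) {n : N3}
    (hn : n.n0 + n.n1 + n.n2 = X.N) :
    ∃ T f, (∀ {α : Type} (k : ℕ → α), taylorN X.oneH (coefOf X.N n) G.G k = k T) ∧
      RepB T ((coefOf X.N n).tot * 2 ^ 160) ((coefOf X.N n).tot * 2 ^ 162) s t f ∧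
      |f / 2 ^ 144 - 6 * (X.N : ℝ) ^ 3 * cubT3 (expo3 n) (epsAt G.F.toFam s t)|
        ≤ 240 * (X.N : ℝ) ^ 3 / 2 ^ 48 := by
  obtain ⟨de, df, dg, hM, hcl⟩ := hG.mons
  set c := coefOf X.N n with hc
  have h0 := ((keyOne_rep (s := s) (t := t) hX).mul (2 ^ 144)).mul c.one
  simp only [Nat.mul_eq, ← hX.oneH] at h0
  have hsum := ((h0.add ((hM.l0.mul c.l0).add ((hM.l1.mul c.l1).add (hM.l2.mul c.l2)))).add
    (((hM.q00.mul c.q00).add ((hM.q11.mul c.q11).add (hM.q22.mul c.q22))).add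
      ((hM.q01.mul c.q01).add ((hM.q02.mul c.q02).add (hM.q12.mul c.q12))))).add
    ((((hM.c000.mul c.c000).add ((hM.c111.mul c.c111).add (hM.c222.mul c.c222))).add
      ((hM.c011.mul c.c011).add ((hM.c022.mul c.c022).add (hM.c100.mul c.c100)))).add
      (((hM.c122.mul c.c122).add ((hM.c200.mul c.c200).add (hM.c211.mul c.c211))).add
        (hM.c012.mul c.c012)))
  refine ⟨_, _, fun k => by simp only [taylorN, fN_eq]; rfl, hsum.conv ?_ ?_, ?_⟩
  · simp only [hc, coefOf]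
    ring
  · have := coef_one_le_tot hn
    simp only [hc, coefOf] at this ⊢
    norm_num
    omega
  · set x := fun i => devAt de s t i / (2 : ℝ) ^ 48 with hx
    set y := fun i => devAt df s t i / (2 : ℝ) ^ 96 with hy
    set z := fun i => devAt dg s t i / (2 : ℝ) ^ 144 with hz
    have hN : (0 : ℝ) < X.N := by
      have := hX.cfg.2.2
      rw [← hX.N] at this
      exact_mod_cast Nat.pos_of_ne_zero this
    set m : Fin 3 → ℝ := fun i => (n.fn i : ℝ) with hm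
    have he : ∀ i, |epsAt G.F.toFam s t i| ≤ 1 := fun i => by
      obtain ⟨-, hV, hE⟩ := famOk_spec hG.ok
      rw [epsAt, abs_div, abs_of_pos (hV i), div_le_one (hV i)]
      exact (abs_dev_le hs ht _ _).trans (hE i)
    have hexp : expo3 n = fun i => m i / (X.N : ℝ) := funext fun i => expo3_apply hn i
    have err := tp_err (M := (X.N : ℝ)) (m := m) (x := x) (y := y) (z := z)
      (e := epsAt G.F.toFam s t) (δ := 2 / (2 : ℝ) ^ 48) (fun i => Nat.cast_nonneg _)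
      (by simp only [hm, N3.fn]; exact_mod_cast hn) (by positivity) (by norm_num) he
      (fun i => hcl i (_, de) (by simp)) (fun i => hcl i (_, df) (by simp))
      (fun i => hcl i (_, dg) (by simp))
    rw [tp_self hN.ne', ← hexp] at err
    refine le_trans (le_of_eq ?_) (err.trans (le_of_eq (by ring)))
    congr 2
    have l0 : n.n0 ≤ X.N := by omega
    have l1 : n.n1 ≤ X.N := by omega
    have l2 : n.n2 ≤ X.N := by omega
    simp only [hc, coefOf, cCube, cMix, Nat.mul_eq, Nat.sub_eq, tp, hx, hy, hz, hm, N3.fn,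
      Matrix.cons_val_zero, Matrix.cons_val_one, Matrix.head_cons, Matrix.cons_val_two,
      Matrix.tail_cons]
    push_cast [Nat.cast_sub l0, Nat.cast_sub l1, Nat.cast_sub l2,
      Nat.cast_sub (show n.n0 ≤ 2 * X.N by omega), Nat.cast_sub (show n.n1 ≤ 2 * X.N by omega),
      Nat.cast_sub (show n.n2 ≤ 2 * X.N by omega)]
    field_simp
    ring

end Vale.Agent.P154.Anti.Box
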