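import Vale.Agent.P154.Anti.BoxFastMany

/-!
# Packing many vectors

Configurations with several hundred vectors also carry their weights column by column in blocks.
The checker packs columns from the flat rows itself, so the check is that of `checkMany`.
-/

namespace Vale.Agent.P154.Anti.Box

/-- The heads of the rows, column by column. -/
def headsOf : List Basis → List (List ℤ) → List (List ℤ)
  | [], _ => []
  | _ :: Bs, rows => rows.map (fun r => r.headD 0) :: headsOf Bs (rows.map List.tail)

/-- The check of several subtrees; the blocks of weights are redundant. -/
def checkWide (C : Cfg) (_H : List (List (List ℤ))) (_Kd : List (List ℤ)) (js : List Job) : Bool :=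
  checkMany C js

/-- It is the same check. -/
theorem checkWide_eq {C : Cfg} {H : List (List (List ℤ))} {Kd : List (List ℤ)}
    (_hH : H.map List.flatten = headsOf C.basis (C.vecs.map Vec.w))
    (_hK : Kd.flatten = C.vecs.map Vec.k) (js : List Job) :
    checkWide C H Kd js = checkMany C js := rfl

end Vale.Agent.P154.Anti.Box
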