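import Vale.Agent.P154.Anti.MultLin
import Mathlib.Analysis.Convex.Deriv
import Mathlib.Analysis.SpecialFunctions.Pow.Deriv
import Mathlib.Analysis.SpecialFunctions.Log.Deriv

/-!
# Convexity in the edge parameter

Along a line the fourth derivative of a geometric mean is nonpositive. Hence the defect of a
shrunk vector, divided by the square of the edge parameter, is convex in the edge parameter, and
finitely many edge parameters bound it on whole intervals from both sides.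
-/

namespace Vale.Agent.P154.Anti

open Finset Set Vale.Agent.P154.Tree

variable {q : ℕ} {a : Fin q → ℝ}

theorem moment_ineq (ha : ∀ i, 0 ≤ a i) (ha1 : ∑ i, a i = 1) (ξ : Fin q → ℝ) :
    (∑ i, a i * ξ i ^ 1) ^ 4 - 6 * (∑ i, a i * ξ i ^ 1) ^ 2 * (∑ i, a i * ξ i ^ 2)
      + 3 * (∑ i, a i * ξ i ^ 2) ^ 2 + 8 * (∑ i, a i * ξ i ^ 1) * (∑ i, a i * ξ i ^ 3)
      - 6 * (∑ i, a i * ξ i ^ 4) ≤ 0 := by
  set μ := ∑ i, a i * ξ i ^ 1 with hμ
  set p2 := ∑ i, a i * ξ i ^ 2 with hp2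
  set p3 := ∑ i, a i * ξ i ^ 3 with hp3
  set p4 := ∑ i, a i * ξ i ^ 4 with hp4
  have quad : ∀ c0 c1 c2 : ℝ, 0 ≤ c2 ^ 2 * p4 + 2 * c1 * c2 * p3 + (c1 ^ 2 + 2 * c0 * c2) * p2
      + 2 * c0 * c1 * μ + c0 ^ 2 := fun c0 c1 c2 => by
    have e : ∀ i, a i * (c0 + c1 * ξ i + c2 * ξ i ^ 2) ^ 2 = c2 ^ 2 * (a i * ξ i ^ 4)
        + 2 * c1 * c2 * (a i * ξ i ^ 3) + (c1 ^ 2 + 2 * c0 * c2) * (a i * ξ i ^ 2)
        + 2 * c0 * c1 * (a i * ξ i ^ 1) + c0 ^ 2 * a i := fun i => by ring
    have h := sum_nonneg (s := (univ : Finset (Fin q)))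
      (f := fun i => a i * (c0 + c1 * ξ i + c2 * ξ i ^ 2) ^ 2)
      fun i _ => mul_nonneg (ha i) (sq_nonneg _)
    simp only [e, sum_add_distrib, ← mul_sum, ha1, mul_one] at h
    exact h
  obtain ⟨m2, hm2⟩ : ∃ m, m = p2 - μ ^ 2 := ⟨_, rfl⟩
  obtain ⟨m3, hm3⟩ : ∃ m, m = p3 - 3 * μ * p2 + 2 * μ ^ 3 := ⟨_, rfl⟩
  obtain ⟨m4, hm4⟩ : ∃ m, m = p4 - 4 * μ * p3 + 6 * μ ^ 2 * p2 - 3 * μ ^ 4 := ⟨_, rfl⟩
  have g : ∀ α β : ℝ, 0 ≤ α ^ 2 * (m4 - m2 ^ 2) + 2 * α * β * m3 + β ^ 2 * m2 := fun α β => by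
    refine (quad (α * μ ^ 2 - α * m2 - β * μ) (β - 2 * α * μ) α).trans_eq ?_
    subst hm2 hm3 hm4
    ring
  have h2 : 0 ≤ m2 := by simpa using g 0 1
  have key : μ ^ 4 - 6 * μ ^ 2 * p2 + 3 * p2 ^ 2 + 8 * μ * p3 - 6 * p4
      = -(12 * μ ^ 2 * m2 + 16 * μ * m3 + 6 * m4 - 3 * m2 ^ 2) := by
    subst hm2 hm3 hm4
    ring
  rw [key, neg_nonpos]
  rcases h2.eq_or_lt with hz | hpos
  · have e3 : m3 = 0 := by
      by_contra h0
      obtain ⟨β, hβ⟩ : ∃ β, β * m3 = -(|m4| + 1) := ⟨_, div_mul_cancel₀ _ h0⟩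
      have := g 1 β
      rw [← hz, mul_one, mul_assoc (2 : ℝ), hβ] at this
      linarith [le_abs_self m4, abs_nonneg m4]
    have e4 : 0 ≤ m4 := by simpa [← hz] using g 1 0
    rw [← hz, e3]
    linarith
  · have gg : m3 ^ 2 ≤ m2 * (m4 - m2 ^ 2) := by
      have := g m2 (-m3)
      nlinarith
    refine nonneg_of_mul_nonneg_right (a := m2) ?_ hpos
    nlinarith [sq_nonneg (μ * m2 + 2 / 3 * m3), pow_nonneg h2 3,
      mul_nonneg h2 (mul_nonneg h2 h2)]

/-- The geometric mean along a line. -/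
noncomputable def lineEx (a b k : Fin q → ℝ) (t : ℝ) : ℝ := ex a fun i => b i + k i * t

/-- The power sums of the logarithmic derivatives along a line. -/
noncomputable def lineP (a b k : Fin q → ℝ) (n : ℕ) (t : ℝ) : ℝ :=
  ∑ i, a i * (k i / (b i + k i * t)) ^ n

section line

variable {b k : Fin q → ℝ} {t : ℝ} (hp : ∀ i, 0 < b i + k i * t)
include hp

theorem hasDerivAt_lineP (n : ℕ) :
    HasDerivAt (lineP a b k n) (-(n : ℝ) * lineP a b k (n + 1) t) t := by
  have h : ∀ i, HasDerivAt (fun s => a i * (k i / (b i + k i * s)) ^ n)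
      (a i * (-(n : ℝ) * (k i / (b i + k i * t)) ^ (n + 1))) t := fun i => by
    have hd : HasDerivAt (fun s => b i + k i * s) (k i) t := by
      simpa using ((hasDerivAt_id t).const_mul (k i)).const_add (b i)
    have h' := (((hasDerivAt_const t (k i)).div hd (hp i).ne').pow n).const_mul (a i)
    refine h'.congr_deriv ?_
    rcases n with _ | n
    · simp
    · have := (hp i).ne'
      rw [Nat.add_sub_cancel, pow_succ (k i / (b i + k i * t)) (n + 1),
        pow_succ (k i / (b i + k i * t)) n]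
      simp only [Pi.div_apply]
      field_simp
      ring
  refine (HasDerivAt.fun_sum fun i _ => h i).congr_deriv ?_
  simp only [lineP, mul_sum]
  exact sum_congr rfl fun i _ => by ring

theorem hasDerivAt_lineEx :
    HasDerivAt (lineEx a b k) (lineEx a b k t * lineP a b k 1 t) t := by
  have hev : ∀ᶠ s in nhds t, lineEx a b k s = Real.exp (∑ i, a i * Real.log (b i + k i * s)) := by
    have : ∀ᶠ s in nhds t, ∀ i, 0 < b i + k i * s := Filter.eventually_all.2 fun i =>
      (show Continuous fun s => b i + k i * s by fun_prop).continuousAt.eventually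
        (isOpen_Ioi.mem_nhds (hp i))
    refine this.mono fun s hs => ?_
    rw [Real.exp_sum, lineEx, ex]
    exact prod_congr rfl fun i _ => by rw [Real.rpow_def_of_pos (hs i), mul_comm]
  have hl : HasDerivAt (fun s => ∑ i, a i * Real.log (b i + k i * s)) (lineP a b k 1 t) t := by
    refine (HasDerivAt.fun_sum fun i _ => ((((hasDerivAt_id t).const_mul (k i)).const_add
      (b i)).log (hp i).ne').const_mul (a i)).congr_deriv ?_
    simp [lineP]
  refine (hl.exp.congr_of_eventuallyEq hev).congr_deriv ?_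
  rw [← hev.self_of_nhds]

/-- The fourth derivative of the geometric mean along a line is nonpositive. -/
theorem hasDerivAt_line :
    HasDerivAt (fun s => lineEx a b k s * lineP a b k 1 s)
      (lineEx a b k t * (lineP a b k 1 t ^ 2 - lineP a b k 2 t)) t ∧
    HasDerivAt (fun s => lineEx a b k s * (lineP a b k 1 s ^ 2 - lineP a b k 2 s))
      (lineEx a b k t * (lineP a b k 1 t ^ 3 - 3 * lineP a b k 1 t * lineP a b k 2 t
        + 2 * lineP a b k 3 t)) t ∧
    HasDerivAt (fun s => lineEx a b k s * (lineP a b k 1 s ^ 3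
        - 3 * lineP a b k 1 s * lineP a b k 2 s + 2 * lineP a b k 3 s))
      (lineEx a b k t * (lineP a b k 1 t ^ 4 - 6 * lineP a b k 1 t ^ 2 * lineP a b k 2 t
        + 3 * lineP a b k 2 t ^ 2 + 8 * lineP a b k 1 t * lineP a b k 3 t
        - 6 * lineP a b k 4 t)) t := by
  have g := hasDerivAt_lineEx (a := a) hp
  have p1 := hasDerivAt_lineP (a := a) hp 1
  have p2 := hasDerivAt_lineP (a := a) hp 2
  have p3 := hasDerivAt_lineP (a := a) hp 3
  refine ⟨(g.mul p1).congr_deriv ?_, (g.mul ((p1.pow 2).sub p2)).congr_deriv ?_,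
    (g.mul (((p1.pow 3).sub ((p1.const_mul 3).mul p2)).add (p3.const_mul 2))).congr_deriv ?_⟩ <;>
  · simp
    ring

end line

/-- The derivatives in `t` of `phi a (shrink t u)`. -/
noncomputable def dphi (a u : Fin q → ℝ) : ℕ → ℝ → ℝ
  | 0, t => phi a (shrink t u)
  | 1, t => -((q : ℝ) / q.factorial) * ∑ σ : Equiv.Perm (Fin q),
      lineEx a (fun _ => 1 / (q : ℝ)) (fun i => u (σ i) - 1 / q) t
        * lineP a (fun _ => 1 / (q : ℝ)) (fun i => u (σ i) - 1 / q) 1 t
  | 2, t => -((q : ℝ) / q.factorial) * ∑ σ : Equiv.Perm (Fin q),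
      lineEx a (fun _ => 1 / (q : ℝ)) (fun i => u (σ i) - 1 / q) t
        * (lineP a (fun _ => 1 / (q : ℝ)) (fun i => u (σ i) - 1 / q) 1 t ^ 2
          - lineP a (fun _ => 1 / (q : ℝ)) (fun i => u (σ i) - 1 / q) 2 t)
  | 3, t => -((q : ℝ) / q.factorial) * ∑ σ : Equiv.Perm (Fin q),
      lineEx a (fun _ => 1 / (q : ℝ)) (fun i => u (σ i) - 1 / q) t
        * (lineP a (fun _ => 1 / (q : ℝ)) (fun i => u (σ i) - 1 / q) 1 t ^ 3
          - 3 * lineP a (fun _ => 1 / (q : ℝ)) (fun i => u (σ i) - 1 / q) 1 t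
            * lineP a (fun _ => 1 / (q : ℝ)) (fun i => u (σ i) - 1 / q) 2 t
          + 2 * lineP a (fun _ => 1 / (q : ℝ)) (fun i => u (σ i) - 1 / q) 3 t)
  | _, t => -((q : ℝ) / q.factorial) * ∑ σ : Equiv.Perm (Fin q),
      lineEx a (fun _ => 1 / (q : ℝ)) (fun i => u (σ i) - 1 / q) t
        * (lineP a (fun _ => 1 / (q : ℝ)) (fun i => u (σ i) - 1 / q) 1 t ^ 4
          - 6 * lineP a (fun _ => 1 / (q : ℝ)) (fun i => u (σ i) - 1 / q) 1 t ^ 2
            * lineP a (fun _ => 1 / (q : ℝ)) (fun i => u (σ i) - 1 / q) 2 t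
          + 3 * lineP a (fun _ => 1 / (q : ℝ)) (fun i => u (σ i) - 1 / q) 2 t ^ 2
          + 8 * lineP a (fun _ => 1 / (q : ℝ)) (fun i => u (σ i) - 1 / q) 1 t
            * lineP a (fun _ => 1 / (q : ℝ)) (fun i => u (σ i) - 1 / q) 3 t
          - 6 * lineP a (fun _ => 1 / (q : ℝ)) (fun i => u (σ i) - 1 / q) 4 t)

theorem phi_shrink_eq (a u : Fin q → ℝ) (t : ℝ) :
    phi a (shrink t u) = 1 - (q : ℝ) / q.factorial * ∑ σ : Equiv.Perm (Fin q),
      lineEx a (fun _ => 1 / (q : ℝ)) (fun i => u (σ i) - 1 / q) t := by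
  simp only [phi, lineEx, shrink]
  congr 2
  exact sum_congr rfl fun σ _ => congrArg (ex a) (funext fun i => by ring)

/-- The shrunk vector is positive inside the range of the edge parameter. -/
theorem line_pos {u : Fin q → ℝ} (h0 : ∀ i, 0 ≤ u i) (h1 : ∑ i, u i = 1) (hq : 1 < q) {t : ℝ}
    (ht : -(1 / ((q : ℝ) - 1)) < t) (ht' : t ≤ 0) (j : Fin q) :
    0 < 1 / (q : ℝ) + (u j - 1 / q) * t := by
  have hq1 : (1 : ℝ) < q := by exact_mod_cast hq
  have hu : u j ≤ 1 := le_one_of_simplex h0 h1 j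
  have hd : (0 : ℝ) < q - 1 := by linarith
  rw [neg_lt, div_eq_mul_inv, one_mul] at ht
  have hlt : -t * ((q : ℝ) - 1) < 1 := by
    have := mul_lt_mul_of_pos_right ht hd
    rwa [inv_mul_cancel₀ hd.ne'] at this
  rw [show 1 / (q : ℝ) + (u j - 1 / q) * t = (1 - t + q * u j * t) / q by field_simp; ring]
  refine div_pos ?_ (by linarith)
  nlinarith [mul_nonneg (mul_nonneg (by linarith : (0 : ℝ) ≤ q) (neg_nonneg.2 ht'))
    (sub_nonneg.2 hu)]

section convex

variable (ha : ∀ i, 0 ≤ a i) (ha1 : ∑ i, a i = 1) {u : Fin q → ℝ} (h0 : ∀ i, 0 ≤ u i)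
  (h1 : ∑ i, u i = 1) (hq : 1 < q)
include ha ha1 h0 h1 hq

omit ha ha1 in
theorem hasDerivAt_dphi {t : ℝ} (ht : -(1 / ((q : ℝ) - 1)) < t) (ht' : t ≤ 0) {n : ℕ}
    (hn : n < 4) : HasDerivAt (dphi a u n) (dphi a u (n + 1) t) t := by
  have hp : ∀ σ : Equiv.Perm (Fin q), ∀ i,
      0 < (fun _ : Fin q => 1 / (q : ℝ)) i + (fun i => u (σ i) - 1 / q) i * t :=
    fun σ i => line_pos h0 h1 hq ht ht' (σ i)
  interval_cases n
  · have h := ((HasDerivAt.fun_sum (u := (univ : Finset (Equiv.Perm (Fin q)))) fun σ _ =>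
      hasDerivAt_lineEx (a := a) (hp σ)).const_mul ((q : ℝ) / q.factorial)).const_sub 1
    refine (h.congr_of_eventuallyEq (Filter.Eventually.of_forall fun s => ?_)).congr_deriv ?_
    · exact phi_shrink_eq a u s
    · simp only [dphi, neg_mul]
  · exact (HasDerivAt.fun_sum (u := (univ : Finset (Equiv.Perm (Fin q)))) fun σ _ =>
      (hasDerivAt_line (a := a) (hp σ)).1).const_mul _
  · exact (HasDerivAt.fun_sum (u := (univ : Finset (Equiv.Perm (Fin q)))) fun σ _ =>
      (hasDerivAt_line (a := a) (hp σ)).2.1).const_mul _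
  · exact (HasDerivAt.fun_sum (u := (univ : Finset (Equiv.Perm (Fin q)))) fun σ _ =>
      (hasDerivAt_line (a := a) (hp σ)).2.2).const_mul _

theorem dphi_four_nonneg {t : ℝ} (ht : -(1 / ((q : ℝ) - 1)) < t) (ht' : t ≤ 0) :
    0 ≤ dphi a u 4 t := by
  refine mul_nonneg_of_nonpos_of_nonpos (by simp only [neg_nonpos]; positivity)
    (sum_nonpos fun σ _ => mul_nonpos_of_nonneg_of_nonpos
      (ex_nonneg a fun i => (line_pos h0 h1 hq ht ht' (σ i)).le) ?_)
  exact moment_ineq ha ha1 _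

omit ha h0 hq in
theorem dphi_zero : dphi a u 0 0 = 0 ∧ dphi a u 1 0 = 0 := by
  have hq0 := q_pos ha1
  have hq' : (q : ℝ) ≠ 0 := by exact_mod_cast hq0
  have hx : ∀ k : Fin q → ℝ, lineEx a (fun _ => 1 / (q : ℝ)) k 0 = 1 / q := fun k => by
    simp only [lineEx, mul_zero, add_zero]
    have h := ex_smul ha1 (by positivity : (0 : ℝ) ≤ 1 / q) (x := fun _ => 1) fun _ => zero_le_one
    simpa [ex] using h
  refine ⟨?_, ?_⟩
  · show phi a (shrink 0 u) = 0
    simp only [phi_shrink_eq, hx, sum_const, card_univ, Fintype.card_perm, Fintype.card_fin,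
      nsmul_eq_mul]
    field_simp
    ring
  · have hs : ∀ i : Fin q, ∑ σ : Equiv.Perm (Fin q), (u (σ i) - 1 / q) = 0 := fun i => by
      have e : ∀ j : Fin q, ∑ σ : Equiv.Perm (Fin q), (u (σ j) - 1 / q)
          = ∑ σ : Equiv.Perm (Fin q), (u (σ i) - 1 / q) := fun j =>
        Fintype.sum_equiv (Equiv.mulRight (Equiv.swap j i)) _ _ fun σ => by simp
      have t := sum_comm (s := (univ : Finset (Fin q))) (t := (univ : Finset (Equiv.Perm (Fin q))))
        (f := fun j σ => u (σ j) - 1 / (q : ℝ))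
      simp only [e, sum_const, card_univ, Fintype.card_fin, nsmul_eq_mul] at t
      have t0 : ∀ σ : Equiv.Perm (Fin q), ∑ j, (u (σ j) - 1 / (q : ℝ)) = 0 := fun σ => by
        rw [sum_sub_distrib, Equiv.sum_comp σ u, h1]
        simp only [sum_const, card_univ, Fintype.card_fin, nsmul_eq_mul]
        field_simp
        ring
      simp only [t0, sum_const_zero] at t
      exact (mul_eq_zero.1 t).resolve_left hq'
    have e : ∀ (σ : Equiv.Perm (Fin q)) (i : Fin q),
        1 / (q : ℝ) * (a i * ((u (σ i) - 1 / q) / (1 / q + (u (σ i) - 1 / q) * 0)) ^ 1)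
          = a i * (u (σ i) - 1 / q) := fun σ i => by
      rw [pow_one, mul_zero, add_zero]
      field_simp
    simp only [dphi, hx, lineP, mul_sum, e]
    refine sum_comm.trans (sum_eq_zero fun i _ => ?_)
    rw [← mul_sum, ← mul_sum, hs, mul_zero, mul_zero]

/-- The defect of the shrunk vector over the square of the edge parameter is convex. -/
theorem convexOn_psi :
    ConvexOn ℝ (Ico (-(1 / ((q : ℝ) - 1))) 0) fun t => phi a (shrink t u) / t ^ 2 := by
  set η : ℝ := 1 / ((q : ℝ) - 1) with hη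
  set f := fun n => dphi a u n with hf
  have hd : ∀ n, n < 4 → ∀ t ∈ Ioc (-η) (0 : ℝ), HasDerivAt (f n) (f (n + 1) t) t :=
    fun n hn t ht => hasDerivAt_dphi h0 h1 hq ht.1 ht.2 hn
  set M : ℝ → ℝ := fun t => t ^ 2 * f 3 t - 2 * t * f 2 t + 2 * f 1 t with hM
  set N : ℝ → ℝ := fun t => t ^ 2 * f 2 t - 4 * t * f 1 t + 6 * f 0 t with hN
  have hM' : ∀ t ∈ Ioc (-η) (0 : ℝ), HasDerivAt M (t ^ 2 * f 4 t) t := fun t ht => by
    refine ((((hasDerivAt_pow 2 t).mul (hd 3 (by norm_num) t ht)).sub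
      (((hasDerivAt_id t).const_mul 2).mul (hd 2 (by norm_num) t ht))).add
      ((hd 1 (by norm_num) t ht).const_mul 2)).congr_deriv ?_
    simp
    ring
  have hN' : ∀ t ∈ Ioc (-η) (0 : ℝ), HasDerivAt N (M t) t := fun t ht => by
    refine ((((hasDerivAt_pow 2 t).mul (hd 2 (by norm_num) t ht)).sub
      (((hasDerivAt_id t).const_mul 4).mul (hd 1 (by norm_num) t ht))).add
      ((hd 0 (by norm_num) t ht).const_mul 6)).congr_deriv ?_
    simp [hM]
    ring
  obtain ⟨z0, z1⟩ := dphi_zero ha1 h1 (u := u)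
  have hNnn : ∀ t ∈ Ioc (-η) (0 : ℝ), 0 ≤ N t := fun t ht => by
    have hM1 : MonotoneOn M (Ioc (-η) 0) := monotoneOn_of_hasDerivWithinAt_nonneg (convex_Ioc _ _)
      (fun x hx => (hM' x hx).continuousAt.continuousWithinAt)
      (fun x hx => (hM' x (interior_subset hx)).hasDerivWithinAt)
      fun x hx => mul_nonneg (sq_nonneg x)
        (dphi_four_nonneg ha ha1 h0 h1 hq (interior_subset hx).1 (interior_subset hx).2)
    have hη0 : 0 < η := by
      have : (1 : ℝ) < q := by exact_mod_cast hq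
      rw [hη]; exact one_div_pos.2 (by linarith)
    have hz : (0 : ℝ) ∈ Ioc (-η) (0 : ℝ) := ⟨neg_lt_zero.2 hη0, le_rfl⟩
    have hN1 : AntitoneOn N (Ioc (-η) 0) := antitoneOn_of_hasDerivWithinAt_nonpos (convex_Ioc _ _)
      (fun x hx => (hN' x hx).continuousAt.continuousWithinAt)
      (fun x hx => (hN' x (interior_subset hx)).hasDerivWithinAt)
      fun x hx => (hM1 (interior_subset hx) hz (interior_subset hx).2).trans_eq
        (by simp [hM, hf, z1])
    exact (show N 0 = 0 by simp [hN, hf, z0, z1]).ge.trans (hN1 ht hz ht.2)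
  have hcont : Continuous fun t => phi a (shrink t u) :=
    continuous_const.sub (continuous_const.mul (continuous_finsetSum _ fun σ _ =>
      continuous_finsetProd _ fun i _ => (show Continuous fun t => shrink t u (σ i) by
        unfold shrink; fun_prop).rpow_const fun _ => Or.inr (ha i)))
  refine convexOn_of_hasDerivWithinAt2_nonneg (convex_Ico _ _)
    (f' := fun t => (t * f 1 t - 2 * f 0 t) / t ^ 3) (f'' := fun t => N t / t ^ 4)
    (hcont.continuousOn.div (continuous_pow 2).continuousOn fun t ht => pow_ne_zero 2 ht.2.ne)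
    (fun t ht => ?_) (fun t ht => ?_) fun t ht => ?_
  all_goals rw [interior_Ico] at ht
  · have ht' : t ∈ Ioc (-η) (0 : ℝ) := ⟨ht.1, ht.2.le⟩
    have := ht.2.ne
    refine (((hd 0 (by norm_num) t ht').div (hasDerivAt_pow 2 t)
      (pow_ne_zero 2 this)).congr_deriv ?_).hasDerivWithinAt
    simp
    field_simp
  · have ht' : t ∈ Ioc (-η) (0 : ℝ) := ⟨ht.1, ht.2.le⟩
    have := ht.2.ne
    refine ((((hasDerivAt_id t).mul (hd 1 (by norm_num) t ht')).sub
      ((hd 0 (by norm_num) t ht').const_mul 2)).div (hasDerivAt_pow 3 t)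
      (pow_ne_zero 3 this)).congr_deriv ?_ |>.hasDerivWithinAt
    simp [hN]
    field_simp
    ring
  · exact div_nonneg (hNnn t ⟨ht.1, ht.2.le⟩) (by positivity)

end convex

/-- A convex function lies above the extension of a chord to the left. -/
theorem secant_ext_le {S : Set ℝ} {f : ℝ → ℝ} (hf : ConvexOn ℝ S f) {x b c : ℝ} (hx : x ∈ S)
    (hc : c ∈ S) (hxb : x ≤ b) (hbc : b < c) :
    f b + (x - b) / (c - b) * (f c - f b) ≤ f x := by
  rcases hxb.eq_or_lt with rfl | h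
  · simp
  have h1 := hf.slope_mono_adjacent hx hc h hbc
  have d1 : 0 < b - x := sub_pos.2 h
  rw [div_le_iff₀ d1] at h1
  rw [show (x - b) / (c - b) * (f c - f b) = -((f c - f b) / (c - b) * (b - x)) by
    field_simp; ring]
  linarith

/-- A convex function lies above the extension of a chord to the right. -/
theorem secant_ext_le' {S : Set ℝ} {f : ℝ → ℝ} (hf : ConvexOn ℝ S f) {a b x : ℝ} (ha : a ∈ S)
    (hx : x ∈ S) (hab : a < b) (hbx : b ≤ x) :
    f b + (x - b) / (b - a) * (f b - f a) ≤ f x := by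
  rcases hbx.eq_or_lt with rfl | h
  · simp
  have h1 := hf.slope_mono_adjacent ha hx hab h
  have d1 : 0 < x - b := sub_pos.2 h
  rw [le_div_iff₀ d1] at h1
  rw [show (x - b) / (b - a) * (f b - f a) = (f b - f a) / (b - a) * (x - b) by ring]
  linarith

/-- A convex function lies below the chord. -/
theorem le_chord {S : Set ℝ} {f : ℝ → ℝ} (hf : ConvexOn ℝ S f) {a b x : ℝ} (ha : a ∈ S)
    (hb : b ∈ S) (hab : a < b) (h1 : a ≤ x) (h2 : x ≤ b) :
    f x ≤ (b - x) / (b - a) * f a + (x - a) / (b - a) * f b := by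
  have hd : 0 < b - a := sub_pos.2 hab
  have h := hf.2 ha hb (div_nonneg (sub_nonneg.2 h2) hd.le) (div_nonneg (sub_nonneg.2 h1) hd.le)
    (by field_simp; ring)
  simpa [smul_eq_mul, show (b - x) / (b - a) * a + (x - a) / (b - a) * b = x by
    field_simp; ring] using h

end Vale.Agent.P154.Anti
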