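import Vale.Agent.P154.Anti.MultExclude
import Vale.Agent.P154.Anti.LamConvex

/-!
# From node inequalities to a window of edge parameters

`t ↦ phi a (shrink t u) / t ^ 2` is convex, so on a window it lies below its chord and, outside
a pair of nodes, above the line through them. Both bounds are affine in the parameter, hence two
inequalities at the ends of the window give the pointwise inequality throughout it.
-/

namespace Vale.Agent.P154.Anti

open Finset Set Vale.Agent.P154.Tree

variable {n q : ℕ}

/-- `phi a (shrink t u) / t ^ 2`. -/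
noncomputable def psiN (a : Fin q → ℝ) (t : ℝ) (u : Fin q → ℝ) : ℝ := phi a (shrink t u) / t ^ 2

/-- The affine bound at `e` of `be * psiN a e u`: the chord of the window for negative `be`, the
line through the nodes `p`, `r` otherwise. -/
noncomputable def nodeBound (a : Fin q → ℝ) (be e p r : ℝ) (u : Fin q → ℝ) : ℝ :=
  if 0 ≤ be then be * (psiN a p u + (e - p) / (r - p) * (psiN a r u - psiN a p u))
  else be * psiN a e u

/-- The inequality to be checked at an end `e` of the window. -/
def NodePW (q : ℕ) (A : Fin n → Fin q → ℝ) (c be : Fin n → ℝ) (k e p r : ℝ) : Prop :=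
  ∀ u : Fin q → ℝ, (∀ i, 0 ≤ u i) → ∑ i, u i = 1 →
    0 ≤ (∑ j, (c j * phi (A j) u + nodeBound (A j) (be j) e p r u)) + k

/-- Two inequalities at the ends of a window give the inequality on the critical curve inside
it. -/
theorem pw_of_window (hq : 1 < q) {A : Fin n → Fin q → ℝ} (hA : ∀ j i, 0 ≤ A j i)
    (hA1 : ∀ j, ∑ i, A j i = 1) {c be : Fin n → ℝ} {k a b p r lam d : ℝ}
    (ha : -(1 / ((q : ℝ) - 1)) ≤ a) (hab : a < b) (hb : b < 0) (hpr : p < r)
    (hout : b ≤ p ∧ r < 0 ∨ r ≤ a ∧ -(1 / ((q : ℝ) - 1)) ≤ p)
    (Ha : NodePW q A c be k a p r) (Hb : NodePW q A c be k b p r)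
    (h1 : a ≤ lam) (h2 : lam ≤ b) (hd : d * lam ^ 2 = 1) :
    PW q lam A c (fun j => be j * d) k := by
  intro u u0 u1
  set S := Ico (-(1 / ((q : ℝ) - 1))) (0 : ℝ)
  have hl : lam < 0 := h2.trans_lt hb
  have hd' : d = 1 / lam ^ 2 := by rw [eq_div_iff (pow_ne_zero 2 hl.ne)]; exact hd
  set w := (b - lam) / (b - a) with hw
  set w' := (lam - a) / (b - a) with hw'
  have hba : 0 < b - a := sub_pos.2 hab
  have w0 : 0 ≤ w := div_nonneg (sub_nonneg.2 h2) hba.le
  have w0' : 0 ≤ w' := div_nonneg (sub_nonneg.2 h1) hba.le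
  have ww : w + w' = 1 := by rw [hw, hw']; field_simp; ring
  have wl : w * a + w' * b = lam := by rw [hw, hw']; field_simp; ring
  have key : ∀ j, w * nodeBound (A j) (be j) a p r u + w' * nodeBound (A j) (be j) b p r u
      ≤ be j * d * phi (A j) (shrink lam u) := fun j => by
    have hc := convexOn_psi (hA j) (hA1 j) u0 u1 hq
    have e : be j * d * phi (A j) (shrink lam u) = be j * psiN (A j) lam u := by
      rw [hd', psiN]; ring
    rw [e]
    have hlS : lam ∈ S := ⟨ha.trans h1, hl⟩
    simp only [nodeBound]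
    split_ifs with hbe
    · have low : psiN (A j) p u + (lam - p) / (r - p) * (psiN (A j) r u - psiN (A j) p u)
          ≤ psiN (A j) lam u := by
        rcases hout with ⟨hp, hr⟩ | ⟨hr, hp⟩
        · exact secant_ext_le hc hlS ⟨ha.trans (h1.trans (h2.trans (hp.trans hpr.le))), hr⟩ (h2.trans hp) hpr
        · have h := secant_ext_le' hc (a := p) (b := r) (x := lam)
            ⟨hp, (hpr.trans_le (hr.trans (h1.trans h2))).trans hb⟩ hlS hpr (hr.trans h1)
          refine le_trans (le_of_eq ?_) h
          simp only [psiN]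
          field_simp [(sub_pos.2 hpr).ne']
          ring
      refine le_trans (le_of_eq ?_) (mul_le_mul_of_nonneg_left low hbe)
      linear_combination
        be j * psiN (A j) p u * ww
        + be j * (psiN (A j) r u - psiN (A j) p u) / (r - p) * (wl - p * ww)
    · have h := le_chord hc (a := a) (b := b) (x := lam) ⟨ha, hab.trans hb⟩
        ⟨ha.trans hab.le, hb⟩ hab h1 h2
      have h' : psiN (A j) lam u ≤ w * psiN (A j) a u + w' * psiN (A j) b u := h
      have := mul_le_mul_of_nonpos_left h' (le_of_lt (lt_of_not_ge hbe))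
      linarith
  have hsum : w * ((∑ j, (c j * phi (A j) u + nodeBound (A j) (be j) a p r u)) + k)
      + w' * ((∑ j, (c j * phi (A j) u + nodeBound (A j) (be j) b p r u)) + k)
      = (∑ j, (c j * phi (A j) u
        + (w * nodeBound (A j) (be j) a p r u + w' * nodeBound (A j) (be j) b p r u))) + k := by
    simp only [sum_add_distrib, ← mul_sum]
    linear_combination (∑ j, c j * phi (A j) u + k) * ww
  have h := add_nonneg (mul_nonneg w0 (Ha u u0 u1)) (mul_nonneg w0' (Hb u u0 u1))
  rw [hsum] at h
  refine h.trans (add_le_add (sum_le_sum fun j _ => ?_) le_rfl)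
  exact add_le_add le_rfl (key j)

end Vale.Agent.P154.Anti
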