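import Vale.Agent.P154.Mono

/-!
# Thinning of the Poisson tree

Keeping each child independently with probability `p` turns the Poisson tree of mean `d` into
the Poisson tree of mean `p * d`. Hence the reconstruction advantage is monotone in the mean.
-/

namespace Vale.Agent.P154.Tree

open Finset Filter Topology

variable {q : ℕ} {ι κ : Type}

/-- The binomial probabilities. -/
def thinB (p : ℝ) : ℕ → ℕ → ℝ
  | 0, 0 => 1
  | 0, _ + 1 => 0
  | m + 1, 0 => (1 - p) * thinB p m 0
  | m + 1, k + 1 => (1 - p) * thinB p m (k + 1) + p * thinB p m k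

/-- Each of the `m` arguments is kept with probability `p` and then passed through `K`. -/
def thinK (p : ℝ) (K : κ → ι → ℝ) :
    (m : ℕ) → (Fin m → κ) → (k : ℕ) → (Fin k → ι) → ℝ
  | 0, _, 0, _ => 1
  | 0, _, _ + 1, _ => 0
  | m + 1, g, 0, f => (1 - p) * thinK p K m (Fin.tail g) 0 f
  | m + 1, g, k + 1, f => (1 - p) * thinK p K m (Fin.tail g) (k + 1) f
      + p * (K (g 0) (f 0) * thinK p K m (Fin.tail g) k (Fin.tail f))

variable {p : ℝ}

theorem thinB_nonneg (h0 : 0 ≤ p) (h1 : p ≤ 1) : ∀ m k, 0 ≤ thinB p m k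
  | 0, 0 => zero_le_one
  | 0, _ + 1 => le_rfl
  | m + 1, 0 => mul_nonneg (sub_nonneg.2 h1) (thinB_nonneg h0 h1 m 0)
  | m + 1, k + 1 => add_nonneg (mul_nonneg (sub_nonneg.2 h1) (thinB_nonneg h0 h1 m (k + 1)))
      (mul_nonneg h0 (thinB_nonneg h0 h1 m k))

theorem thinK_nonneg (h0 : 0 ≤ p) (h1 : p ≤ 1) {K : κ → ι → ℝ} (hK : ∀ a o, 0 ≤ K a o) :
    ∀ m g k f, 0 ≤ thinK p K m g k f
  | 0, _, 0, _ => zero_le_one
  | 0, _, _ + 1, _ => le_rfl
  | m + 1, _, 0, f => mul_nonneg (sub_nonneg.2 h1) (thinK_nonneg h0 h1 hK m _ 0 f)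
  | m + 1, _, k + 1, f =>
    add_nonneg (mul_nonneg (sub_nonneg.2 h1) (thinK_nonneg h0 h1 hK m _ (k + 1) f))
      (mul_nonneg h0 (mul_nonneg (hK _ _) (thinK_nonneg h0 h1 hK m _ k _)))

theorem hasSum_head_tail {k : ℕ} {a : ι → ℝ} {b : (Fin k → ι) → ℝ} {s t : ℝ}
    (ha : HasSum a s) (hb : HasSum b t) (ha0 : ∀ o, 0 ≤ a o) (hb0 : ∀ f, 0 ≤ b f) :
    HasSum (fun f : Fin (k + 1) → ι => a (f 0) * b (Fin.tail f)) (s * t) := by
  have hs : Summable fun x : ι × (Fin k → ι) => a x.1 * b x.2 :=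
    ha.summable.mul_of_nonneg hb.summable ha0 hb0
  exact (Fin.consEquiv fun _ : Fin (k + 1) => ι).symm.hasSum_iff.2 (ha.mul hb hs)

theorem hasSum_thinB (p : ℝ) : ∀ m, HasSum (thinB p m) 1
  | 0 => by
    refine (hasSum_single 0 fun k hk => ?_)
    obtain ⟨j, rfl⟩ := Nat.exists_eq_succ_of_ne_zero hk
    rfl
  | m + 1 => by
    have h := hasSum_thinB p m
    have hs : HasSum (fun k => thinB p m (k + 1)) (1 - thinB p m 0) :=
      (hasSum_nat_add_iff 1).2 (by simpa using h)
    refine (hasSum_nat_add_iff' 1).1 ?_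
    have hv : (1 : ℝ) - (1 - p) * thinB p m 0 = (1 - p) * (1 - thinB p m 0) + p * 1 := by ring
    rw [sum_range_one, thinB, hv]
    exact (hs.mul_left (1 - p)).add (h.mul_left p)

/-- The fibre sums of the kernel. -/
theorem hasSum_thinK (h0 : 0 ≤ p) (h1 : p ≤ 1) {K : κ → ι → ℝ} (hK : ∀ a o, 0 ≤ K a o)
    (hK1 : ∀ a, HasSum (K a) 1) :
    ∀ m g k, HasSum (thinK p K m g k) (thinB p m k)
  | 0, _, 0 => hasSum_unique (fun _ : Fin 0 → ι => (1 : ℝ))
  | 0, _, _ + 1 => hasSum_zero
  | m + 1, g, 0 => (hasSum_thinK h0 h1 hK hK1 m (Fin.tail g) 0).mul_left (1 - p)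
  | m + 1, g, k + 1 => by
    have h := (hasSum_head_tail (hK1 (g 0)) (hasSum_thinK h0 h1 hK hK1 m (Fin.tail g) k)
      (hK _) (thinK_nonneg h0 h1 hK m _ k))
    rw [one_mul] at h
    exact ((hasSum_thinK h0 h1 hK hK1 m (Fin.tail g) (k + 1)).mul_left (1 - p)).add
      (h.mul_left p)

/-- The column sums of the kernel against a product channel. -/
theorem hasSum_thinK_col (h0 : 0 ≤ p) (h1 : p ≤ 1) {K : κ → ι → ℝ}
    (hK : ∀ a o, 0 ≤ K a o) {X : ι → Fin q → ℝ} {Y : κ → Fin q → ℝ} (hY : IsChan Y)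
    (hKY : ∀ o i, HasSum (fun a => K a o * Y a i) (X o i)) (i : Fin q) :
    ∀ (m k : ℕ) (f : Fin k → ι),
      HasSum (fun g => thinK p K m g k f * piChan m Y g i) (thinB p m k * piChan k X f i)
  | 0, 0, f => by
    simp [thinK, thinB, piChan]
  | 0, k + 1, f => by
    simp only [thinK, thinB, zero_mul]
    exact hasSum_zero
  | m + 1, 0, f => by
    have h := (hasSum_head_tail (hY.hasSum i) (hasSum_thinK_col h0 h1 hK hY hKY i m 0 f)
      (fun a => hY.nonneg a i) fun g =>
        mul_nonneg (thinK_nonneg h0 h1 hK m g 0 f) ((isChan_piChan hY m).nonneg g i)).mul_left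
      (1 - p)
    have hv : thinB p (m + 1) 0 * piChan 0 X f i
        = (1 - p) * (1 * (thinB p m 0 * piChan 0 X f i)) := by
      simp only [thinB]
      ring
    rw [hv]
    refine h.congr_fun fun g => ?_
    simp only [thinK, piChan, Fin.prod_univ_succ, Fin.tail]
    ring
  | m + 1, k + 1, f => by
    have hA := (hasSum_head_tail (hY.hasSum i) (hasSum_thinK_col h0 h1 hK hY hKY i m (k + 1) f)
      (fun a => hY.nonneg a i) fun g => mul_nonneg (thinK_nonneg h0 h1 hK m g (k + 1) f)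
        ((isChan_piChan hY m).nonneg g i)).mul_left (1 - p)
    have hB := (hasSum_head_tail (hKY (f 0) i)
      (hasSum_thinK_col h0 h1 hK hY hKY i m k (Fin.tail f))
      (fun a => mul_nonneg (hK a _) (hY.nonneg a i)) fun g =>
        mul_nonneg (thinK_nonneg h0 h1 hK m g k _) ((isChan_piChan hY m).nonneg g i)).mul_left p
    have hv : thinB p (m + 1) (k + 1) * piChan (k + 1) X f i
        = (1 - p) * (1 * (thinB p m (k + 1) * piChan (k + 1) X f i))
          + p * (X (f 0) i * (thinB p m k * piChan k X (Fin.tail f) i)) := by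
      simp only [thinB, piChan, Fin.prod_univ_succ, Fin.tail]
      ring
    rw [hv]
    refine (hA.add hB).congr_fun fun g => ?_
    simp only [thinK, piChan, Fin.prod_univ_succ, Fin.tail]
    ring

theorem thinB_eq (p : ℝ) :
    ∀ m k, thinB p m k = (m.choose k : ℝ) * p ^ k * (1 - p) ^ (m - k)
  | 0, 0 => by simp [thinB]
  | 0, k + 1 => by simp [thinB]
  | m + 1, 0 => by
    simp [thinB, thinB_eq p m 0, pow_succ, mul_comm]
  | m + 1, k + 1 => by
    rw [thinB, thinB_eq p m (k + 1), thinB_eq p m k, Nat.choose_succ_succ', Nat.cast_add,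
      Nat.add_sub_add_right]
    rcases le_or_gt (k + 1) m with h | h
    · rw [show m - k = m - (k + 1) + 1 by omega, pow_succ (1 - p), pow_succ p]
      ring
    · rw [Nat.choose_eq_zero_of_lt h]
      ring

/-- Thinning of the Poisson law. -/
theorem hasSum_poisson_thin (d2 p : ℝ) (k : ℕ) :
    HasSum (fun m => poissonLaw d2 m * thinB p m k) (poissonLaw (p * d2) k) := by
  have hser : HasSum (fun j : ℕ => (d2 * (1 - p)) ^ j / j.factorial)
      (Real.exp (d2 * (1 - p))) := by
    rw [Real.exp_eq_exp_ℝ]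
    exact NormedSpace.expSeries_div_hasSum_exp _
  have hz : ∑ m ∈ range k, poissonLaw d2 m * thinB p m k = 0 :=
    sum_eq_zero fun m hm => by
      rw [thinB_eq, Nat.choose_eq_zero_of_lt (mem_range.1 hm)]
      simp
  rw [← hasSum_nat_add_iff' k, hz, sub_zero]
  have hv : poissonLaw (p * d2) k
      = Real.exp (-d2) * (d2 * p) ^ k / k.factorial * Real.exp (d2 * (1 - p)) := by
    unfold poissonLaw
    rw [show -(p * d2) = -d2 + d2 * (1 - p) by ring, Real.exp_add, mul_comm d2 p]
    ring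
  rw [hv]
  refine (hser.mul_left (Real.exp (-d2) * (d2 * p) ^ k / k.factorial)).congr_fun fun j => ?_
  have hc : ((j + k).choose k : ℝ) * j.factorial * k.factorial = (j + k).factorial := by
    have := Nat.choose_mul_factorial_mul_factorial (n := j + k) (k := k) (by omega)
    rw [Nat.add_sub_cancel] at this
    rw [← this]
    push_cast
    ring
  rw [thinB_eq, Nat.add_sub_cancel, poissonLaw, ← hc, mul_pow, mul_pow, pow_add]
  have : (0 : ℝ) < ((j + k).choose k : ℝ) := by
    exact_mod_cast Nat.choose_pos (by omega)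
  field_simp

variable {lam d d2 : ℝ}

/-- The tree of mean `p * d2` is a degradation of the tree of mean `d2`. -/
theorem deg_thin (hl : Adm q lam) (hq : q ≠ 0) (hd2 : 0 ≤ d2) (h0 : 0 ≤ p) (h1 : p ≤ 1) :
    ∀ n, Deg (lik q (poissonLaw (p * d2)) lam n) (lik q (poissonLaw d2) lam n)
  | 0 => by
    obtain ⟨K, k0, k1, k2⟩ :=
      Deg.refl (ι := Fin q) (fun (o : Fin q) (i : Fin q) => if o = i then (1 : ℝ) else 0)
    exact ⟨K, k0, k1, k2⟩
  | n + 1 => by
    have hw := isLaw_poissonLaw (mul_nonneg h0 hd2)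
    have hw2 := isLaw_poissonLaw hd2
    have hE := Deg.edge (c := 1) (deg_thin hl hq hd2 h0 h1 n) hq
      (isChan_lik hw hl n) (isChan_lik hw2 hl n) hl zero_le_one le_rfl
    rw [one_mul] at hE
    obtain ⟨K, k0, k1, k2⟩ := hE
    have hF := (isChan_lik (q := q) hw2 hl n).edge' hl
    refine ⟨fun a o => thinK p K a.1 a.2 o.1 o.2,
      fun a o => thinK_nonneg h0 h1 k0 _ _ _ _, fun a => ?_, fun o i => ?_⟩
    · obtain ⟨m, g⟩ := a
      refine HasSum.sigma_of_hasSum (hasSum_thinB p m)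
        (fun k => hasSum_thinK h0 h1 k0 k1 m g k) ?_
      refine (summable_sigma_of_nonneg fun x => thinK_nonneg h0 h1 k0 _ _ _ _).2
        ⟨fun k => (hasSum_thinK h0 h1 k0 k1 m g k).summable, ?_⟩
      exact (hasSum_thinB p m).summable.congr fun k =>
        ((hasSum_thinK h0 h1 k0 k1 m g k).tsum_eq).symm
    · obtain ⟨k, f⟩ := o
      set E := Tree.edge lam (lik q (poissonLaw (p * d2)) lam n) with hEdef
      set F := Tree.edge lam (lik q (poissonLaw d2) lam n) with hFdef
      have hm : ∀ m, HasSum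
          (fun g => thinK p K m g k f * (poissonLaw d2 m * piChan m F g i))
          (poissonLaw d2 m * thinB p m k * piChan k E f i) := fun m => by
        rw [mul_assoc]
        exact ((hasSum_thinK_col h0 h1 k0 hF k2 i m k f).mul_left _).congr_fun fun g => by ring
      have hsum := (hasSum_poisson_thin d2 p k).mul_right (piChan k E f i)
      have hnn : ∀ x : Σ m, (Fin m → Obs q n),
          0 ≤ thinK p K x.1 x.2 k f * (poissonLaw d2 x.1 * piChan x.1 F x.2 i) := fun x =>
        mul_nonneg (thinK_nonneg h0 h1 k0 _ _ _ _)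
          (mul_nonneg (hw2.nonneg _) ((isChan_piChan hF _).nonneg _ i))
      refine HasSum.sigma_of_hasSum hsum hm ?_
      refine (summable_sigma_of_nonneg hnn).2 ⟨fun m => (hm m).summable, ?_⟩
      exact hsum.summable.congr fun m => ((hm m).tsum_eq).symm

/-- The advantage on the Poisson tree is monotone in the mean. -/
theorem adv_poisson_le (hl : Adm q lam) (h0 : 0 ≤ d) (h2 : d ≤ d2) (n : ℕ) :
    adv q (poissonLaw d) lam n ≤ adv q (poissonLaw d2) lam n := by
  rcases eq_or_ne q 0 with hq | hq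
  · subst hq; simp [adv]
  · have hd2 : 0 ≤ d2 := h0.trans h2
    obtain ⟨p, hp0, hp1, rfl⟩ : ∃ p, 0 ≤ p ∧ p ≤ 1 ∧ d = p * d2 := by
      rcases eq_or_lt_of_le hd2 with hz | hz
      · exact ⟨1, zero_le_one, le_rfl, by linarith⟩
      · exact ⟨d / d2, div_nonneg h0 hd2, (div_le_one hz).2 h2, (div_mul_cancel₀ d hz.ne').symm⟩
    simp only [adv, tsum_mul_left]
    exact mul_le_mul_of_nonneg_left
      ((deg_thin hl hq hd2 hp0 hp1 n).l1_le (isChan_lik (isLaw_poissonLaw hd2) hl n))
      (by positivity)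

/-- Nonreconstruction on the Poisson tree passes to smaller means. -/
theorem tendsto_adv_poisson_of_le (hl : Adm q lam) (h0 : 0 ≤ d) (h2 : d ≤ d2)
    (h : Tendsto (adv q (poissonLaw d2) lam) atTop (𝓝 0)) :
    Tendsto (adv q (poissonLaw d) lam) atTop (𝓝 0) :=
  squeeze_zero (fun n => adv_nonneg q _ lam n) (fun n => adv_poisson_le hl h0 h2 n) h

end Vale.Agent.P154.Tree
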