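import Vale.Agent.P154.Anti.ScalarTree
import Vale.Agent.P154.Anti.NodeWindow
import Vale.Agent.P154.Anti.Phi3
import Vale.Agent.P154.Anti.Thin
import Vale.Agent.P154.Mono

/-!
# Three states: nonreconstruction on a window of edge parameters

The defect of an exponent with two positive entries controls the chi-square information. A
scalar tree, node inequalities at the ends of the window and the exclusion of small limits then
give nonreconstruction under the Kesten-Stigum bound at the degrees of that window.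
-/

namespace Vale.Agent.P154.Anti

open Finset Filter Topology Vale.Agent.P154.Tree

/-- The weighted mean exceeds the geometric one by a multiple of a squared difference. -/
theorem amgm_gap {a b c x y z m : ℝ} (hm : 0 ≤ m) (hma : m ≤ a) (hmb : m ≤ b) (hc : 0 ≤ c)
    (hs : a + b + c = 1) (hx : x ∈ Set.Icc (0 : ℝ) 1) (hy : y ∈ Set.Icc (0 : ℝ) 1) (hz : 0 ≤ z) :
    x ^ a * y ^ b * z ^ c ≤ a * x + b * y + c * z - m / 4 * (x - y) ^ 2 := by
  obtain ⟨hx, hx1⟩ := hx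
  obtain ⟨hy, hy1⟩ := hy
  have g := Real.geom_mean_le_arith_mean4_weighted (sub_nonneg.2 hma) (sub_nonneg.2 hmb) hc
    (by linarith : 0 ≤ 2 * m) hx hy hz (mul_nonneg (Real.sqrt_nonneg x) (Real.sqrt_nonneg y))
    (by linarith)
  have hp : (Real.sqrt x * Real.sqrt y) ^ (2 * m) = x ^ m * y ^ m := by
    rw [← Real.sqrt_mul hx, Real.sqrt_eq_rpow, ← Real.rpow_mul (mul_nonneg hx hy),
      Real.mul_rpow hx hy]
    congr 1 <;> ring_nf
  have hxa : x ^ (a - m) * x ^ m = x ^ a := by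
    rw [← Real.rpow_add_of_nonneg hx (sub_nonneg.2 hma) hm]; ring_nf
  have hyb : y ^ (b - m) * y ^ m = y ^ b := by
    rw [← Real.rpow_add_of_nonneg hy (sub_nonneg.2 hmb) hm]; ring_nf
  rw [hp, show x ^ (a - m) * y ^ (b - m) * z ^ c * (x ^ m * y ^ m)
      = (x ^ (a - m) * x ^ m) * (y ^ (b - m) * y ^ m) * z ^ c by ring, hxa, hyb] at g
  refine g.trans ?_
  have sx := Real.mul_self_sqrt hx
  have sy := Real.mul_self_sqrt hy
  have h4 : (x - y) ^ 2 ≤ 4 * (Real.sqrt x - Real.sqrt y) ^ 2 := by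
    have e : (x - y) ^ 2 = (Real.sqrt x + Real.sqrt y) ^ 2 * (Real.sqrt x - Real.sqrt y) ^ 2 := by
      rw [← mul_pow, show (Real.sqrt x + Real.sqrt y) * (Real.sqrt x - Real.sqrt y)
        = Real.sqrt x * Real.sqrt x - Real.sqrt y * Real.sqrt y by ring, sx, sy]
    rw [e]
    refine mul_le_mul_of_nonneg_right ?_ (sq_nonneg _)
    calc (Real.sqrt x + Real.sqrt y) ^ 2 ≤ (1 + 1) ^ 2 := by
          gcongr <;> rw [Real.sqrt_le_one] <;> assumption
      _ = 4 := by norm_num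
  rw [show (Real.sqrt x - Real.sqrt y) ^ 2 = x + y - 2 * (Real.sqrt x * Real.sqrt y) by
    rw [sub_sq, Real.sq_sqrt hx, Real.sq_sqrt hy]; ring] at h4
  have := mul_le_mul_of_nonneg_left h4 hm
  linarith

/-- The defect of an exponent with two positive entries dominates the squared deviation. -/
theorem phi3_ge_sqDev {a u : Fin 3 → ℝ} (ha : ∀ i, 0 ≤ a i) (ha1 : ∑ i, a i = 1) {m : ℝ}
    (hm : 0 ≤ m) (h0 : m ≤ a 0) (h1 : m ≤ a 1) (u0 : ∀ i, 0 ≤ u i) (u1 : ∑ i, u i = 1) :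
    3 * m / 4 * sqDev u ≤ phi a u := by
  have hs : a 0 + a 1 + a 2 = 1 := by simpa [Fin.sum_univ_three] using ha1
  have hI : ∀ i, u i ∈ Set.Icc (0 : ℝ) 1 := fun i => ⟨u0 i, le_one_of_simplex u0 u1 i⟩
  have g := fun i j k => amgm_gap hm h0 h1 (ha 2) hs (hI i) (hI j) (u0 k)
  have g1 := g 0 1 2
  have g2 := g 0 2 1
  have g3 := g 1 0 2
  have g4 := g 1 2 0
  have g5 := g 2 0 1
  have g6 := g 2 1 0
  have hu : u 0 + u 1 + u 2 = 1 := by simpa [Fin.sum_univ_three] using u1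
  rw [phi3_eq]
  simp only [ex, Fin.prod_univ_three, sqDev, Fin.sum_univ_three, Matrix.cons_val_zero,
    Matrix.cons_val_one, Matrix.cons_val]
  have e : (u 0 - 1 / 3) ^ 2 + (u 1 - 1 / 3) ^ 2 + (u 2 - 1 / 3) ^ 2
      = ((u 0 - u 1) ^ 2 + (u 0 - u 2) ^ 2 + (u 1 - u 2) ^ 2) / 3 := by
    linear_combination ((u 0 + u 1 + u 2) / 3 - 1 / 3) * hu
  have el : (a 0 + a 1 + a 2) * (u 0 + u 1 + u 2) = 1 := by rw [hs, hu, one_mul]
  push_cast
  rw [e]
  linarith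

/-- Edge parameters allowed for three states. -/
theorem adm_three {lam : ℝ} (h0 : -(1 / 2) ≤ lam) (h1 : lam ≤ 1) : Adm 3 lam := by
  intro i j
  unfold potts
  split_ifs <;> push_cast <;> linarith

/-- The hypothesis `hK` of the exclusion theorems, uniformly on a window. -/
theorem sqDev_le_phi_shrink {a : Fin 3 → ℝ} (ha : ∀ i, 0 ≤ a i) (ha1 : ∑ i, a i = 1) {m : ℝ}
    (hm : 0 < m) (h0 : m ≤ a 0) (h1 : m ≤ a 1) {lam b : ℝ} (hl : -(1 / 2) ≤ lam) (hlb : lam ≤ b)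
    (hb : b < 0) {u : Fin 3 → ℝ} (u0 : ∀ i, 0 ≤ u i) (u1 : ∑ i, u i = 1) :
    sqDev u ≤ 4 / (3 * m * b ^ 2) * phi a (shrink lam u) := by
  have v0 : ∀ i, 0 ≤ shrink lam u i := fun i => by
    have hi := mul_le_mul_of_nonpos_left (le_one_of_simplex u0 u1 i) (hlb.trans hb.le)
    simp only [shrink]
    push_cast
    linarith
  have v1 : ∑ i, shrink lam u i = 1 := by
    simp only [Fin.sum_univ_three] at u1 ⊢
    simp only [shrink]
    push_cast
    linear_combination lam * u1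
  have e : sqDev (shrink lam u) = lam ^ 2 * sqDev u := by
    simp only [sqDev, shrink, Fin.sum_univ_three]
    push_cast
    ring
  have h := phi3_ge_sqDev ha ha1 hm.le h0 h1 v0 v1
  rw [e] at h
  have hb2 : b ^ 2 ≤ lam ^ 2 := by nlinarith
  have hS : 0 ≤ sqDev u := sum_nonneg fun i _ => sq_nonneg _
  have hpos : 0 < 3 * m * b ^ 2 := by have := pow_pos (neg_pos.2 hb) 2; rw [neg_sq] at this; positivity
  rw [div_mul_eq_mul_div, le_div_iff₀ hpos]
  nlinarith [mul_le_mul_of_nonneg_left hb2 (mul_nonneg hm.le hS)]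

variable {n : ℕ}

/-- The exclusion of small limits at one edge parameter, for a generation function. -/
def SmallExcl (A : Fin n → Fin 3 → ℝ) (g : ℝ → ℝ) (r : Fin n) (x0 lam d : ℝ) : Prop :=
  ∀ L y : Fin n → ℝ, (∀ j, L j = g (y j)) → (∀ j, 0 ≤ y j) → (∀ j, y j ≤ 1) → d * y r ≤ x0 →
    (∀ c b : Fin n → ℝ, ∀ k : ℝ, PW 3 lam A c b k →
      0 ≤ (∑ j, (c j * L j + b j * y j)) + k) → y r = 0

/-- The node inequalities of a list of vectors at both ends of a window. -/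
def WindowPW (A : Fin n → Fin 3 → ℝ) (V : List (SVec n)) (a b : ℝ) : Prop :=
  ∀ v ∈ V, ∃ p r : ℝ, p < r ∧ (b ≤ p ∧ r < 0 ∨ r ≤ a ∧ -(1 / 2) ≤ p) ∧
    NodePW 3 A (fun j => (v.c j : ℝ)) (fun j => (v.b j : ℝ)) v.k a p r ∧
    NodePW 3 A (fun j => (v.c j : ℝ)) (fun j => (v.b j : ℝ)) v.k b p r

theorem WindowPW.pw {A : Fin n → Fin 3 → ℝ} (hA : ∀ j i, 0 ≤ A j i) (hA1 : ∀ j, ∑ i, A j i = 1)
    {V : List (SVec n)} {a b : ℝ} (ha : -(1 / 2) ≤ a) (hab : a < b) (hb : b < 0)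
    (hW : WindowPW A V a b) {lam d : ℝ} (h1 : a ≤ lam) (h2 : lam ≤ b) (hd : d * lam ^ 2 = 1) :
    ∀ v ∈ V, PW 3 lam A (fun j => (v.c j : ℝ)) (fun j => (v.b j : ℝ) * d) (v.k : ℝ) := by
  intro v hv
  obtain ⟨p, r, hpr, hout, Ha, Hb⟩ := hW v hv
  have e : -(1 / (((3 : ℕ) : ℝ) - 1)) = -(1 / 2 : ℝ) := by norm_num
  exact pw_of_window (by norm_num) hA hA1 (by rw [e]; exact ha) hab hb hpr
    (by rw [e]; exact hout) Ha Hb h1 h2 hd

/-- The negative parameter on the critical curve. -/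
theorem crit_mem {a b d : ℝ} (hab : a < b) (hb : b < 0) (h1 : 1 ≤ d * a ^ 2)
    (h2 : d * b ^ 2 ≤ 1) : d * (-(1 / Real.sqrt d)) ^ 2 = 1 ∧ a ≤ -(1 / Real.sqrt d) ∧
      -(1 / Real.sqrt d) ≤ b := by
  have hd : 0 < d := by
    by_contra hn
    nlinarith [mul_nonpos_of_nonpos_of_nonneg (not_lt.1 hn) (sq_nonneg a)]
  set t := 1 / Real.sqrt d with ht
  have hsq : d * t ^ 2 = 1 := by
    rw [ht, div_pow, one_pow, Real.sq_sqrt hd.le]
    field_simp
  have t0 : 0 ≤ t := by positivity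
  refine ⟨by rw [neg_sq]; exact hsq, ?_, ?_⟩
  · nlinarith [le_of_mul_le_mul_left (hsq.trans_le h1) hd]
  · nlinarith [le_of_mul_le_mul_left (h2.trans_eq hsq.symm) hd]

/-- Poisson offspring: nonreconstruction below the Kesten-Stigum bound at the mean degrees of the
window. -/
theorem tendsto_adv_poisson_of_window {A : Fin n → Fin 3 → ℝ} (hA : ∀ j i, 0 ≤ A j i)
    (hA1 : ∀ j, ∑ i, A j i = 1) {r : Fin n} {m : ℝ} (hm : 0 < m) (hm0 : m ≤ A r 0)
    (hm1 : m ≤ A r 1) {V : List (SVec n)} {a b : ℝ} (ha : -(1 / 2) ≤ a) (hab : a < b) (hb : b < 0)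
    (hW : WindowPW A V a b) {D x0 : ℚ} {Ks M : ℕ} (t : STree n)
    (hck : sCheck (genP D Ks M) V r x0 t (fun _ => 0) (fun _ => D) = true)
    (hsmall : ∀ d lam : ℝ, a ≤ lam → lam ≤ b → d * lam ^ 2 = 1 →
      SmallExcl A (fun y => 1 - Real.exp (-(d * y))) r x0 lam d)
    {d mu : ℝ} (hd1 : 1 ≤ d * a ^ 2) (hd2 : d * b ^ 2 ≤ 1) (hdD : d ≤ D) (hmu : mu ≤ 0)
    (hks : d * mu ^ 2 ≤ 1) : Tendsto (adv 3 (poissonLaw d) mu) atTop (𝓝 0) := by
  obtain ⟨hl, l1, l2⟩ := crit_mem hab hb hd1 hd2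
  set lam := -(1 / Real.sqrt d)
  have hd : 0 ≤ d := by
    by_contra hn
    nlinarith [mul_nonpos_of_nonpos_of_nonneg (le_of_lt (not_le.1 hn)) (sq_nonneg lam)]
  have hadm : Adm 3 lam := adm_three (ha.trans l1) (by linarith)
  have hlim := tendsto_adv_poisson_of_tree (q := 3) (by norm_num) hd hadm hA hA1 V
    (hW.pw hA hA1 ha hab hb l1 l2 hl)
    (fun u u0 u1 => sqDev_le_phi_shrink (hA r) (hA1 r) hm hm0 hm1 (ha.trans l1) l2 hb u0 u1)
    t hck hdD (hsmall d lam l1 l2 hl)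
  refine tendsto_adv_of_abs_le (isLaw_poissonLaw hd) hadm
    (mul_nonneg_of_nonpos_of_nonpos hmu (l2.trans hb.le)) ?_ hlim
  rw [← sq_le_sq]
  nlinarith

/-- The regular tree: nonreconstruction below the Kesten-Stigum bound. -/
theorem tendsto_adv_regular_of_window {A : Fin n → Fin 3 → ℝ} (hA : ∀ j i, 0 ≤ A j i)
    (hA1 : ∀ j, ∑ i, A j i = 1) {r : Fin n} {m : ℝ} (hm : 0 < m) (hm0 : m ≤ A r 0)
    (hm1 : m ≤ A r 1) {V : List (SVec n)} {a b : ℝ} (ha : -(1 / 2) ≤ a) (hab : a < b) (hb : b < 0)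
    (hW : WindowPW A V a b) {x0 : ℚ} {k : ℕ} (t : STree n)
    (hck : sCheck (genR k) V r x0 t (fun _ => 0) (fun _ => (k : ℚ)) = true)
    (hsmall : ∀ lam : ℝ, a ≤ lam → lam ≤ b → (k : ℝ) * lam ^ 2 = 1 →
      SmallExcl A (fun y => 1 - (1 - y) ^ k) r x0 lam k)
    {mu : ℝ} (hk1 : 1 ≤ (k : ℝ) * a ^ 2) (hk2 : (k : ℝ) * b ^ 2 ≤ 1) (hmu : mu ≤ 0)
    (hks : (k : ℝ) * mu ^ 2 ≤ 1) : Tendsto (adv 3 (regLaw k) mu) atTop (𝓝 0) := by
  obtain ⟨hl, l1, l2⟩ := crit_mem hab hb hk1 hk2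
  set lam := -(1 / Real.sqrt (k : ℝ))
  have hk : 1 ≤ k := by
    rcases Nat.eq_zero_or_pos k with h | h
    · subst h; simp at hl
    · exact h
  have hadm : Adm 3 lam := adm_three (ha.trans l1) (by linarith)
  have hlim := tendsto_adv_regular_of_tree (q := 3) (by norm_num) hk hadm hA hA1 V
    (hW.pw hA hA1 ha hab hb l1 l2 hl)
    (fun u u0 u1 => sqDev_le_phi_shrink (hA r) (hA1 r) hm hm0 hm1 (ha.trans l1) l2 hb u0 u1)
    t hck (hsmall lam l1 l2 hl)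
  refine tendsto_adv_of_abs_le (isLaw_regLaw k) hadm
    (mul_nonneg_of_nonpos_of_nonpos hmu (l2.trans hb.le)) ?_ hlim
  rw [← sq_le_sq]
  have : (0 : ℝ) < k := by exact_mod_cast hk
  nlinarith

end Vale.Agent.P154.Anti
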