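import Vale.Agent.P154.Anti.BoxCheck
import Vale.Agent.P154.Anti.Window

/-!
# Node inequalities from box certificates

The node inequality of a vector is a rational combination of the basis functions of a box
certificate. It holds as soon as a positive multiple of it dominates, coefficient by coefficient,
one of the checked vectors, since every basis function is nonnegative.
-/

namespace Vale.Agent.P154.Anti

open Finset Box Vale.Agent.P154.Tree

/-- A multiple of a defect at a rational edge parameter; the parameter `1` is the vector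
itself. -/
structure NTerm where
  n : N3
  e : ℚ
  c : ℚ

/-- The value of a term. -/
noncomputable def NTerm.val (t : NTerm) (u : Fin 3 → ℝ) : ℝ :=
  (t.c : ℝ) * phi (expo3 t.n) (shrink (t.e : ℝ) u)

/-- How a node inequality of a vector is read off a checked vector: the outer nodes, the indices
of the checked vectors at the two ends and the two multipliers. -/
structure WData where
  p : ℚ
  r : ℚ
  ia : ℕ
  ib : ℕ
  Ma : ℚ
  Mb : ℚ

variable {m : ℕ}

/-- The terms of one coordinate of a node inequality. -/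
def nodeTerms (E : Fin m → N3) (v : SVec m) (e p r : ℚ) (j : Fin m) : List NTerm :=
  ⟨E j, 1, v.c j⟩ :: if 0 ≤ v.b j then
    [⟨E j, p, v.b j * (1 - (e - p) / (r - p)) / p ^ 2⟩,
      ⟨E j, r, v.b j * ((e - p) / (r - p)) / r ^ 2⟩]
  else [⟨E j, e, v.b j / e ^ 2⟩]

/-- All terms of a node inequality. -/
def allTerms (E : Fin m → N3) (v : SVec m) (e p r : ℚ) : List NTerm :=
  (List.finRange m).flatMap (nodeTerms E v e p r)

/-- The basis function of a term. -/
def hits (B : Basis) (t : NTerm) : Bool :=
  decide (B.n = t.n ∧ ((B.e.ln : ℚ) / B.e.ld) = t.e)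

/-- The coefficient of a basis function. -/
def coefAt (B : Basis) (ts : List NTerm) : ℚ :=
  (ts.map fun t => if hits B t then t.c else 0).sum

/-- The coefficients dominate the weights. -/
def domOk (M : ℚ) (ts : List NTerm) : List ℤ → List Basis → Bool
  | _, [] => true
  | [], B :: Bs => decide (0 ≤ M * coefAt B ts) && domOk M ts [] Bs
  | w :: ws, B :: Bs => decide ((w : ℚ) ≤ M * coefAt B ts) && domOk M ts ws Bs

/-- The node inequality follows from the checked vector with the index `i`. -/
def nodeOk (C : Cfg) (i : ℕ) (M : ℚ) (ts : List NTerm) (k : ℚ) : Bool :=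
  match C.vecs[i]? with
  | none => false
  | some vec => decide (0 < M) && decide (vec.mu ≤ 0) && decide ((vec.k : ℚ) ≤ M * k)
      && domOk M ts vec.w C.basis
      && ts.all (fun t => decide ((C.basis.filter fun B => hits B t).length = 1))

/-- The check of a window. -/
def windowCheck (C : Cfg) (E : Fin m → N3) (a b : ℚ) : List (SVec m) → List WData → Bool
  | [], _ => true
  | _ :: _, [] => false
  | v :: vs, w :: ws =>
    decide (w.p < w.r) && decide (b ≤ w.p ∧ w.r < 0 ∨ w.r ≤ a ∧ -(1 / 2) ≤ w.p)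
      && nodeOk C w.ia w.Ma (allTerms E v a w.p w.r) v.k
      && nodeOk C w.ib w.Mb (allTerms E v b w.p w.r) v.k
      && windowCheck C E a b vs ws

/-- The basis functions lie on the simplex and have admissible parameters. -/
def basisOk (C : Cfg) : Bool :=
  decide (C.N ≠ 0) && C.basis.all fun B => decide (B.n.n0 + B.n.n1 + B.n.n2 = C.N)
    && decide (-(1 / 2) ≤ (B.e.ln : ℚ) / B.e.ld ∧ (B.e.ln : ℚ) / B.e.ld ≤ 1)

theorem phi_shrink_nonneg {n : N3} {N : ℕ} (hN : N ≠ 0) (hn : n.n0 + n.n1 + n.n2 = N) {e : ℝ}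
    (h0 : -(1 / 2) ≤ e) (h1 : e ≤ 1) {u : Fin 3 → ℝ} (u0 : ∀ i, 0 ≤ u i) (u1 : ∑ i, u i = 1) :
    0 ≤ phi (expo3 n) (shrink e u) := by
  obtain ⟨ha, ha1⟩ := expo3_simplex hN hn
  have h := phi3_ge_sqDev (a := expo3 n) (u := shrink e u) ha ha1 le_rfl (ha 0) (ha 1)
    (fun i => ?_) ?_
  · simpa using h
  · have hi := le_one_of_simplex u0 u1 i
    simp only [shrink]
    push_cast
    rcases le_total 0 e with he | he
    · nlinarith [mul_nonneg he (u0 i)]
    · nlinarith [mul_le_mul_of_nonpos_left hi he]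
  · simp only [Fin.sum_univ_three] at u1 ⊢
    simp only [shrink]
    push_cast
    linear_combination e * u1

theorem Basis.val_nonneg {C : Cfg} (h : basisOk C = true) {B : Basis} (hB : B ∈ C.basis)
    {u : Fin 3 → ℝ} (u0 : ∀ i, 0 ≤ u i) (u1 : ∑ i, u i = 1) : 0 ≤ B.val u := by
  simp only [basisOk, Bool.and_eq_true, decide_eq_true_eq, List.all_eq_true] at h
  obtain ⟨hn, hl, hr⟩ := h.2 B hB
  have hl' : ((-(1 / 2) : ℚ) : ℝ) ≤ (((B.e.ln : ℚ) / B.e.ld : ℚ) : ℝ) := by exact_mod_cast hl
  have hr' : (((B.e.ln : ℚ) / B.e.ld : ℚ) : ℝ) ≤ 1 := by exact_mod_cast hr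
  push_cast at hl' hr'
  exact phi_shrink_nonneg h.1 hn hl' hr' u0 u1

theorem hits_val {B : Basis} {t : NTerm} (h : hits B t = true) (u : Fin 3 → ℝ) :
    (t.c : ℝ) * B.val u = t.val u := by
  simp only [hits, decide_eq_true_eq] at h
  rw [NTerm.val, Box.Basis.val, Box.Basis.expo, h.1, ← h.2]
  push_cast
  rfl

/-- Collecting terms over a basis counts each with its number of hits. -/
theorem sum_coefAt (ts : List NTerm) (u : Fin 3 → ℝ) : ∀ Bs : List Basis,
    (Bs.map fun B => (coefAt B ts : ℝ) * B.val u).sum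
      = (ts.map fun t => ((Bs.filter fun B => hits B t).length : ℝ) * t.val u).sum
  | [] => by simp
  | B :: Bs => by
    have e : (coefAt B ts : ℝ) * B.val u
        = (ts.map fun t => (if hits B t then (1 : ℝ) else 0) * t.val u).sum := by
      rw [coefAt]
      push_cast [Rat.cast_list_sum]
      rw [List.map_map, ← List.sum_map_mul_right]
      refine congrArg List.sum (List.map_congr_left fun t _ => ?_)
      rcases hb : hits B t with _ | _
      · simp [hb]
      · simp [hb, hits_val hb u]
    rw [List.map_cons, List.sum_cons, e, sum_coefAt ts u Bs, ← List.sum_map_add]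
    refine congrArg List.sum (List.map_congr_left fun t _ => ?_)
    rcases hb : hits B t with _ | _
    · simp [hb]
    · simp [hb, add_mul, add_comm]

theorem domOk_sound {M : ℚ} {ts : List NTerm} {u : Fin 3 → ℝ} :
    ∀ (ws : List ℤ) (Bs : List Basis), (∀ B ∈ Bs, 0 ≤ B.val u) → domOk M ts ws Bs = true →
      wsum ws Bs u ≤ (Bs.map fun B => (M : ℝ) * coefAt B ts * B.val u).sum
  | ws, [], _, _ => by cases ws <;> simp [wsum]
  | [], B :: Bs, hnn, h => by
    simp only [domOk, Bool.and_eq_true, decide_eq_true_eq] at h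
    have := domOk_sound [] Bs (fun B' hB' => hnn B' (List.mem_cons_of_mem _ hB')) h.2
    have hc : (0 : ℝ) ≤ (M : ℝ) * coefAt B ts := by exact_mod_cast h.1
    simp only [wsum, List.map_cons, List.sum_cons] at this ⊢
    linarith [mul_nonneg hc (hnn B List.mem_cons_self)]
  | w :: ws, B :: Bs, hnn, h => by
    simp only [domOk, Bool.and_eq_true, decide_eq_true_eq] at h
    have := domOk_sound ws Bs (fun B' hB' => hnn B' (List.mem_cons_of_mem _ hB')) h.2
    have hc : (w : ℝ) ≤ (M : ℝ) * coefAt B ts := by exact_mod_cast h.1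
    simp only [wsum, List.map_cons, List.sum_cons]
    linarith [mul_le_mul_of_nonneg_right hc (hnn B List.mem_cons_self)]

theorem nodeOk_sound {C : Cfg} (hT : Nonneg C) (hb : basisOk C = true)
    {i : ℕ} {M : ℚ} {ts : List NTerm} {k : ℚ} (h : nodeOk C i M ts k = true) {u : Fin 3 → ℝ}
    (u0 : ∀ j, 0 ≤ u j) (u1 : ∑ j, u j = 1) :
    0 ≤ (ts.map fun t => t.val u).sum + k := by
  simp only [nodeOk] at h
  split at h
  · exact absurd h (by simp)
  rename_i vec hv
  simp only [Bool.and_eq_true, decide_eq_true_eq, List.all_eq_true] at h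
  obtain ⟨⟨⟨⟨hM, hmu⟩, hk⟩, hdom⟩, hhit⟩ := h
  have hval := hT vec (List.mem_of_getElem? hv) u u0 u1
  have hS : 0 ≤ sqDev u := sum_nonneg fun j _ => sq_nonneg _
  have h2 : (vec.mu : ℝ) * sqDev u ≤ 0 :=
    mul_nonpos_of_nonpos_of_nonneg (by exact_mod_cast hmu) hS
  have hk' : (vec.k : ℝ) ≤ (M : ℝ) * k := by exact_mod_cast hk
  have h3 := domOk_sound vec.w C.basis (fun B hB => Basis.val_nonneg hb hB u0 u1) hdom
  have h4 : (C.basis.map fun B => (M : ℝ) * coefAt B ts * B.val u).sum
      = (M : ℝ) * (ts.map fun t => t.val u).sum := by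
    simp only [mul_assoc]
    rw [List.sum_map_mul_left, sum_coefAt]
    congr 1
    refine congrArg List.sum (List.map_congr_left fun t ht => ?_)
    rw [hhit t ht, Nat.cast_one, one_mul]
  rw [Box.Vec.val] at hval
  have hM' : (0 : ℝ) < M := by exact_mod_cast hM
  have : 0 ≤ (M : ℝ) * ((ts.map fun t => t.val u).sum + k) := by linarith
  exact nonneg_of_mul_nonneg_right this hM'

theorem sum_allTerms (E : Fin m → N3) (v : SVec m) (e p r : ℚ) (u : Fin 3 → ℝ) :
    ((allTerms E v e p r).map fun t => t.val u).sum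
      = ∑ j, ((v.c j : ℝ) * phi (expo3 (E j)) u
          + nodeBound (expo3 (E j)) (v.b j) e p r u) := by
  rw [allTerms, List.map_flatMap, List.flatMap_def, List.sum_flatten, List.map_map,
    Fin.sum_univ_def]
  refine congrArg List.sum (List.map_congr_left fun j _ => ?_)
  have h1 : shrink (((1 : ℚ) : ℝ)) u = u := funext fun i => by simp [shrink]
  have hif : (0 : ℝ) ≤ (v.b j : ℝ) ↔ 0 ≤ v.b j := by exact_mod_cast Iff.rfl
  simp only [Function.comp_apply, nodeTerms, nodeBound, psiN, hif]
  split_ifs <;> simp only [List.map_cons, List.map_nil, List.sum_cons, List.sum_nil, NTerm.val,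
    h1] <;> push_cast <;> ring

/-- A checked window gives the node inequalities. -/
theorem windowPW_of_check {C : Cfg} (hT : Nonneg C)
    (hb : basisOk C = true) (E : Fin m → N3) (a b : ℚ) :
    ∀ (V : List (SVec m)) (W : List WData), windowCheck C E a b V W = true →
      WindowPW (fun j => expo3 (E j)) V a b
  | [], _, _ => fun v hv => absurd hv List.not_mem_nil
  | _ :: _, [], h => by simp [windowCheck] at h
  | v :: vs, w :: ws, h => by
    simp only [windowCheck, Bool.and_eq_true, decide_eq_true_eq] at h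
    obtain ⟨⟨⟨⟨hpr, hout⟩, ha⟩, hbb⟩, hrest⟩ := h
    intro v' hv'
    rcases List.mem_cons.1 hv' with rfl | hv'
    · refine ⟨w.p, w.r, by exact_mod_cast hpr, ?_, fun u u0 u1 => ?_, fun u u0 u1 => ?_⟩
      · rcases hout with ⟨h1, h2⟩ | ⟨h1, h2⟩
        · exact Or.inl ⟨by exact_mod_cast h1, by exact_mod_cast h2⟩
        · have h2' : ((-(1 / 2) : ℚ) : ℝ) ≤ (w.p : ℝ) := by exact_mod_cast h2
          push_cast at h2'
          exact Or.inr ⟨by exact_mod_cast h1, h2'⟩
      · exact (sum_allTerms E v' a w.p w.r u) ▸ nodeOk_sound hT hb ha u0 u1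
      · exact (sum_allTerms E v' b w.p w.r u) ▸ nodeOk_sound hT hb hbb u0 u1
    · exact windowPW_of_check hT hb E a b vs ws hrest v' hv'

end Vale.Agent.P154.Anti
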