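import Mathlib

/-!
# Integer cubic polynomials in two variables on the square `[-1, 1]²`
-/

namespace Vale.Agent.P154.Anti.Box

/-- Ten coefficients, by degree. -/
structure P10 where
  c : ℤ
  x : ℤ
  y : ℤ
  xx : ℤ
  xy : ℤ
  yy : ℤ
  xxx : ℤ
  xxy : ℤ
  xyy : ℤ
  yyy : ℤ
deriving DecidableEq

namespace P10

/-- The value at a real point. -/
def ev (p : P10) (s t : ℝ) : ℝ :=
  p.c + p.x * s + p.y * t + p.xx * s ^ 2 + p.xy * (s * t) + p.yy * t ^ 2 + p.xxx * s ^ 3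
    + p.xxy * (s ^ 2 * t) + p.xyy * (s * t ^ 2) + p.yyy * t ^ 3

/-- The constant polynomial. -/
def const (k : ℤ) : P10 := ⟨k, 0, 0, 0, 0, 0, 0, 0, 0, 0⟩

/-- Sum. -/
def add (p q : P10) : P10 :=
  ⟨p.c + q.c, p.x + q.x, p.y + q.y, p.xx + q.xx, p.xy + q.xy, p.yy + q.yy, p.xxx + q.xxx,
    p.xxy + q.xxy, p.xyy + q.xyy, p.yyy + q.yyy⟩

/-- Scalar multiple. -/
def smul (k : ℤ) (p : P10) : P10 :=
  ⟨k * p.c, k * p.x, k * p.y, k * p.xx, k * p.xy, k * p.yy, k * p.xxx, k * p.xxy, k * p.xyy,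
    k * p.yyy⟩

/-- Coefficientwise quotient. -/
def quo (p : P10) (d : ℤ) : P10 :=
  ⟨p.c / d, p.x / d, p.y / d, p.xx / d, p.xy / d, p.yy / d, p.xxx / d, p.xxy / d, p.xyy / d,
    p.yyy / d⟩

/-- Sum of a list. -/
def sum : List P10 → P10
  | [] => const 0
  | p :: l => add p (sum l)

theorem ev_const (k : ℤ) (s t : ℝ) : (const k).ev s t = k := by simp [ev, const]

theorem ev_add (p q : P10) (s t : ℝ) : (add p q).ev s t = p.ev s t + q.ev s t := by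
  simp only [ev, add, Int.cast_add]; ring

theorem ev_smul (k : ℤ) (p : P10) (s t : ℝ) : (smul k p).ev s t = k * p.ev s t := by
  simp only [ev, smul, Int.cast_mul]; ring

theorem ev_sum (l : List P10) (s t : ℝ) : (sum l).ev s t = (l.map fun p => p.ev s t).sum := by
  induction l with
  | nil => simp [sum, ev_const]
  | cons p l ih => simp [sum, ev_add, ih]

theorem quo_one {a d : ℤ} (hd : 0 < d) {m : ℝ} (hm : |m| ≤ 1) :
    |(a : ℝ) / d * m - ((a / d : ℤ) : ℝ) * m| ≤ 1 := by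
  have hd' : (0 : ℝ) < d := by exact_mod_cast hd
  have h1 : ((a / d : ℤ) : ℝ) * d ≤ a := by exact_mod_cast Int.ediv_mul_le a hd.ne'
  have h2 : (a : ℝ) < (((a / d : ℤ) : ℝ) + 1) * d := by
    exact_mod_cast Int.lt_ediv_add_one_mul_self a hd
  rw [← sub_mul, abs_mul]
  refine (mul_le_mul ?_ hm (abs_nonneg _) zero_le_one).trans_eq (mul_one 1)
  rw [abs_le]
  constructor
  · have := (le_div_iff₀ hd').2 h1; linarith
  · have := (div_lt_iff₀ hd').2 h2; linarith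

/-- Rounding all coefficients moves the value by at most ten units. -/
theorem ev_quo (p : P10) {d : ℤ} (hd : 0 < d) {s t : ℝ} (hs : |s| ≤ 1) (ht : |t| ≤ 1) :
    |p.ev s t / d - (quo p d).ev s t| ≤ 10 := by
  have hm : ∀ i j : ℕ, |s ^ i * t ^ j| ≤ 1 := fun i j => by
    rw [abs_mul, abs_pow, abs_pow]
    exact mul_le_one₀ (pow_le_one₀ (abs_nonneg s) hs) (pow_nonneg (abs_nonneg t) j)
      (pow_le_one₀ (abs_nonneg t) ht)
  have q := fun (a : ℤ) (i j : ℕ) => abs_le.1 (quo_one (a := a) hd (hm i j))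
  have e : p.ev s t / d - (quo p d).ev s t =
      ((p.c : ℝ) / d * (s ^ 0 * t ^ 0) - ((p.c / d : ℤ) : ℝ) * (s ^ 0 * t ^ 0))
      + ((p.x : ℝ) / d * (s ^ 1 * t ^ 0) - ((p.x / d : ℤ) : ℝ) * (s ^ 1 * t ^ 0))
      + ((p.y : ℝ) / d * (s ^ 0 * t ^ 1) - ((p.y / d : ℤ) : ℝ) * (s ^ 0 * t ^ 1))
      + ((p.xx : ℝ) / d * (s ^ 2 * t ^ 0) - ((p.xx / d : ℤ) : ℝ) * (s ^ 2 * t ^ 0))
      + ((p.xy : ℝ) / d * (s ^ 1 * t ^ 1) - ((p.xy / d : ℤ) : ℝ) * (s ^ 1 * t ^ 1))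
      + ((p.yy : ℝ) / d * (s ^ 0 * t ^ 2) - ((p.yy / d : ℤ) : ℝ) * (s ^ 0 * t ^ 2))
      + ((p.xxx : ℝ) / d * (s ^ 3 * t ^ 0) - ((p.xxx / d : ℤ) : ℝ) * (s ^ 3 * t ^ 0))
      + ((p.xxy : ℝ) / d * (s ^ 2 * t ^ 1) - ((p.xxy / d : ℤ) : ℝ) * (s ^ 2 * t ^ 1))
      + ((p.xyy : ℝ) / d * (s ^ 1 * t ^ 2) - ((p.xyy / d : ℤ) : ℝ) * (s ^ 1 * t ^ 2))
      + ((p.yyy : ℝ) / d * (s ^ 0 * t ^ 3) - ((p.yyy / d : ℤ) : ℝ) * (s ^ 0 * t ^ 3)) := by
    simp only [ev, quo]; ring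
  rw [e, abs_le]
  have := q p.c 0 0; have := q p.x 1 0; have := q p.y 0 1; have := q p.xx 2 0
  have := q p.xy 1 1; have := q p.yy 0 2; have := q p.xxx 3 0; have := q p.xxy 2 1
  have := q p.xyy 1 2; have := q p.yyy 0 3
  constructor <;> linarith

/-- Tensor Bernstein coefficient, times nine, at the index pair given by the two rows. -/
def bern (p : P10) (a b : ℤ × ℤ × ℤ) : ℤ :=
  9 * p.c + 3 * a.1 * p.x + 3 * b.1 * p.y + 3 * a.2.1 * p.xx + a.1 * b.1 * p.xy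
    + 3 * b.2.1 * p.yy + 3 * a.2.2 * p.xxx + a.2.1 * b.1 * p.xxy + a.1 * b.2.1 * p.xyy
    + 3 * b.2.2 * p.yyy

/-- The rows of the cubic Bernstein basis on `[-1, 1]`. -/
def rows : List (ℤ × ℤ × ℤ) := [(-3, 3, -3), (-1, -1, 3), (1, -1, -3), (3, 3, 3)]

/-- All sixteen Bernstein coefficients are nonnegative. -/
def nonneg (p : P10) : Bool := rows.all fun a => rows.all fun b => decide (0 ≤ bern p a b)

theorem ev_nonneg {p : P10} (h : nonneg p = true) {s t : ℝ} (hs : |s| ≤ 1) (ht : |t| ≤ 1) :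
    0 ≤ p.ev s t := by
  simp only [nonneg, rows, List.all_cons, List.all_nil, Bool.and_true, Bool.and_eq_true,
    decide_eq_true_eq] at h
  obtain ⟨⟨a0, a1, a2, a3⟩, ⟨b0, b1, b2, b3⟩, ⟨c0, c1, c2, c3⟩, d0, d1, d2, d3⟩ := h
  have cast : ∀ {z : ℤ}, 0 ≤ z → (0 : ℝ) ≤ (z : ℝ) := fun hz => by exact_mod_cast hz
  replace a0 := cast a0; replace a1 := cast a1; replace a2 := cast a2; replace a3 := cast a3
  replace b0 := cast b0; replace b1 := cast b1; replace b2 := cast b2; replace b3 := cast b3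
  replace c0 := cast c0; replace c1 := cast c1; replace c2 := cast c2; replace c3 := cast c3
  replace d0 := cast d0; replace d1 := cast d1; replace d2 := cast d2; replace d3 := cast d3
  obtain ⟨hs0, hs1⟩ := abs_le.1 hs
  obtain ⟨ht0, ht1⟩ := abs_le.1 ht
  have u0 : (0 : ℝ) ≤ 1 - s := by linarith
  have u1 : (0 : ℝ) ≤ 1 + s := by linarith
  have v0 : (0 : ℝ) ≤ 1 - t := by linarith
  have v1 : (0 : ℝ) ≤ 1 + t := by linarith
  have key : 576 * p.ev s t =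
      (1 - s) ^ 3 * ((bern p (-3, 3, -3) (-3, 3, -3) : ℤ) * (1 - t) ^ 3
        + 3 * (bern p (-3, 3, -3) (-1, -1, 3) : ℤ) * ((1 - t) ^ 2 * (1 + t))
        + 3 * (bern p (-3, 3, -3) (1, -1, -3) : ℤ) * ((1 - t) * (1 + t) ^ 2)
        + (bern p (-3, 3, -3) (3, 3, 3) : ℤ) * (1 + t) ^ 3)
      + 3 * ((1 - s) ^ 2 * (1 + s)) * ((bern p (-1, -1, 3) (-3, 3, -3) : ℤ) * (1 - t) ^ 3
        + 3 * (bern p (-1, -1, 3) (-1, -1, 3) : ℤ) * ((1 - t) ^ 2 * (1 + t))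
        + 3 * (bern p (-1, -1, 3) (1, -1, -3) : ℤ) * ((1 - t) * (1 + t) ^ 2)
        + (bern p (-1, -1, 3) (3, 3, 3) : ℤ) * (1 + t) ^ 3)
      + 3 * ((1 - s) * (1 + s) ^ 2) * ((bern p (1, -1, -3) (-3, 3, -3) : ℤ) * (1 - t) ^ 3
        + 3 * (bern p (1, -1, -3) (-1, -1, 3) : ℤ) * ((1 - t) ^ 2 * (1 + t))
        + 3 * (bern p (1, -1, -3) (1, -1, -3) : ℤ) * ((1 - t) * (1 + t) ^ 2)
        + (bern p (1, -1, -3) (3, 3, 3) : ℤ) * (1 + t) ^ 3)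
      + (1 + s) ^ 3 * ((bern p (3, 3, 3) (-3, 3, -3) : ℤ) * (1 - t) ^ 3
        + 3 * (bern p (3, 3, 3) (-1, -1, 3) : ℤ) * ((1 - t) ^ 2 * (1 + t))
        + 3 * (bern p (3, 3, 3) (1, -1, -3) : ℤ) * ((1 - t) * (1 + t) ^ 2)
        + (bern p (3, 3, 3) (3, 3, 3) : ℤ) * (1 + t) ^ 3) := by
    simp only [ev, bern]
    push_cast
    ring
  have : 0 ≤ 576 * p.ev s t := by rw [key]; positivity
  linarith

end P10

end Vale.Agent.P154.Anti.Box
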