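import Vale.Agent.P154.Anti.Mult

/-!
# Rational bounds for geometric means on triangles

`ex a` is concave and homogeneous, so it lies above the interpolation of its vertex values and
below each tangent plane. For rational exponents both bounds are checked by comparing powers.
-/

namespace Vale.Agent.P154.Anti

open Finset

variable {q : ℕ} {a : Fin q → ℝ}

/-- Every choice of positive weights `r` gives a linear upper bound. -/
theorem ex_le_tangent (ha : ∀ i, 0 ≤ a i) (ha1 : ∑ i, a i = 1) {x r : Fin q → ℝ}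
    (hx : ∀ i, 0 ≤ x i) (hr : ∀ i, 0 < r i) :
    ex a x ≤ (∑ i, a i * (x i * r i)) / ex a r := by
  have hpos : 0 < ex a r := prod_pos fun i _ => Real.rpow_pos_of_pos (hr i) _
  rw [le_div_iff₀ hpos]
  calc ex a x * ex a r = ex a (fun i => x i * r i) := by
        simp only [ex, ← prod_mul_distrib]
        exact prod_congr rfl fun i _ => (Real.mul_rpow (hx i) (hr i).le).symm
    _ ≤ _ := ex_le ha ha1 fun i => mul_nonneg (hx i) (hr i).le

theorem ex_add_ge (ha : ∀ i, 0 ≤ a i) (ha1 : ∑ i, a i = 1) {x y : Fin q → ℝ}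
    (hx : ∀ i, 0 ≤ x i) (hy : ∀ i, 0 ≤ y i) :
    ex a x + ex a y ≤ ex a fun i => x i + y i := by
  by_cases hz : ∃ i, x i + y i = 0 ∧ a i ≠ 0
  · obtain ⟨i, hi, hai⟩ := hz
    have z : ∀ {u : Fin q → ℝ}, u i = 0 → ex a u = 0 := fun {u} hu =>
      prod_eq_zero (mem_univ i) (by rw [hu, Real.zero_rpow hai])
    rw [z (le_antisymm (by linarith [hy i]) (hx i)), z (le_antisymm (by linarith [hx i]) (hy i)),
      z hi, add_zero]
  push Not at hz
  set r : Fin q → ℝ := fun i => if x i + y i = 0 then 1 else 1 / (x i + y i) with hrdef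
  have hr : ∀ i, 0 < r i := fun i => by
    simp only [hrdef]
    split
    · exact one_pos
    · rename_i h
      exact one_div_pos.2 (lt_of_le_of_ne (add_nonneg (hx i) (hy i)) (Ne.symm h))
  have hpos : 0 < ex a r := prod_pos fun i _ => Real.rpow_pos_of_pos (hr i) _
  have hs : ex a (fun i => x i + y i) = 1 / ex a r := by
    rw [eq_div_iff hpos.ne']
    simp only [ex, ← prod_mul_distrib]
    refine prod_eq_one fun i _ => ?_
    rw [← Real.mul_rpow (add_nonneg (hx i) (hy i)) (hr i).le]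
    by_cases h : x i + y i = 0
    · rw [hz i h, Real.rpow_zero]
    · simp [hrdef, h]
  refine (add_le_add (ex_le_tangent ha ha1 hx hr) (ex_le_tangent ha ha1 hy hr)).trans_eq ?_
  rw [hs, ← add_div, ← sum_add_distrib]
  congr 1
  rw [← ha1]
  refine sum_congr rfl fun i _ => ?_
  by_cases h : x i + y i = 0
  · simp [hz i h]
  · simp only [hrdef, h, if_false]
    field_simp

/-- Interpolation of the values at the vertices is a lower bound. -/
theorem ex_ge_sum (ha : ∀ i, 0 ≤ a i) (ha1 : ∑ i, a i = 1) {ι : Type} (s : Finset ι)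
    {b : ι → ℝ} {P : ι → Fin q → ℝ} (hb : ∀ k ∈ s, 0 ≤ b k) (hP : ∀ k ∈ s, ∀ i, 0 ≤ P k i) :
    ∑ k ∈ s, b k * ex a (P k) ≤ ex a fun i => ∑ k ∈ s, b k * P k i := by
  classical
  induction s using Finset.induction_on with
  | empty => simp only [sum_empty]; exact ex_nonneg a fun _ => le_rfl
  | insert k s hk ih =>
    have hb' : ∀ j ∈ s, 0 ≤ b j := fun j hj => hb j (mem_insert_of_mem hj)
    have hP' : ∀ j ∈ s, ∀ i, 0 ≤ P j i := fun j hj => hP j (mem_insert_of_mem hj)
    simp only [sum_insert hk]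
    rw [← ex_smul ha1 (hb k (mem_insert_self _ _)) (hP k (mem_insert_self _ _))]
    exact (add_le_add le_rfl (ih hb' hP')).trans
      (ex_add_ge ha ha1 (fun i => mul_nonneg (hb k (mem_insert_self _ _))
        (hP k (mem_insert_self _ _) i))
        fun i => sum_nonneg fun j hj => mul_nonneg (hb' j hj) (hP' j hj i))

/-- Exponents with a common denominator. -/
noncomputable def expo (n : Fin q → ℕ) (i : Fin q) : ℝ := (n i : ℝ) / ((∑ j, n j : ℕ) : ℝ)

variable {n : Fin q → ℕ}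

theorem expo_nonneg (i : Fin q) : 0 ≤ expo n i := by unfold expo; positivity

theorem sum_expo (hn : ∑ j, n j ≠ 0) : ∑ i, expo n i = 1 := by
  have h : ((∑ j, n j : ℕ) : ℝ) ≠ 0 := Nat.cast_ne_zero.2 hn
  simp only [expo, ← sum_div]
  rw [← Nat.cast_sum, div_self h]

theorem ex_expo_pow (hn : ∑ j, n j ≠ 0) {x : Fin q → ℝ} (hx : ∀ i, 0 ≤ x i) :
    ex (expo n) x ^ (∑ j, n j) = ∏ i, x i ^ n i := by
  have h : ((∑ j, n j : ℕ) : ℝ) ≠ 0 := Nat.cast_ne_zero.2 hn
  rw [ex, ← prod_pow]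
  refine prod_congr rfl fun i _ => ?_
  rw [← Real.rpow_natCast (x i ^ expo n i), ← Real.rpow_mul (hx i), expo, div_mul_cancel₀ _ h,
    Real.rpow_natCast]

/-- A rational lower bound, checked by powers. -/
theorem le_ex_expo (hn : ∑ j, n j ≠ 0) {x : Fin q → ℚ} (hx : ∀ i, 0 ≤ x i) {l : ℚ}
    (h : l ^ (∑ j, n j) ≤ ∏ i, x i ^ n i) :
    (l : ℝ) ≤ ex (expo n) fun i => (x i : ℝ) := by
  have hx' : ∀ i, (0 : ℝ) ≤ (x i : ℝ) := fun i => by exact_mod_cast hx i
  refine le_of_pow_le_pow_left₀ hn (ex_nonneg _ hx') ?_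
  rw [ex_expo_pow hn hx']
  exact_mod_cast h

/-- A rational upper bound, checked by powers. -/
theorem ex_expo_le (hn : ∑ j, n j ≠ 0) {x : Fin q → ℚ} (hx : ∀ i, 0 ≤ x i) {l : ℚ}
    (hl : 0 ≤ l) (h : ∏ i, x i ^ n i ≤ l ^ (∑ j, n j)) :
    (ex (expo n) fun i => (x i : ℝ)) ≤ (l : ℝ) := by
  have hx' : ∀ i, (0 : ℝ) ≤ (x i : ℝ) := fun i => by exact_mod_cast hx i
  refine le_of_pow_le_pow_left₀ hn (by exact_mod_cast hl) ?_
  rw [ex_expo_pow hn hx']
  exact_mod_cast h

/-- The tangent upper bound at positive rational weights, interpolated between vertices. -/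
theorem ex_expo_le_interp (hn : ∑ j, n j ≠ 0) {ι : Type} (s : Finset ι) {b : ι → ℝ}
    {P : ι → Fin q → ℚ} (hb : ∀ k ∈ s, 0 ≤ b k) (hP : ∀ k ∈ s, ∀ i, 0 ≤ P k i)
    {r : Fin q → ℚ} (hr : ∀ i, 0 < r i) {l : ℚ} (hl : 0 < l)
    (h : l ^ (∑ j, n j) ≤ ∏ i, r i ^ n i) :
    (ex (expo n) fun i => ∑ k ∈ s, b k * (P k i : ℝ)) ≤
      ∑ k ∈ s, b k * (((∑ i, (n i : ℚ) * (P k i * r i)) / ((∑ j, n j : ℕ) * l) : ℚ) : ℝ) := by
  have hx : ∀ i, 0 ≤ ∑ k ∈ s, b k * (P k i : ℝ) := fun i =>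
    sum_nonneg fun k hk => mul_nonneg (hb k hk) (by exact_mod_cast hP k hk i)
  refine (ex_le_tangent expo_nonneg (sum_expo hn) hx (r := fun i => (r i : ℝ))
    fun i => by exact_mod_cast hr i).trans ?_
  have hlow := le_ex_expo hn (fun i => (hr i).le) h
  have hl' : (0 : ℝ) < l := by exact_mod_cast hl
  refine (div_le_div_of_nonneg_left (sum_nonneg fun i _ => mul_nonneg (expo_nonneg i)
    (mul_nonneg (hx i) (by exact_mod_cast (hr i).le))) hl' hlow).trans_eq ?_
  have hN : ((∑ j, n j : ℕ) : ℝ) ≠ 0 := Nat.cast_ne_zero.2 hn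
  simp only [sum_mul, mul_sum]
  rw [sum_comm, sum_div]
  refine sum_congr rfl fun k _ => ?_
  rw [Rat.cast_div, Rat.cast_mul, Rat.cast_natCast, Rat.cast_sum, sum_div, sum_div, mul_sum]
  refine sum_congr rfl fun i _ => ?_
  simp only [expo]
  push_cast
  field_simp

/-- A point of the triangle with vertices `P`. -/
def InTri (P : Fin 3 → Fin q → ℝ) (u : Fin q → ℝ) : Prop :=
  ∃ b : Fin 3 → ℝ, (∀ k, 0 ≤ b k) ∧ ∑ k, b k = 1 ∧ ∀ i, u i = ∑ k, b k * P k i

/-- The midpoint of two vertices. -/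
noncomputable def mid (x y : Fin q → ℝ) (i : Fin q) : ℝ := (x i + y i) / 2

/-- A property on the four halved triangles holds on the whole triangle. -/
theorem InTri.split {Q : (Fin q → ℝ) → Prop} {A B C : Fin q → ℝ}
    (hA : ∀ u, InTri ![A, mid A B, mid A C] u → Q u)
    (hB : ∀ u, InTri ![mid A B, B, mid B C] u → Q u)
    (hC : ∀ u, InTri ![mid A C, mid B C, C] u → Q u)
    (hM : ∀ u, InTri ![mid B C, mid A C, mid A B] u → Q u) :
    ∀ u, InTri ![A, B, C] u → Q u := by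
  rintro u ⟨b, hb, hs, hu⟩
  rw [Fin.sum_univ_three] at hs
  have hu' : ∀ i, u i = b 0 * A i + b 1 * B i + b 2 * C i := fun i => by
    simpa [Fin.sum_univ_three] using hu i
  have h0 := hb 0; have h1 := hb 1; have h2 := hb 2
  rcases le_total (1 / 2) (b 0) with c0 | c0
  · refine hA u ⟨![2 * b 0 - 1, 2 * b 1, 2 * b 2], ?_, ?_, fun i => ?_⟩
    · intro k; fin_cases k <;> simp <;> linarith
    · simp [Fin.sum_univ_three]; linarith
    · simp [Fin.sum_univ_three, mid, hu' i]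
      linear_combination (-(A i)) * hs
  rcases le_total (1 / 2) (b 1) with c1 | c1
  · refine hB u ⟨![2 * b 0, 2 * b 1 - 1, 2 * b 2], ?_, ?_, fun i => ?_⟩
    · intro k; fin_cases k <;> simp <;> linarith
    · simp [Fin.sum_univ_three]; linarith
    · simp [Fin.sum_univ_three, mid, hu' i]
      linear_combination (-(B i)) * hs
  rcases le_total (1 / 2) (b 2) with c2 | c2
  · refine hC u ⟨![2 * b 0, 2 * b 1, 2 * b 2 - 1], ?_, ?_, fun i => ?_⟩
    · intro k; fin_cases k <;> simp <;> linarith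
    · simp [Fin.sum_univ_three]; linarith
    · simp [Fin.sum_univ_three, mid, hu' i]
      linear_combination (-(C i)) * hs
  refine hM u ⟨![1 - 2 * b 0, 1 - 2 * b 1, 1 - 2 * b 2], ?_, ?_, fun i => ?_⟩
  · intro k; fin_cases k <;> simp <;> linarith
  · simp [Fin.sum_univ_three]; linarith
  · simp [Fin.sum_univ_three, mid, hu' i]
    linear_combination (A i + B i + C i) * hs

end Vale.Agent.P154.Anti
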