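import Vale.Agent.P154.Anti.LamConvex

/-!
# Cubic bounds for geometric means

Around a point with positive entries the cubic Taylor polynomial is an upper bound of a geometric
mean on the whole orthant, and a lower bound up to an explicit quartic remainder on boxes.
-/

namespace Vale.Agent.P154.Anti

open Finset Set Vale.Agent.P154.Tree

variable {q : ℕ} {a x e : Fin q → ℝ}

/-- The cubic Taylor polynomial of `ex a (1 + e)`. -/
noncomputable def cubT3 (a e : Fin q → ℝ) : ℝ :=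
  1 + (∑ i, a i * e i) + ((∑ i, a i * e i) ^ 2 - ∑ i, a i * e i ^ 2) / 2
    + ((∑ i, a i * e i) ^ 3 - 3 * (∑ i, a i * e i) * (∑ i, a i * e i ^ 2)
      + 2 * ∑ i, a i * e i ^ 3) / 6

theorem nonneg_of_deriv_zero {f f' : ℝ → ℝ} (h0 : f 0 = 0)
    (hf : ∀ t ∈ Ico (0 : ℝ) 1, HasDerivAt f (f' t) t) (hnn : ∀ t ∈ Ico (0 : ℝ) 1, 0 ≤ f' t) :
    ∀ t ∈ Ico (0 : ℝ) 1, 0 ≤ f t := by
  intro t ht
  have m : MonotoneOn f (Ico (0 : ℝ) 1) := monotoneOn_of_hasDerivWithinAt_nonneg (convex_Ico _ _)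
    (fun s hs => (hf s hs).continuousAt.continuousWithinAt)
    (fun s hs => (hf s (interior_subset hs)).hasDerivWithinAt)
    fun s hs => hnn s (interior_subset hs)
  simpa [h0] using m (left_mem_Ico.2 zero_lt_one) ht ht.1

/-- The one variable comparison: a function with third order contact at `0` and nonnegative
fourth derivative on `[0, 1)` is nonnegative at `1`. -/
theorem nonneg_of_deriv_four {f : ℕ → ℝ → ℝ} (hc : Continuous (f 0)) (h0 : ∀ n < 4, f n 0 = 0)
    (hf : ∀ n < 4, ∀ t ∈ Ico (0 : ℝ) 1, HasDerivAt (f n) (f (n + 1) t) t)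
    (hnn : ∀ t ∈ Ico (0 : ℝ) 1, 0 ≤ f 4 t) : 0 ≤ f 0 1 := by
  have s3 := nonneg_of_deriv_zero (h0 3 (by norm_num)) (hf 3 (by norm_num)) hnn
  have s2 := nonneg_of_deriv_zero (h0 2 (by norm_num)) (hf 2 (by norm_num)) s3
  have s1 := nonneg_of_deriv_zero (h0 1 (by norm_num)) (hf 1 (by norm_num)) s2
  have s0 := nonneg_of_deriv_zero (h0 0 (by norm_num)) (hf 0 (by norm_num)) s1
  have hcl : IsClosed {t : ℝ | 0 ≤ f 0 t} := isClosed_le continuous_const hc
  have hsub : closure (Ico (0 : ℝ) 1) ⊆ {t : ℝ | 0 ≤ f 0 t} := hcl.closure_subset_iff.2 s0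
  rw [closure_Ico (zero_ne_one : (0 : ℝ) ≠ 1)] at hsub
  exact hsub (right_mem_Icc.2 zero_le_one)

/-- The bracket of the fourth derivative is at least `-20` times the fourth moment. -/
theorem moment_ineq_low (ha : ∀ i, 0 ≤ a i) (ha1 : ∑ i, a i = 1) (ξ : Fin q → ℝ) :
    -20 * (∑ i, a i * ξ i ^ 4)
      ≤ (∑ i, a i * ξ i ^ 1) ^ 4 - 6 * (∑ i, a i * ξ i ^ 1) ^ 2 * (∑ i, a i * ξ i ^ 2)
        + 3 * (∑ i, a i * ξ i ^ 2) ^ 2 + 8 * (∑ i, a i * ξ i ^ 1) * (∑ i, a i * ξ i ^ 3)
        - 6 * (∑ i, a i * ξ i ^ 4) := by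
  set μ := ∑ i, a i * ξ i ^ 1 with hμ
  set p2 := ∑ i, a i * ξ i ^ 2 with hp2
  set p3 := ∑ i, a i * ξ i ^ 3 with hp3
  set p4 := ∑ i, a i * ξ i ^ 4 with hp4
  have quad : ∀ c0 c1 c2 : ℝ, 0 ≤ c2 ^ 2 * p4 + 2 * c1 * c2 * p3 + (c1 ^ 2 + 2 * c0 * c2) * p2
      + 2 * c0 * c1 * μ + c0 ^ 2 := fun c0 c1 c2 => by
    have e : ∀ i, a i * (c0 + c1 * ξ i + c2 * ξ i ^ 2) ^ 2 = c2 ^ 2 * (a i * ξ i ^ 4)
        + 2 * c1 * c2 * (a i * ξ i ^ 3) + (c1 ^ 2 + 2 * c0 * c2) * (a i * ξ i ^ 2)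
        + 2 * c0 * c1 * (a i * ξ i ^ 1) + c0 ^ 2 * a i := fun i => by ring
    have h := sum_nonneg (s := (univ : Finset (Fin q)))
      (f := fun i => a i * (c0 + c1 * ξ i + c2 * ξ i ^ 2) ^ 2)
      fun i _ => mul_nonneg (ha i) (sq_nonneg _)
    simp only [e, sum_add_distrib, ← mul_sum, ha1, mul_one] at h
    exact h
  have h21 : μ ^ 2 ≤ p2 := by nlinarith [quad (-μ) 1 0]
  have h42 : p2 ^ 2 ≤ p4 := by nlinarith [quad (-p2) 0 1]
  have h3 := quad 0 μ 1
  have hp20 : 0 ≤ p2 := (sq_nonneg μ).trans h21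
  have h22 : μ ^ 2 * p2 ≤ p4 := (mul_le_mul_of_nonneg_right h21 hp20).trans (by nlinarith)
  nlinarith [pow_nonneg (sq_nonneg μ) 2, sq_nonneg p2]

section taylor

variable (ha : ∀ i, 0 ≤ a i) (hx : ∀ i, 0 < x i) (he : ∀ i, -1 ≤ e i)
include hx he

theorem line_pos_box {t : ℝ} (ht : t ∈ Ico (0 : ℝ) 1) (i : Fin q) :
    0 < x i + x i * e i * t := by
  have : 0 < 1 + e i * t := by nlinarith [he i, ht.1, ht.2]
  nlinarith [mul_pos (hx i) this]

omit he in
theorem lineP_box {t : ℝ} (n : ℕ) :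
    lineP a x (fun i => x i * e i) n t = ∑ i, a i * (e i / (1 + e i * t)) ^ n :=
  sum_congr rfl fun i _ => by
    rw [show x i + x i * e i * t = x i * (1 + e i * t) by ring, mul_div_mul_left _ _ (hx i).ne']

omit he in
theorem lineEx_box {t : ℝ} (ht : ∀ i, 0 ≤ 1 + e i * t) :
    lineEx a x (fun i => x i * e i) t = ex a x * ex a fun i => 1 + e i * t := by
  simp only [lineEx, ex, ← prod_mul_distrib]
  refine prod_congr rfl fun i _ => ?_
  rw [← Real.mul_rpow (hx i).le (ht i)]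
  congr 1
  ring

include ha

/-- The Taylor remainder in the line parameter, with a quartic slack `K`. -/
theorem taylor_remainder {σ K : ℝ}
    (hbd : ∀ t ∈ Ico (0 : ℝ) 1, 0 ≤ 24 * K - σ * (lineEx a x (fun i => x i * e i) t
      * (lineP a x (fun i => x i * e i) 1 t ^ 4
        - 6 * lineP a x (fun i => x i * e i) 1 t ^ 2 * lineP a x (fun i => x i * e i) 2 t
        + 3 * lineP a x (fun i => x i * e i) 2 t ^ 2
        + 8 * lineP a x (fun i => x i * e i) 1 t * lineP a x (fun i => x i * e i) 3 t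
        - 6 * lineP a x (fun i => x i * e i) 4 t))) :
    0 ≤ σ * (ex a x * cubT3 a e - ex a fun i => x i * (1 + e i)) + K := by
  set g := lineEx a x (fun i => x i * e i) with hg
  set P := lineP a x (fun i => x i * e i) with hP
  set L := ∑ i, a i * e i with hL
  set Q := ∑ i, a i * e i ^ 2 with hQ
  set C := ∑ i, a i * e i ^ 3 with hC
  set E := ex a x with hE
  let f : ℕ → ℝ → ℝ
    | 0, t => σ * (E * (1 + L * t + (L ^ 2 - Q) / 2 * t ^ 2
        + (L ^ 3 - 3 * L * Q + 2 * C) / 6 * t ^ 3) - g t) + K * t ^ 4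
    | 1, t => σ * (E * (L + (L ^ 2 - Q) * t + (L ^ 3 - 3 * L * Q + 2 * C) / 2 * t ^ 2)
        - g t * P 1 t) + 4 * K * t ^ 3
    | 2, t => σ * (E * ((L ^ 2 - Q) + (L ^ 3 - 3 * L * Q + 2 * C) * t)
        - g t * (P 1 t ^ 2 - P 2 t)) + 12 * K * t ^ 2
    | 3, t => σ * (E * (L ^ 3 - 3 * L * Q + 2 * C)
        - g t * (P 1 t ^ 3 - 3 * P 1 t * P 2 t + 2 * P 3 t)) + 24 * K * t
    | _, t => σ * (-(g t * (P 1 t ^ 4 - 6 * P 1 t ^ 2 * P 2 t + 3 * P 2 t ^ 2
        + 8 * P 1 t * P 3 t - 6 * P 4 t))) + 24 * K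
  have hg0 : g 0 = E := by
    rw [hg, lineEx_box hx (fun i => by simp)]
    simp [ex, hE]
  have hP0 : ∀ n, P n 0 = ∑ i, a i * e i ^ n := fun n => by
    rw [hP, lineP_box hx]; simp
  have hP10 : P 1 0 = L := by rw [hP0, hL]; simp
  have hcont : Continuous (f 0) := by
    have : Continuous g := by
      show Continuous fun t => ∏ i, (x i + x i * e i * t) ^ a i
      exact continuous_finsetProd _ fun i _ =>
        Continuous.rpow_const (by fun_prop) fun _ => Or.inr (ha i)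
    show Continuous fun t => σ * (E * (1 + L * t + (L ^ 2 - Q) / 2 * t ^ 2
        + (L ^ 3 - 3 * L * Q + 2 * C) / 6 * t ^ 3) - g t) + K * t ^ 4
    fun_prop
  have key := nonneg_of_deriv_four (f := f) hcont ?_ ?_ ?_
  · have hg1 : g 1 = ex a fun i => x i * (1 + e i) := by
      simp only [hg, lineEx]
      congr 1
      funext i
      ring
    have e0 : f 0 1 = σ * (E * cubT3 a e - g 1) + K := by
      simp only [f, cubT3, ← hL, ← hQ, ← hC]
      ring
    rw [← hg1, ← e0]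
    exact key
  · intro n hn
    interval_cases n <;> simp [f, hg0, hP10, hP0, ← hQ, ← hC]
  · intro n hn t ht
    have hp := line_pos_box hx he ht
    obtain ⟨d1, d2, d3⟩ := hasDerivAt_line (a := a) hp
    have g1 := hasDerivAt_lineEx (a := a) hp
    interval_cases n
    · have := ((((((((hasDerivAt_id t).const_mul L).const_add 1).add
        ((hasDerivAt_pow 2 t).const_mul ((L ^ 2 - Q) / 2))).add
        ((hasDerivAt_pow 3 t).const_mul ((L ^ 3 - 3 * L * Q + 2 * C) / 6))).const_mul E).sub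
        g1).const_mul σ).add ((hasDerivAt_pow 4 t).const_mul K)
      refine this.congr_deriv ?_
      simp only [f, hg, hP]; push_cast; ring
    · have := (((((((hasDerivAt_id t).const_mul (L ^ 2 - Q)).const_add L).add
        ((hasDerivAt_pow 2 t).const_mul ((L ^ 3 - 3 * L * Q + 2 * C) / 2))).const_mul E).sub
        d1).const_mul σ).add ((hasDerivAt_pow 3 t).const_mul (4 * K))
      refine this.congr_deriv ?_
      simp only [f, hg, hP]; push_cast; ring
    · have := ((((((hasDerivAt_id t).const_mul (L ^ 3 - 3 * L * Q + 2 * C)).const_add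
        (L ^ 2 - Q)).const_mul E).sub d2).const_mul σ).add
        ((hasDerivAt_pow 2 t).const_mul (12 * K))
      refine this.congr_deriv ?_
      simp only [f, hg, hP]; push_cast; ring
    · have := (((hasDerivAt_const t (E * (L ^ 3 - 3 * L * Q + 2 * C))).sub d3).const_mul σ).add
        ((hasDerivAt_id t).const_mul (24 * K))
      refine this.congr_deriv ?_
      simp only [f, hg, hP]; ring
  · intro t ht
    simp only [f]
    linarith [hbd t ht]

variable (ha1 : ∑ i, a i = 1)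
include ha1

/-- The cubic Taylor polynomial is an upper bound. -/
theorem ex_le_cubT3 : (ex a fun i => x i * (1 + e i)) ≤ ex a x * cubT3 a e := by
  have := taylor_remainder ha hx he (σ := 1) (K := 0) fun t ht => by
    have hp := line_pos_box hx he ht
    have hg : 0 ≤ lineEx a x (fun i => x i * e i) t :=
      show 0 ≤ ∏ i, (x i + x i * e i * t) ^ a i from prod_nonneg fun i _ => Real.rpow_nonneg (hp i).le _
    have h : lineEx a x (fun i => x i * e i) t
        * ((∑ i, a i * (x i * e i / (x i + x i * e i * t)) ^ 1) ^ 4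
          - 6 * (∑ i, a i * (x i * e i / (x i + x i * e i * t)) ^ 1) ^ 2
            * (∑ i, a i * (x i * e i / (x i + x i * e i * t)) ^ 2)
          + 3 * (∑ i, a i * (x i * e i / (x i + x i * e i * t)) ^ 2) ^ 2
          + 8 * (∑ i, a i * (x i * e i / (x i + x i * e i * t)) ^ 1)
            * (∑ i, a i * (x i * e i / (x i + x i * e i * t)) ^ 3)
          - 6 * (∑ i, a i * (x i * e i / (x i + x i * e i * t)) ^ 4)) ≤ 0 :=
      mul_nonpos_iff.2 (Or.inl ⟨hg, moment_ineq ha ha1 _⟩)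
    simp only [lineP] at *
    linarith
  linarith

/-- The quartic lower bound on a box. -/
theorem cubT3_le_ex {r : ℝ} (hr0 : 0 ≤ r) (hr : r < 1) (hbox : ∀ i, a i ≠ 0 → |e i| ≤ r) :
    ex a x * (cubT3 a e - 5 / 6 * (1 + r) / (1 - r) ^ 4 * ∑ i, a i * e i ^ 4)
      ≤ ex a fun i => x i * (1 + e i) := by
  have hr' : 0 < 1 - r := by linarith
  have := taylor_remainder ha hx he (σ := -1)
    (K := ex a x * (5 / 6 * (1 + r) / (1 - r) ^ 4 * ∑ i, a i * e i ^ 4)) fun t ht => by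
    have hp := line_pos_box hx he ht
    have hb : ∀ i, 0 ≤ 1 + e i * t := fun i => by nlinarith [he i, ht.1, ht.2]
    set ξ : Fin q → ℝ := fun i => e i / (1 + e i * t) with hξ
    have hm := moment_ineq_low ha ha1 ξ
    have hE : 0 ≤ ex a x := ex_nonneg a fun i => (hx i).le
    have hg1 : (ex a fun i => 1 + e i * t) ≤ 1 + r := by
      refine (ex_le ha ha1 hb).trans ?_
      calc ∑ i, a i * (1 + e i * t) ≤ ∑ i, a i * (1 + r) := sum_le_sum fun i _ => by
            rcases eq_or_ne (a i) 0 with h | h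
            · simp [h]
            · refine mul_le_mul_of_nonneg_left ?_ (ha i)
              nlinarith [abs_le.1 (hbox i h), ht.1, ht.2]
        _ = 1 + r := by rw [← sum_mul, ha1, one_mul]
    have h4 : (∑ i, a i * ξ i ^ 4) ≤ (∑ i, a i * e i ^ 4) / (1 - r) ^ 4 := by
      rw [sum_div]
      refine sum_le_sum fun i _ => ?_
      rcases eq_or_ne (a i) 0 with h | h
      · simp [h]
      · have hb' : 1 - r ≤ 1 + e i * t := by nlinarith [abs_le.1 (hbox i h), ht.1, ht.2]
        rw [hξ, div_pow, mul_div_assoc']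
        exact div_le_div_of_nonneg_left (mul_nonneg (ha i) (Even.pow_nonneg (by decide) _))
          (pow_pos hr' 4) (pow_le_pow_left₀ hr'.le hb' 4)
    have h4nn : 0 ≤ ∑ i, a i * ξ i ^ 4 :=
      sum_nonneg fun i _ => mul_nonneg (ha i) (Even.pow_nonneg (by decide) _)
    have hG : 0 ≤ ex a x * ex a fun i => 1 + e i * t := mul_nonneg hE (ex_nonneg a hb)
    have t1 := mul_le_mul_of_nonneg_left hm hG
    have t2 : (ex a x * ex a fun i => 1 + e i * t) * (∑ i, a i * ξ i ^ 4)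
        ≤ ex a x * (1 + r) * ((∑ i, a i * e i ^ 4) / (1 - r) ^ 4) :=
      mul_le_mul (mul_le_mul_of_nonneg_left hg1 hE) h4 h4nn (mul_nonneg hE (by linarith))
    have eK : 24 * (ex a x * (5 / 6 * (1 + r) / (1 - r) ^ 4 * ∑ i, a i * e i ^ 4))
        = 20 * (ex a x * (1 + r) * ((∑ i, a i * e i ^ 4) / (1 - r) ^ 4)) := by
      ring
    rw [lineEx_box hx hb, eK]
    simp only [lineP_box hx]
    linarith
  linarith

end taylor

end Vale.Agent.P154.Anti
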