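import Vale.Agent.P154.Anti.BoxDef
import Vale.Agent.P154.Anti.GeoTaylor3
import Vale.Agent.P154.Anti.GeoBox

/-!
# Soundness of the cubic models on a box
-/

namespace Vale.Agent.P154.Anti.Box

open Finset

/-- A triple as a function. -/
def Z3.fn (v : Z3) : Fin 3 → ℤ := ![v.z0, v.z1, v.z2]

/-- Exponents as a function. -/
def N3.fn (n : N3) : Fin 3 → ℕ := ![n.n0, n.n1, n.n2]

/-- The vector of the family at a point of the square. -/
noncomputable def Fam.pt (F : Fam) (s t : ℝ) (i : Fin 3) : ℝ :=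
  ((F.V.fn i : ℝ) + F.A.fn i * s + F.B.fn i * t) / F.den

/-- The exponents of a triple. -/
noncomputable def expo3 (n : N3) : Fin 3 → ℝ := expo n.fn

variable {F : Fam} {N : ℕ} {n : N3} {S : ℤ} {s t : ℝ}

theorem sum_fn (n : N3) : ∑ j, n.fn j = n.n0 + n.n1 + n.n2 := by
  simp [N3.fn, Fin.sum_univ_three]

theorem expo3_apply (hn : n.n0 + n.n1 + n.n2 = N) (i : Fin 3) :
    expo3 n i = (n.fn i : ℝ) / N := by
  simp only [expo3, expo, sum_fn, hn]

theorem expo3_simplex (hN : N ≠ 0) (hn : n.n0 + n.n1 + n.n2 = N) :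
    (∀ i, 0 ≤ expo3 n i) ∧ ∑ i, expo3 n i = 1 :=
  ⟨expo_nonneg, sum_expo (by rw [sum_fn, hn]; exact hN)⟩

/-- The facts behind `famOk`. -/
theorem famOk_spec (h : famOk F = true) : (0 : ℝ) < F.den ∧ (∀ i, (0 : ℝ) < F.V.fn i) ∧
    ∀ i, |(F.A.fn i : ℝ)| + |(F.B.fn i : ℝ)| ≤ F.V.fn i := by
  simp only [famOk, Bool.and_eq_true, decide_eq_true_eq] at h
  simp only [ext] at h
  obtain ⟨⟨⟨⟨⟨⟨h0, h1⟩, h2⟩, h3⟩, h4⟩, h5⟩, h6⟩ := h
  refine ⟨by exact_mod_cast h0, fun i => ?_, fun i => ?_⟩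
  · fin_cases i <;> simp [Z3.fn] <;> assumption
  · fin_cases i <;> simp [Z3.fn] <;> exact_mod_cast ‹_›

theorem abs_dev_le (hs : |s| ≤ 1) (ht : |t| ≤ 1) (a b : ℝ) : |a * s + b * t| ≤ |a| + |b| :=
  (abs_add_le _ _).trans (by
    rw [abs_mul, abs_mul]
    exact add_le_add (mul_le_of_le_one_right (abs_nonneg a) hs)
      (mul_le_of_le_one_right (abs_nonneg b) ht))

/-- Centre and relative deviations. -/
theorem pt_eq (h : famOk F = true) (hs : |s| ≤ 1) (ht : |t| ≤ 1) :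
    ∃ x e : Fin 3 → ℝ, (∀ i, x i = (F.V.fn i : ℝ) / F.den) ∧ (∀ i, 0 < x i) ∧
      (∀ i, e i = (F.A.fn i * s + F.B.fn i * t) / F.V.fn i) ∧
      (∀ i, |e i| ≤ (|(F.A.fn i : ℝ)| + |(F.B.fn i : ℝ)|) / F.V.fn i) ∧ (∀ i, -1 ≤ e i) ∧
      F.pt s t = fun i => x i * (1 + e i) := by
  obtain ⟨hd, hV, hE⟩ := famOk_spec h
  have hb : ∀ i, |(F.A.fn i * s + F.B.fn i * t) / (F.V.fn i : ℝ)|
      ≤ (|(F.A.fn i : ℝ)| + |(F.B.fn i : ℝ)|) / F.V.fn i := fun i => by
    rw [abs_div, abs_of_pos (hV i)]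
    exact div_le_div_of_nonneg_right (abs_dev_le hs ht _ _) (hV i).le
  refine ⟨_, _, fun i => rfl, fun i => div_pos (hV i) hd, fun i => rfl, hb, fun i => ?_,
    funext fun i => ?_⟩
  · exact (abs_le.1 ((hb i).trans ((div_le_one (hV i)).2 (hE i)))).1
  · have := (hV i).ne'
    simp only [Fam.pt]
    field_simp
    ring

theorem pt_nonneg (h : famOk F = true) (hs : |s| ≤ 1) (ht : |t| ≤ 1) (i : Fin 3) :
    0 ≤ F.pt s t i := by
  obtain ⟨hd, -, hE⟩ := famOk_spec h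
  refine div_nonneg ?_ hd.le
  have := (abs_le.1 (abs_dev_le hs ht (F.A.fn i : ℝ) (F.B.fn i))).1
  linarith [hE i]

theorem cubNum_ev (h : famOk F = true) (hN : N ≠ 0) (hn : n.n0 + n.n1 + n.n2 = N)
    {e : Fin 3 → ℝ} (he : ∀ i, e i = (F.A.fn i * s + F.B.fn i * t) / F.V.fn i) :
    (cubNum N n F).ev s t / cubDen N F = cubT3 (expo3 n) e ∧ 0 < cubDen N F := by
  obtain ⟨-, hV, -⟩ := famOk_spec h
  have v0 : (0 : ℝ) < F.V.z0 := by simpa [Z3.fn] using hV 0
  have v1 : (0 : ℝ) < F.V.z1 := by simpa [Z3.fn] using hV 1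
  have v2 : (0 : ℝ) < F.V.z2 := by simpa [Z3.fn] using hV 2
  have hN' : (0 : ℝ) < N := by exact_mod_cast Nat.pos_of_ne_zero hN
  constructor
  · simp only [P10.ev, cubNum, cubDen, cubT3, Fin.sum_univ_three, expo3_apply hn, he]
    simp only [Z3.fn, N3.fn, Matrix.cons_val_zero, Matrix.cons_val_one, Matrix.head_cons,
      Matrix.cons_val_two, Matrix.tail_cons]
    push_cast
    field_simp
    ring
  · have : (0 : ℝ) < (cubDen N F : ℝ) := by simp only [cubDen]; push_cast; positivity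
    exact_mod_cast this

theorem pw_eq (v : Z3) (n : N3) : ((pw v n : ℤ) : ℚ) = ∏ i, (v.fn i : ℚ) ^ n.fn i := by
  simp [pw, Fin.prod_univ_three, Z3.fn, N3.fn]

theorem rootHi_sound {v : Z3} {den hi : ℤ} (hN : N ≠ 0) (hn : n.n0 + n.n1 + n.n2 = N)
    (hS : 0 < S) (hd : 0 < den) (hv : ∀ i, 0 ≤ v.fn i) (h : rootHi S den N n v hi = true) :
    (S : ℝ) * ex (expo3 n) (fun i => (v.fn i : ℝ) / den) ≤ hi := by
  simp only [rootHi, Bool.and_eq_true, decide_eq_true_eq] at h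
  obtain ⟨h0, h1⟩ := h
  have hsum : ∑ j, n.fn j = N := by rw [sum_fn, hn]
  have hS' : (0 : ℚ) < (S : ℚ) := by exact_mod_cast hS
  have hd' : (0 : ℚ) < (den : ℚ) := by exact_mod_cast hd
  have key := ex_expo_le (n := n.fn) (x := fun i => (v.fn i : ℚ) / den) (l := (hi : ℚ) / S)
    (by rw [hsum]; exact hN) (fun i => div_nonneg (by exact_mod_cast hv i) hd'.le)
    (div_nonneg (by exact_mod_cast h0) hS'.le) ?_
  · push_cast at key
    rw [le_div_iff₀ (by exact_mod_cast hS), mul_comm] at key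
    exact key
  · simp only [div_pow, prod_div_distrib, prod_pow_eq_pow_sum, hsum, ← pw_eq]
    rw [div_le_div_iff₀ (pow_pos hd' _) (pow_pos hS' _), ← mul_pow]
    exact_mod_cast h1

theorem rootLo_sound {v : Z3} {den lo : ℤ} (hN : N ≠ 0) (hn : n.n0 + n.n1 + n.n2 = N)
    (hS : 0 < S) (hd : 0 < den) (hv : ∀ i, 0 ≤ v.fn i) (h : rootLo S den N n v lo = true) :
    (lo : ℝ) ≤ S * ex (expo3 n) (fun i => (v.fn i : ℝ) / den) := by
  simp only [rootLo, Bool.and_eq_true, decide_eq_true_eq] at h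
  obtain ⟨-, h1⟩ := h
  have hsum : ∑ j, n.fn j = N := by rw [sum_fn, hn]
  have hS' : (0 : ℚ) < (S : ℚ) := by exact_mod_cast hS
  have hd' : (0 : ℚ) < (den : ℚ) := by exact_mod_cast hd
  have key := le_ex_expo (n := n.fn) (x := fun i => (v.fn i : ℚ) / den) (l := (lo : ℚ) / S)
    (by rw [hsum]; exact hN) (fun i => div_nonneg (by exact_mod_cast hv i) hd'.le) ?_
  · push_cast at key
    rw [div_le_iff₀ (by exact_mod_cast hS), mul_comm] at key
    exact key
  · simp only [div_pow, prod_div_distrib, prod_pow_eq_pow_sum, hsum, ← pw_eq]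
    rw [div_le_div_iff₀ (pow_pos hS' _) (pow_pos hd' _), ← mul_pow]
    exact_mod_cast h1

theorem upPoly_sound (h : famOk F = true) (hN : N ≠ 0) (hn : n.n0 + n.n1 + n.n2 = N)
    (hS : 0 < S) (hs : |s| ≤ 1) (ht : |t| ≤ 1) {hi : ℤ}
    (hh : rootHi S F.den N n F.V hi = true) :
    (S : ℝ) * ex (expo3 n) (F.pt s t) ≤ (upPoly N n F hi).ev s t := by
  obtain ⟨x, e, hxe, hx, he, -, he1, hpt⟩ := pt_eq h hs ht
  obtain ⟨ha, ha1⟩ := expo3_simplex hN hn
  obtain ⟨hcub, hden⟩ := cubNum_ev h hN hn he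
  obtain ⟨hd, hV, -⟩ := famOk_spec h
  have hup := ex_le_cubT3 ha hx he1 ha1
  have hexp : 0 < ex (expo3 n) x := prod_pos fun i _ => Real.rpow_pos_of_pos (hx i) _
  have hT : 0 ≤ cubT3 (expo3 n) e := by
    have := (ex_nonneg (expo3 n) fun i => by
      have := he1 i; have := hx i; nlinarith : 0 ≤ ex (expo3 n) fun i => x i * (1 + e i))
    exact nonneg_of_mul_nonneg_right (this.trans hup) hexp
  have hhi := rootHi_sound hN hn hS (by exact_mod_cast hd) (fun i => by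
    exact_mod_cast (hV i).le) hh
  have hxeq : x = fun i => (F.V.fn i : ℝ) / F.den := funext hxe
  rw [← hxeq] at hhi
  have hround := abs_le.1 (P10.ev_quo (P10.smul hi (cubNum N n F)) hden hs ht)
  rw [P10.ev_smul, mul_div_assoc, hcub] at hround
  rw [hpt, upPoly, P10.ev_add, P10.ev_const]
  have h1 := mul_le_mul_of_nonneg_left hup (by exact_mod_cast hS.le : (0 : ℝ) ≤ S)
  rw [← mul_assoc] at h1
  have h2 := mul_le_mul_of_nonneg_right hhi hT
  push_cast
  linarith [hround.2]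

theorem relUp_spec {x v : ℤ} (hv : 0 < v) :
    (x : ℝ) / v * res ≤ (relUp x v : ℝ) := by
  have hv' : (0 : ℝ) < v := by exact_mod_cast hv
  have h := Int.lt_ediv_add_one_mul_self (x * res + v - 1) hv
  have h' : x * res ≤ relUp x v * v := by
    simp only [relUp] at h ⊢
    rw [add_mul, one_mul] at h
    omega
  rw [div_mul_eq_mul_div, div_le_iff₀ hv']
  exact_mod_cast h'

theorem loPoly_sound (h : famOk F = true) (hN : N ≠ 0) (hn : n.n0 + n.n1 + n.n2 = N)
    (hS : 0 < S) (hs : |s| ≤ 1) (ht : |t| ≤ 1) {lo hi : ℤ}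
    (hl : rootLo S F.den N n F.V lo = true) (hh : rootHi S F.den N n F.V hi = true)
    (hr : rho n F < res) :
    (loPoly N n F lo hi).ev s t ≤ (S : ℝ) * ex (expo3 n) (F.pt s t) := by
  obtain ⟨x, e, hxe, hx, he, heb, he1, hpt⟩ := pt_eq h hs ht
  obtain ⟨ha, ha1⟩ := expo3_simplex hN hn
  obtain ⟨hcub, hden⟩ := cubNum_ev h hN hn he
  obtain ⟨hd, hV, -⟩ := famOk_spec h
  have hexp : 0 < ex (expo3 n) x := prod_pos fun i _ => Real.rpow_pos_of_pos (hx i) _
  have hT : 0 ≤ cubT3 (expo3 n) e := by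
    have := (ex_nonneg (expo3 n) fun i => by
      have := he1 i; have := hx i; nlinarith : 0 ≤ ex (expo3 n) fun i => x i * (1 + e i))
    exact nonneg_of_mul_nonneg_right (this.trans (ex_le_cubT3 ha hx he1 ha1)) hexp
  have hxeq : x = fun i => (F.V.fn i : ℝ) / F.den := funext hxe
  have hd' : (0 : ℤ) < F.den := by exact_mod_cast hd
  have hV' : ∀ i, (0 : ℤ) < F.V.fn i := fun i => by exact_mod_cast hV i
  have hhi := rootHi_sound hN hn hS hd' (fun i => (hV' i).le) hh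
  have hlo := rootLo_sound hN hn hS hd' (fun i => (hV' i).le) hl
  rw [← hxeq] at hhi hlo
  set R : ℝ := (rho n F : ℝ) / res with hR
  have hres : (0 : ℝ) < res := by norm_num [res]
  have hE : ∀ i, |e i| * res ≤ (relUp ((ext F).fn i) (F.V.fn i) : ℝ) := fun i => by
    refine le_trans ?_ (relUp_spec (x := (ext F).fn i) (hV' i))
    refine mul_le_mul_of_nonneg_right ((heb i).trans_eq ?_) hres.le
    fin_cases i <;> simp [ext, Z3.fn]
  have hrho : ∀ i, n.fn i ≠ 0 → relUp ((ext F).fn i) (F.V.fn i) ≤ rho n F := fun i hi => by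
    fin_cases i <;> simp [N3.fn] at hi <;> simp [rho, Z3.fn, hi]
  have hR0 : 0 ≤ R := by
    refine div_nonneg ?_ hres.le
    obtain ⟨i, hi⟩ : ∃ i, n.fn i ≠ 0 := by
      by_contra hc
      push Not at hc
      exact hN (by rw [← hn, ← sum_fn]; simp [hc])
    exact le_trans ((mul_nonneg (abs_nonneg _) hres.le).trans (hE i))
      (by exact_mod_cast hrho i hi)
  have hR1 : R < 1 := by rw [hR, div_lt_one hres]; exact_mod_cast hr
  have her : ∀ i, expo3 n i ≠ 0 → |e i| ≤ R := fun i hi => by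
    have hi' : n.fn i ≠ 0 := fun h0 => hi (by rw [expo3_apply hn, h0]; simp)
    rw [hR, le_div_iff₀ hres]
    exact (hE i).trans (by exact_mod_cast hrho i hi')
  have hlow := cubT3_le_ex ha hx he1 ha1 hR0 hR1 her
  have hrem : (S : ℝ) * ex (expo3 n) x
      * (5 / 6 * (1 + R) / (1 - R) ^ 4 * ∑ i, expo3 n i * e i ^ 4)
      ≤ (remBound N n F hi : ℝ) := by
    have hhi0 : (0 : ℝ) ≤ hi := le_trans (mul_nonneg (by exact_mod_cast hS.le) hexp.le) hhi
    have hN' : (0 : ℝ) < N := by exact_mod_cast Nat.pos_of_ne_zero hN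
    set E : Fin 3 → ℤ := fun i => relUp ((ext F).fn i) (F.V.fn i) with hEdef
    have hsum : ∑ i, expo3 n i * e i ^ 4
        ≤ (∑ i, (n.fn i : ℝ) * (E i : ℝ) ^ 4) / (N * (res : ℝ) ^ 4) := by
      rw [sum_div]
      refine sum_le_sum fun i _ => ?_
      have h4 : (|e i| * res) ^ 4 ≤ (E i : ℝ) ^ 4 :=
        pow_le_pow_left₀ (mul_nonneg (abs_nonneg _) hres.le) (hE i) 4
      rw [mul_pow, show |e i| ^ 4 = e i ^ 4 from Even.pow_abs ⟨2, rfl⟩ _] at h4
      rw [expo3_apply hn, div_mul_eq_mul_div, div_le_div_iff₀ hN' (by positivity)]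
      have := mul_le_mul_of_nonneg_left h4 (by positivity : (0 : ℝ) ≤ (n.fn i : ℝ) * N)
      linarith
    have hfac : 0 ≤ 5 / 6 * (1 + R) / (1 - R) ^ 4 := by positivity
    refine (mul_le_mul hhi (mul_le_mul_of_nonneg_left hsum hfac)
      (mul_nonneg hfac (sum_nonneg fun i _ => mul_nonneg (ha i) (by positivity))) hhi0).trans ?_
    have hR1' : 0 < (res : ℝ) - rho n F := by
      have : (rho n F : ℝ) < res := by exact_mod_cast hr
      linarith
    set num : ℤ := hi * 5 * (res + rho n F) * ((n.n0 : ℤ) * E 0 ^ 4 + (n.n1 : ℤ) * E 1 ^ 4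
      + (n.n2 : ℤ) * E 2 ^ 4) with hnum
    set den : ℤ := 6 * (N : ℤ) * res * (res - rho n F) ^ 4 with hdendef
    have hden0 : (0 : ℝ) < (den : ℝ) := by simp only [hdendef]; push_cast; positivity
    have hden' : 0 < den := by exact_mod_cast hden0
    have hq := Int.lt_ediv_add_one_mul_self (num + den - 1) hden'
    have hq' : num ≤ ((num + den - 1) / den) * den := by rw [add_mul, one_mul] at hq; omega
    have hrb : remBound N n F hi = (num + den - 1) / den := by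
      simp [remBound, hnum, hdendef, hEdef, Z3.fn]
    rw [hrb]
    have hq'' : (num : ℝ) ≤ (((num + den - 1) / den : ℤ) : ℝ) * (den : ℝ) := by
      exact_mod_cast hq'
    refine le_trans (le_of_eq ?_) ((div_le_iff₀ hden0).2 hq'')
    simp only [hnum, hdendef, hR, Fin.sum_univ_three, N3.fn, Matrix.cons_val_zero,
      Matrix.cons_val_one, Matrix.head_cons, Matrix.cons_val_two, Matrix.tail_cons]
    push_cast
    field_simp
  have hround := abs_le.1 (P10.ev_quo (P10.smul lo (cubNum N n F)) hden hs ht)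
  rw [P10.ev_smul, mul_div_assoc, hcub] at hround
  rw [hpt, loPoly, P10.ev_add, P10.ev_const]
  have h1 := mul_le_mul_of_nonneg_left hlow (by exact_mod_cast hS.le : (0 : ℝ) ≤ S)
  rw [← mul_assoc, mul_sub] at h1
  have h2 := mul_le_mul_of_nonneg_right hlo hT
  push_cast
  linarith [hround.1]

theorem itPoly_sound (h : famOk F = true) (hN : N ≠ 0) (hn : n.n0 + n.n1 + n.n2 = N)
    (hS : 0 < S) (hs : |s| ≤ 1) (ht : |t| ≤ 1) {cmm cmp cpm cpp : ℤ}
    (hmm : rootLo S F.den N n (corner F (-1) (-1)) cmm = true)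
    (hmp : rootLo S F.den N n (corner F (-1) 1) cmp = true)
    (hpm : rootLo S F.den N n (corner F 1 (-1)) cpm = true)
    (hpp : rootLo S F.den N n (corner F 1 1) cpp = true) :
    (itPoly cmm cmp cpm cpp).ev s t ≤ (S : ℝ) * ex (expo3 n) (F.pt s t) := by
  obtain ⟨ha, ha1⟩ := expo3_simplex hN hn
  obtain ⟨hd, -, hE⟩ := famOk_spec h
  have hd' : (0 : ℤ) < F.den := by exact_mod_cast hd
  obtain ⟨s0, s1⟩ := abs_le.1 hs
  obtain ⟨t0, t1⟩ := abs_le.1 ht
  set P : Fin 4 → Z3 := ![corner F (-1) (-1), corner F (-1) 1, corner F 1 (-1), corner F 1 1]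
    with hP
  have hP0 : ∀ k i, (0 : ℝ) ≤ ((P k).fn i : ℝ) := fun k i => by
    have := hE i
    have := neg_abs_le (F.A.fn i : ℝ); have := le_abs_self (F.A.fn i : ℝ)
    have := neg_abs_le (F.B.fn i : ℝ); have := le_abs_self (F.B.fn i : ℝ)
    fin_cases k <;> fin_cases i <;> simp [hP, corner, Z3.fn] at * <;> linarith
  set b : Fin 4 → ℝ := ![(1 - s) * (1 - t) / 4, (1 - s) * (1 + t) / 4, (1 + s) * (1 - t) / 4,
    (1 + s) * (1 + t) / 4] with hb
  have hb0 : ∀ k, 0 ≤ b k := fun k => by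
    have u0 : 0 ≤ 1 - s := by linarith
    have u1 : 0 ≤ 1 + s := by linarith
    have v0 : 0 ≤ 1 - t := by linarith
    have v1 : 0 ≤ 1 + t := by linarith
    fin_cases k <;> simp [hb] <;> positivity
  have hge := ex_ge_sum ha ha1 (univ : Finset (Fin 4)) (b := b)
    (P := fun k i => ((P k).fn i : ℝ) / F.den) (fun k _ => hb0 k)
    fun k _ i => div_nonneg (hP0 k i) hd.le
  have hpt : (fun i => ∑ k, b k * (((P k).fn i : ℝ) / F.den)) = F.pt s t := funext fun i => by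
    simp only [Fam.pt, Fin.sum_univ_four]
    fin_cases i <;> simp [hb, hP, corner, Z3.fn] <;> ring
  rw [hpt] at hge
  have hl : ∀ (k : Fin 4) (c : ℤ), rootLo S F.den N n (P k) c = true →
      (c : ℝ) ≤ S * ex (expo3 n) (fun i => ((P k).fn i : ℝ) / F.den) := fun k c hc =>
    rootLo_sound hN hn hS hd' (fun i => by exact_mod_cast hP0 k i) hc
  have l0 := mul_le_mul_of_nonneg_left (hl 0 cmm (by simpa [hP] using hmm)) (hb0 0)
  have l1 := mul_le_mul_of_nonneg_left (hl 1 cmp (by simpa [hP] using hmp)) (hb0 1)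
  have l2 := mul_le_mul_of_nonneg_left (hl 2 cpm (by simpa [hP] using hpm)) (hb0 2)
  have l3 := mul_le_mul_of_nonneg_left (hl 3 cpp (by simpa [hP] using hpp)) (hb0 3)
  have hmul := mul_le_mul_of_nonneg_left hge (by exact_mod_cast hS.le : (0 : ℝ) ≤ S)
  rw [Fin.sum_univ_four] at hmul
  set p : P10 := ⟨cmm + cmp + cpm + cpp, cpm + cpp - cmm - cmp, cmp + cpp - cmm - cpm, 0,
    cmm + cpp - cmp - cpm, 0, 0, 0, 0, 0⟩ with hp
  have hround := abs_le.1 (P10.ev_quo p (by norm_num : (0 : ℤ) < 4) hs ht)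
  have hev : p.ev s t / ((4 : ℤ) : ℝ) = b 0 * cmm + b 1 * cmp + b 2 * cpm + b 3 * cpp := by
    simp [hp, P10.ev, hb]
    ring
  rw [itPoly, ← hp, P10.ev_add, P10.ev_const]
  rw [hev] at hround
  push_cast
  linarith [hround.1]

/-- Lower and upper models enclose the geometric mean. -/
theorem rootModels_sound (h : famOk F = true) (hN : N ≠ 0) (hn : n.n0 + n.n1 + n.n2 = N)
    (hS : 0 < S) (hs : |s| ≤ 1) (ht : |t| ≤ 1) {r : Root}
    (hr : (rootModels S N n F r).1 = true) :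
    (rootModels S N n F r).2.1.ev s t ≤ (S : ℝ) * ex (expo3 n) (F.pt s t) ∧
      (S : ℝ) * ex (expo3 n) (F.pt s t) ≤ (rootModels S N n F r).2.2.ev s t := by
  cases r with
  | tay lo hi =>
    simp only [rootModels, Bool.and_eq_true, decide_eq_true_eq] at hr
    exact ⟨loPoly_sound h hN hn hS hs ht hr.1.1 hr.1.2 hr.2, upPoly_sound h hN hn hS hs ht hr.1.2⟩
  | itp hi cmm cmp cpm cpp =>
    simp only [rootModels, Bool.and_eq_true] at hr
    exact ⟨itPoly_sound h hN hn hS hs ht hr.1.1.1.2 hr.1.1.2 hr.1.2 hr.2,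
      upPoly_sound h hN hn hS hs ht hr.1.1.1.1⟩

end Vale.Agent.P154.Anti.Box
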