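import Vale.Agent.P154.Anti.MultLin
import Vale.Agent.P154.Anti.GeoBox

/-!
# The multiplicative criterion with coefficients depending on the channel

Hellinger transforms increase along degradations, so each closed recursion converges and its
defect tends to zero separately. It is then enough that at every symmetric channel some bounded
combination of the defects, which may depend on the channel, dominates the squared chi-square
information.
-/

namespace Vale.Agent.P154.Anti

open Finset Filter Topology Vale.Agent.P154.Tree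

variable {q : ℕ} {ι κ : Type} {w : ℕ → ℝ} {d lam : ℝ} {a : Fin q → ℝ}

/-- Hellinger transforms do not decrease along a degradation. -/
theorem Ma_le_of_deg (ha : ∀ i, 0 ≤ a i) (ha1 : ∑ i, a i = 1) {X : ι → Fin q → ℝ}
    {Y : κ → Fin q → ℝ} (h : Deg X Y) (hX : IsChan X) (hY : IsChan Y) :
    Ma a Y ≤ Ma a X := by
  obtain ⟨K, h0, h1, h2⟩ := h
  set G : κ → ℝ := fun p => ex a (Y p)
  have hG : ∀ p, 0 ≤ G p := fun p => ex_nonneg a (hY.nonneg p)
  have hs2 : Summable fun x : κ × ι => K x.1 x.2 * G x.1 :=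
    (summable_prod_of_nonneg fun x => mul_nonneg (h0 _ _) (hG _)).2
      ⟨fun p => ((h1 p).mul_right (G p)).summable,
        (hasSum_Ma ha ha1 hY).summable.congr fun p => by
          rw [((h1 p).mul_right (G p)).tsum_eq, one_mul]⟩
  have hprod : HasSum (fun x : κ × ι => K x.1 x.2 * G x.1) (Ma a Y) := by
    have := hs2.hasSum.prod_fiberwise fun p => (h1 p).mul_right (G p)
    simp only [one_mul] at this
    rw [(hasSum_Ma ha ha1 hY).unique this]
    exact hs2.hasSum
  have hcol : ∀ o, Summable fun p => K p o * G p := fun o =>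
    hs2.comp_injective (i := fun p => (p, o)) fun _ _ hab => congrArg Prod.fst hab
  have hswap : HasSum (fun o => ∑' p, K p o * G p) (Ma a Y) :=
    ((Equiv.prodComm ι κ).hasSum_iff.2 hprod).prod_fiberwise fun o => (hcol o).hasSum
  refine hasSum_le (fun o => ?_) hswap (hasSum_Ma ha ha1 hX)
  have hsc : ∀ p, K p o * G p = ex a fun i => K p o * Y p i := fun p =>
    (ex_smul ha1 (h0 p o) (hY.nonneg p)).symm
  by_cases hz : ∀ i, a i ≠ 0 → 0 < X o i
  · set r : Fin q → ℝ := fun i => if a i = 0 then 1 else (X o i)⁻¹ with hr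
    have hr0 : ∀ i, 0 < r i := fun i => by
      by_cases hi : a i = 0
      · simp [hr, hi]
      · simp only [hr, if_neg hi]; exact inv_pos.2 (hz i hi)
    have hle : ∀ p, K p o * G p ≤ ∑ i, a i * r i / ex a r * (K p o * Y p i) := fun p => by
      rw [hsc p]
      refine (ex_le_tangent ha ha1 (fun i => mul_nonneg (h0 p o) (hY.nonneg p i)) hr0).trans_eq ?_
      rw [sum_div]
      exact sum_congr rfl fun i _ => by ring
    have hR := hasSum_sum (s := (univ : Finset (Fin q))) fun i _ =>
      (h2 o i).mul_left (a i * r i / ex a r)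
    refine (hasSum_le hle (hcol o).hasSum hR).trans_eq ?_
    have hone : ex a r * ex a (X o) = 1 := by
      simp only [ex, ← prod_mul_distrib]
      refine prod_eq_one fun i _ => ?_
      by_cases hi : a i = 0
      · simp [hi]
      · rw [← Real.mul_rpow (hr0 i).le (hX.nonneg o i)]
        simp only [hr, if_neg hi, inv_mul_cancel₀ (hz i hi).ne', Real.one_rpow]
    calc ∑ i, a i * r i / ex a r * X o i = ∑ i, a i / ex a r := sum_congr rfl fun i _ => by
          by_cases hi : a i = 0
          · simp [hi]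
          · simp only [hr, if_neg hi]
            have := (hz i hi).ne'
            field_simp
      _ = 1 / ex a r := by rw [← sum_div, ha1]
      _ = ex a (X o) := by
          rw [div_eq_iff (left_ne_zero_of_mul_eq_one hone), mul_comm, hone]
  · push Not at hz
    obtain ⟨i, hi, hx⟩ := hz
    have hx0 : X o i = 0 := le_antisymm hx (hX.nonneg o i)
    have hK := (hasSum_zero_iff_of_nonneg fun p => mul_nonneg (h0 p o) (hY.nonneg p i)).1
      (hx0 ▸ h2 o i)
    have hz' : ∀ p, K p o * G p = 0 := fun p => by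
      rw [hsc p]
      refine prod_eq_zero (mem_univ i) ?_
      show (K p o * Y p i) ^ a i = 0
      rw [show K p o * Y p i = 0 from congrFun hK p, Real.zero_rpow hi]
    simp [hz', ex_nonneg a (hX.nonneg o)]

/-- The transforms increase in the depth. -/
theorem monotone_Ma (hq : q ≠ 0) (hw : IsLaw w d) (hl : Adm q lam) (ha : ∀ i, 0 ≤ a i)
    (ha1 : ∑ i, a i = 1) : Monotone fun n => Ma a (lik q w lam n) :=
  monotone_nat_of_le_succ fun n => Ma_le_of_deg ha ha1 (deg_depth hq hw hl n)
    (isChan_lik hw hl (n + 1)) (isChan_lik hw hl n)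

/-- Every defect of the closed recursion tends to zero. -/
theorem tendsto_defect (hq : q ≠ 0) (hw : IsLaw w d) (hl : Adm q lam) (ha : ∀ i, 0 ≤ a i)
    (ha1 : ∑ i, a i = 1) :
    Tendsto (fun n => (1 - Ma a (lik q w lam n))
      - gen w (1 - Ma a (Tree.edge lam (lik q w lam n)))) atTop (𝓝 0) := by
  have hc : Tendsto (fun n => Ma a (lik q w lam n)) atTop (𝓝 (⨆ n, Ma a (lik q w lam n))) :=
    tendsto_atTop_ciSup (monotone_Ma hq hw hl ha ha1)
      ⟨1, by rintro _ ⟨n, rfl⟩; exact Ma_le_one ha ha1 (isChan_lik hw hl n)⟩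
  have h := (hc.comp (tendsto_add_atTop_nat 1)).sub hc
  rw [sub_self] at h
  refine h.congr fun n => ?_
  simp only [Function.comp_apply, ← one_sub_Ma_succ hw hl ha ha1 n]
  ring

/-- Nonreconstruction from combinations of the defects that may depend on the channel: at every
symmetric channel the absolute defects dominate the squared chi-square information. -/
theorem tendsto_adv_of_defects (hq : q ≠ 0) (hw : IsLaw w d) (hl : Adm q lam) {J : Type}
    [Fintype J] (A : J → Fin q → ℝ) (hA : ∀ j i, 0 ≤ A j i) (hA1 : ∀ j, ∑ i, A j i = 1) {t : ℝ}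
    (ht : 0 < t)
    (H : ∀ (ι : Type) (Y : ι → Fin q → ℝ), IsChan Y → IsSymm Y →
      t * total SS Y ^ 2
        ≤ ∑ j, |(1 - Ma (A j) Y) - gen w (1 - Ma (A j) (Tree.edge lam Y))|) :
    Tendsto (adv q w lam) atTop (𝓝 0) := by
  refine tendsto_adv_of_total_SS hw hl ?_
  set x : ℕ → ℝ := fun n => total SS (lik q w lam n) with hx
  have h0 := tendsto_finset_sum (univ : Finset J)
    fun j _ => (tendsto_defect hq hw hl (hA j) (hA1 j)).abs
  simp only [abs_zero, sum_const_zero] at h0
  have h1 : Tendsto (fun n => x n ^ 2) atTop (𝓝 0) := by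
    refine squeeze_zero (fun n => sq_nonneg _) (fun n => ?_)
      (by simpa using h0.const_mul t⁻¹)
    rw [← div_eq_inv_mul, le_div_iff₀ ht, mul_comm]
    exact H _ _ (isChan_lik hw hl n) (isSymm_lik w lam n)
  have h := h1.sqrt
  rw [Real.sqrt_zero] at h
  exact h.congr fun n => Real.sqrt_sq (total_SS_nonneg (isChan_lik hw hl n))

/-- The same with an explicit bounded family of combinations: each symmetric channel is covered
by one of the cells. -/
theorem tendsto_adv_of_cells (hq : q ≠ 0) (hw : IsLaw w d) (hl : Adm q lam) {J C : Type}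
    [Fintype J] (A : J → Fin q → ℝ) (hA : ∀ j i, 0 ≤ A j i) (hA1 : ∀ j, ∑ i, A j i = 1)
    (c : C → J → ℝ) {t B : ℝ} (ht : 0 < t) (hB : 0 < B) (hc : ∀ k j, |c k j| ≤ B)
    (H : ∀ (ι : Type) (Y : ι → Fin q → ℝ), IsChan Y → IsSymm Y → ∃ k,
      t * mean sqDev Y ^ 2 ≤ ∑ j, c k j *
        (mean (phi (A j)) Y - gen w (mean (fun u => phi (A j) (shrink lam u)) Y))) :
    Tendsto (adv q w lam) atTop (𝓝 0) := by
  have hq' : (0 : ℝ) < q := by exact_mod_cast Nat.pos_of_ne_zero hq
  refine tendsto_adv_of_defects hq hw hl A hA hA1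
    (div_pos (div_pos ht hB) (pow_pos hq' 2)) fun ι Y hY hYs => ?_
  obtain ⟨k, hk⟩ := H ι Y hY hYs
  simp only [one_sub_Ma (hA _) (hA1 _) hY hYs, one_sub_Ma_edge (hA _) (hA1 _) hl hY hYs]
  set D : J → ℝ := fun j => mean (phi (A j)) Y - gen w (mean (fun u => phi (A j) (shrink lam u)) Y)
  calc t / B / (q : ℝ) ^ 2 * total SS Y ^ 2 = t * mean sqDev Y ^ 2 / B := by
        rw [mean_sqDev]; field_simp
    _ ≤ (∑ j, c k j * D j) / B := div_le_div_of_nonneg_right hk hB.le
    _ ≤ (∑ j, B * |D j|) / B := by
        refine div_le_div_of_nonneg_right (sum_le_sum fun j _ => ?_) hB.le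
        exact (le_abs_self _).trans ((abs_mul _ _).trans_le
          (mul_le_mul_of_nonneg_right (hc k j) (abs_nonneg _)))
    _ = ∑ j, |D j| := by rw [← mul_sum]; field_simp

end Vale.Agent.P154.Anti
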