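import Vale.Agent.P154.Mono
import Vale.Agent.P154.Tree.Laws
import Mathlib.Data.Fin.VecNotation
import Mathlib.Tactic

/-!
# The potential criterion for nonreconstruction

A single pointwise inequality for a potential `F` on the simplex, with no side condition on
the channels, gives nonreconstruction up to the Kesten-Stigum bound.
-/

namespace Vale.Agent.P154.Anti

open Finset Filter Topology Vale.Agent.P154.Tree

variable {q : ℕ} {ι : Type} {w : ℕ → ℝ} {d lam a c : ℝ} {F : (Fin q → ℝ) → ℝ}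

/-- The hypotheses of the criterion at edge parameter `lam`. -/
structure Pot (q : ℕ) (lam : ℝ) (F : (Fin q → ℝ) → ℝ) (a c : ℝ) : Prop where
  apos : 0 < a
  cnn : 0 ≤ c
  bdd : ∃ K : ℝ, ∀ u : Fin q → ℝ, (∀ i, 0 ≤ u i) → ∑ i, u i = 1 → |F u| ≤ K
  uniform : F (fun _ => 1 / (q : ℝ)) = 0
  lower : ∀ u : Fin q → ℝ, (∀ i, 0 ≤ u i) → ∑ i, u i = 1 → a * sqDev u ≤ F u
  pair : ∀ u v : Fin q → ℝ, (∀ i, 0 ≤ u i) → ∑ i, u i = 1 → (∀ i, 0 ≤ v i) →
    ∑ i, v i = 1 →
    ∑ s : Equiv.Perm (Fin q), homExt F (fun i => u i * shrink lam v (s i))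
      ≤ (q.factorial : ℝ) / q * (F u + lam ^ 2 * F v - c * sqDev u * sqDev v)

theorem total_homExt_mul (k : ℝ) (f : (Fin q → ℝ) → ℝ) (X : ι → Fin q → ℝ) :
    total (homExt fun u => k * f u) X = k * total (homExt f) X := by
  simp only [total, homExt]
  rw [← tsum_mul_left]
  exact tsum_congr fun o => by ring

theorem total_homExt_one {X : ι → Fin q → ℝ} (hX : IsChan X) :
    total (homExt fun _ => (1 : ℝ)) X = q := by
  simp only [total, homExt, mul_one]
  exact hX.hasSum_mass.tsum_eq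

namespace Pot

theorem SS_le (h : Pot q lam F a c) {x : Fin q → ℝ} (hx : ∀ i, 0 ≤ x i) :
    a * SS x ≤ homExt F x := by
  rcases eq_or_ne (∑ i, x i) 0 with hz | hz
  · simp [SS, homExt, hz]
  obtain ⟨u0, u1⟩ := exists_unit hx hz
  have := mul_le_mul_of_nonneg_left (h.lower _ u0 u1)
    (show (0 : ℝ) ≤ ∑ i, x i from sum_nonneg fun i _ => hx i)
  simp only [SS, homExt]
  linarith

theorem total_SS_le (h : Pot q lam F a c) {X : ι → Fin q → ℝ} (hX : IsChan X) :
    a * total SS X ≤ total (homExt F) X := by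
  obtain ⟨K, hK⟩ := h.bdd
  exact hasSum_le (f := fun o => a * SS (X o)) (g := fun o => homExt F (X o))
    (fun o => h.SS_le (hX.nonneg o)) ((hX.summable massBdd_SS).hasSum.mul_left a)
    (hX.summable (massBdd_homExt hK)).hasSum

theorem total_nonneg (h : Pot q lam F a c) {X : ι → Fin q → ℝ} (hX : IsChan X) :
    0 ≤ total (homExt F) X :=
  le_trans (mul_nonneg h.apos.le (total_SS_nonneg hX)) (h.total_SS_le hX)

theorem total_one (h : Pot q lam F a c) : homExt F (fun _ : Fin q => (1 : ℝ)) = 0 := by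
  rcases Nat.eq_zero_or_pos q with hq | hq
  · subst hq; simp [homExt]
  · simp only [homExt, sum_const, card_univ, Fintype.card_fin, nsmul_eq_mul, mul_one]
    rw [h.uniform, mul_zero]

/-- Subadditivity of the total potential. -/
theorem total_mulEdge (h : Pot q lam F a c) (hq : q ≠ 0) {κ : Type} {X : ι → Fin q → ℝ}
    {Y : κ → Fin q → ℝ} (hX : IsChan X) (hY : IsChan Y) (hYs : IsSymm Y) (hl : Adm q lam) :
    total (homExt F) (mulChan X (Tree.edge lam Y))
      ≤ total (homExt F) X + lam ^ 2 * total (homExt F) Y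
        - c / q * (total SS X * total SS Y) := by
  have hq' : (q : ℝ) ≠ 0 := by exact_mod_cast hq
  obtain ⟨K, hK⟩ := h.bdd
  let f : Fin 3 → (Fin q → ℝ) → ℝ := ![F, fun _ => 1, sqDev]
  let g : Fin 3 → (Fin q → ℝ) → ℝ :=
    ![fun _ => 1 / (q : ℝ) * 1, fun v => lam ^ 2 / q * F v, fun v => -(c / q) * sqDev v]
  have hs : ∀ u : Fin q → ℝ, (∀ i, 0 ≤ u i) → ∑ i, u i = 1 → |sqDev u| ≤ 1 :=
    fun u u0 u1 => by
      rw [abs_of_nonneg (sum_nonneg fun i _ => sq_nonneg _)]
      exact sqDev_le_one u0 u1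
  have hf : ∀ l, ∀ u : Fin q → ℝ, (∀ i, 0 ≤ u i) → ∑ i, u i = 1 → |f l u| ≤ max K 1 := by
    intro l u u0 u1
    fin_cases l
    · exact (hK u u0 u1).trans (le_max_left _ _)
    · simp [f]
    · exact (hs u u0 u1).trans (le_max_right _ _)
  have hg : ∀ l, ∀ u : Fin q → ℝ, (∀ i, 0 ≤ u i) → ∑ i, u i = 1 →
      |g l u| ≤ 1 / q + |lam ^ 2 / q| * |K| + |c / q| := by
    intro l u u0 u1
    have e1 : (0 : ℝ) ≤ 1 / q := by positivity
    have e2 : 0 ≤ |lam ^ 2 / (q : ℝ)| * |K| := mul_nonneg (abs_nonneg _) (abs_nonneg _)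
    have e3 := abs_nonneg (c / (q : ℝ))
    fin_cases l
    · show |1 / (q : ℝ) * 1| ≤ _
      rw [mul_one, abs_of_nonneg e1]
      linarith
    · show |lam ^ 2 / (q : ℝ) * F u| ≤ _
      rw [abs_mul]
      have := mul_le_mul_of_nonneg_left ((hK u u0 u1).trans (le_abs_self K))
        (abs_nonneg (lam ^ 2 / (q : ℝ)))
      linarith
    · show |-(c / (q : ℝ)) * sqDev u| ≤ _
      rw [abs_mul, abs_neg]
      have := mul_le_mul_of_nonneg_left (hs u u0 u1) (abs_nonneg (c / (q : ℝ)))
      linarith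
  refine (total_mulEdge_le_simplex hX hY hYs hl hK f g hf hg fun u v u0 u1 v0 v1 => ?_).trans_eq ?_
  · refine (h.pair u v u0 u1 v0 v1).trans_eq ?_
    simp [Fin.sum_univ_three, f, g]
    field_simp
    ring
  · simp only [Fin.sum_univ_three, f, g, Matrix.cons_val_zero, Matrix.cons_val_one,
      Matrix.cons_val_two, Matrix.tail_cons, Matrix.head_cons, total_homExt_mul,
      total_homExt_one hX, total_homExt_one hY]
    have e : ∀ {α : Type} (Z : α → Fin q → ℝ), total (homExt sqDev) Z = total SS Z :=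
      fun _ => rfl
    rw [e, e]
    field_simp
    ring

/-- The products at a vertex. -/
theorem piChan_le (h : Pot q lam F a c) (hq : q ≠ 0) {Y : ι → Fin q → ℝ} (hY : IsChan Y)
    (hYs : IsSymm Y) (hl : Adm q lam) (k : ℕ) :
    total (homExt F) (piChan k (Tree.edge lam Y))
      ≤ k * (lam ^ 2 * total (homExt F) Y)
        - (if 2 ≤ k then c / q * (lam ^ 2 * total SS Y ^ 2) else 0) := by
  have hE := hY.edge' hl
  induction k with
  | zero => simp [total_piChan_zero, h.total_one]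
  | succ k ih =>
    have hX := isChan_piChan hE k
    have hstep := h.total_mulEdge hq hX hY hYs hl
    rw [piChan_succ, total_reindex]
    have hnn : 0 ≤ c / q * (total SS (piChan k (Tree.edge lam Y)) * total SS Y) :=
      mul_nonneg (div_nonneg h.cnn (Nat.cast_nonneg q))
        (mul_nonneg (total_SS_nonneg hX) (total_SS_nonneg hY))
    rcases k with _ | _ | k
    · norm_num at ih ⊢
      nlinarith
    · rw [show total SS (piChan (0 + 1) (Tree.edge lam Y)) = lam ^ 2 * total SS Y from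
        (total_piChan_one SS (Tree.edge lam Y)).trans (total_SS_edge lam Y)] at hstep
      norm_num at ih hstep ⊢
      nlinarith
    · rw [if_pos (by omega : 2 ≤ k + 1 + 1)] at ih
      rw [if_pos (by omega : 2 ≤ k + 1 + 1 + 1)]
      push_cast at ih ⊢
      nlinarith

/-- One generation. -/
theorem step (h : Pot q lam F a c) (hq : q ≠ 0) (hw : IsLaw w d) (hl : Adm q lam) (n : ℕ) :
    total (homExt F) (lik q w lam (n + 1))
      ≤ d * lam ^ 2 * total (homExt F) (lik q w lam n)
        - c / q * branchProb w * lam ^ 2 * total SS (lik q w lam n) ^ 2 := by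
  obtain ⟨K, hK⟩ := h.bdd
  have hT := total_succ hw hl (massBdd_homExt hK) n
  have hB : HasSum (fun k : ℕ => if 2 ≤ k then w k else 0) (branchProb w) :=
    (Summable.of_nonneg_of_le (fun k => by split_ifs <;> simp [hw.nonneg k])
      (fun k => by split_ifs <;> simp [hw.nonneg k]) hw.hasSum.summable).hasSum
  have hR := (hw.mean.mul_right (lam ^ 2 * total (homExt F) (lik q w lam n))).sub
    (hB.mul_right (c / q * (lam ^ 2 * total SS (lik q w lam n) ^ 2)))
  refine (hasSum_le (fun k => ?_) hT hR).trans_eq (by ring)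
  refine (mul_le_mul_of_nonneg_left
    (h.piChan_le hq (isChan_lik hw hl n) (isSymm_lik w lam n) hl k) (hw.nonneg k)).trans_eq ?_
  split_ifs <;> ring

end Pot

/-- The advantage vanishes when the chi-square information does. -/
theorem tendsto_adv_of_SS (hq : 0 < q) (hw : IsLaw w d) (hl : Adm q lam)
    (hS : Tendsto (fun n => total SS (lik q w lam n)) atTop (𝓝 0)) :
    Tendsto (adv q w lam) atTop (𝓝 0) := by
  refine tendsto_order.2 ⟨fun b hb => Eventually.of_forall fun n =>
    lt_of_lt_of_le hb (adv_nonneg q w lam n), fun b hb => ?_⟩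
  have hq' : (0 : ℝ) < q := by exact_mod_cast hq
  obtain ⟨ε, hε, hεb⟩ : ∃ ε > 0, (1 / (2 * (q : ℝ)) * (q * ε / 2 * q)) < b / 2 := by
    refine ⟨b / (q + 1), by positivity, ?_⟩
    field_simp
    nlinarith
  have hev := (tendsto_order.1 (hS.const_mul (1 / (2 * (q : ℝ)) * (1 / (2 * ε))))).2 (b / 2)
    (by simp only [mul_zero]; positivity)
  filter_upwards [hev] with n hn
  calc adv q w lam n ≤ _ := adv_le hw hl hε n
    _ < b := by nlinarith

/-- Nonreconstruction from a potential. -/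
theorem tendsto_adv_of_pot (h : Pot q lam F a c) (hw : IsLaw w d) (hl : Adm q lam)
    (hd : d * lam ^ 2 < 1 ∨ (d * lam ^ 2 ≤ 1 ∧ 0 < c ∧ 0 < branchProb w)) :
    Tendsto (adv q w lam) atTop (𝓝 0) := by
  rcases Nat.eq_zero_or_pos q with hq | hq
  · subst hq
    have : adv 0 w lam = fun _ => 0 := funext fun n => by simp [adv]
    rw [this]
    exact tendsto_const_nhds
  refine tendsto_adv_of_SS hq hw hl ?_
  set x : ℕ → ℝ := fun n => total (homExt F) (lik q w lam n)
  set y : ℕ → ℝ := fun n => total SS (lik q w lam n)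
  have hyn : ∀ n, 0 ≤ y n := fun n => total_SS_nonneg (isChan_lik hw hl n)
  have hxn : ∀ n, 0 ≤ x n := fun n => h.total_nonneg (isChan_lik hw hl n)
  have hyx : ∀ n, a * y n ≤ x n := fun n => h.total_SS_le (isChan_lik hw hl n)
  have hB : 0 ≤ branchProb w := tsum_nonneg fun k => by split_ifs <;> simp [hw.nonneg k]
  set K : ℝ := c / q * branchProb w * lam ^ 2
  have hK : 0 ≤ K := mul_nonneg (mul_nonneg (div_nonneg h.cnn (Nat.cast_nonneg q)) hB)
    (sq_nonneg lam)
  have hstep : ∀ n, x (n + 1) ≤ d * lam ^ 2 * x n - K * y n ^ 2 :=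
    fun n => h.step hq.ne' hw hl n
  have hd0 : 0 ≤ d := hw.mean.nonneg fun k => mul_nonneg (Nat.cast_nonneg k) (hw.nonneg k)
  have hanti : Antitone x := antitone_nat_of_succ_le fun n => by
    have h1 : d * lam ^ 2 ≤ 1 := hd.elim le_of_lt fun e => e.1
    nlinarith [hstep n, hxn n, mul_nonneg hK (sq_nonneg (y n))]
  have hbdd : BddBelow (Set.range x) := ⟨0, by rintro _ ⟨n, rfl⟩; exact hxn n⟩
  have hlim := tendsto_atTop_ciInf hanti hbdd
  set L := ⨅ n, x n
  have hsq : ∀ hgap : d * lam ^ 2 < 1, Tendsto y atTop (𝓝 0) := fun hgap => by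
    have hL0 : 0 ≤ L := ge_of_tendsto' hlim hxn
    have hL : L ≤ d * lam ^ 2 * L :=
      le_of_tendsto_of_tendsto' (hlim.comp (tendsto_add_atTop_nat 1)) (hlim.const_mul _)
        fun n => (hstep n).trans (by nlinarith [mul_nonneg hK (sq_nonneg (y n))])
    have hLz : L = 0 := by nlinarith
    rw [hLz] at hlim
    refine squeeze_zero hyn (fun n => ?_) (by simpa using hlim.div_const a)
    rw [le_div_iff₀ h.apos, mul_comm]
    exact hyx n
  rcases hd with hgap | ⟨hle, hc, hb⟩
  · exact hsq hgap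
  rcases eq_or_ne lam 0 with hz | hz
  · exact hsq (by rw [hz]; norm_num)
  have hKp : 0 < K := by
    have : (0 : ℝ) < q := by exact_mod_cast hq
    positivity
  have hdiff : Tendsto (fun n => (x n - x (n + 1)) / K) atTop (𝓝 0) := by
    simpa using (hlim.sub (hlim.comp (tendsto_add_atTop_nat 1))).div_const K
  have hy2 : Tendsto (fun n => y n ^ 2) atTop (𝓝 0) := by
    refine squeeze_zero (fun n => sq_nonneg _) (fun n => ?_) hdiff
    rw [le_div_iff₀ hKp]
    nlinarith [hstep n, hxn n]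
  have := (Real.continuous_sqrt.tendsto 0).comp hy2
  simp only [Real.sqrt_zero] at this
  exact this.congr fun n => Real.sqrt_sq (hyn n)

/-- A potential at `lam` gives nonreconstruction at every `mu` of the same sign with
`|mu| ≤ |lam|`, as soon as `d * lam ^ 2 ≤ 1`. -/
theorem tendsto_adv_of_pot_le {mu : ℝ} (h : Pot q lam F a c) (hw : IsLaw w d) (hl : Adm q lam)
    (hd : d * lam ^ 2 < 1 ∨ (d * lam ^ 2 ≤ 1 ∧ 0 < c ∧ 0 < branchProb w))
    (hs : 0 ≤ mu * lam) (habs : |mu| ≤ |lam|) : Tendsto (adv q w mu) atTop (𝓝 0) :=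
  tendsto_adv_of_abs_le hw hl hs habs (tendsto_adv_of_pot h hw hl hd)

/-- Regular trees. -/
theorem regular_of_pot {d : ℕ} (hd : 2 ≤ d) (h : Pot q lam F a c) (hc : 0 < c) (hl : Adm q lam)
    (hks : (d : ℝ) * lam ^ 2 ≤ 1) : Tendsto (adv q (regLaw d) lam) atTop (𝓝 0) :=
  tendsto_adv_of_pot h (isLaw_regLaw d) hl
    (Or.inr ⟨hks, hc, by rw [branchProb_regLaw hd]; exact one_pos⟩)

/-- Poisson trees. -/
theorem poisson_of_pot {d : ℝ} (hd : 0 ≤ d) (h : Pot q lam F a c) (hc : 0 < c) (hl : Adm q lam)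
    (hks : d * lam ^ 2 ≤ 1) : Tendsto (adv q (poissonLaw d) lam) atTop (𝓝 0) := by
  refine tendsto_adv_of_pot h (isLaw_poissonLaw hd) hl ?_
  rcases hd.eq_or_lt with e | e
  · left
    rw [← e]
    norm_num
  · exact Or.inr ⟨hks, hc, branchProb_poissonLaw_pos e⟩

end Vale.Agent.P154.Anti
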