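import Vale.Agent.P154.Anti.CertCheck
import Vale.Agent.P154.Anti.Pot
import Mathlib.Data.Fin.Tuple.Sort

/-!
# The potential for antiferromagnetic three-state channels with `-1/9 ≤ lam ≤ 0`
-/

namespace Vale.Agent.P154.Anti

open Finset Filter Topology Vale.Agent.P154.Tree
open Vale.Agent.P154.Q3 (Ex)

/-- Cast of integer constants. -/
def kC (z : ℤ) : ℝ := (z : ℝ)

theorem ev_p5T (x : Fin 6 → ℝ) (a : Ex) : Ex.ev x (p5T a) = p5T (Ex.ev x a) := by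
  simp [p5T, p4T, sq2T]

theorem ev_p4T (x : Fin 6 → ℝ) (a : Ex) : Ex.ev x (p4T a) = p4T (Ex.ev x a) := by
  simp [p4T, sq2T]

theorem ev_p6T (x : Fin 6 → ℝ) (a : Ex) : Ex.ev x (p6T a) = p6T (Ex.ev x a) := by
  simp [p6T, p4T, sq2T]

theorem ev_sum3 (x : Fin 6 → ℝ) (a b c : Ex) :
    Ex.ev x (Q3.sumT a b c) = Q3.sumT (Ex.ev x a) (Ex.ev x b) (Ex.ev x c) := by
  simp [Q3.sumT]

theorem ev_dev3 (x : Fin 6 → ℝ) (a b c : Ex) :
    Ex.ev x (Q3.devT Ex.num a b c) = Q3.devT kC (Ex.ev x a) (Ex.ev x b) (Ex.ev x c) := by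
  simp [Q3.devT, Q3.sumT, Q3.compT, kC]

theorem ev_cub3 (x : Fin 6 → ℝ) (a b c : Ex) :
    Ex.ev x (Q3.cubT Ex.num a b c) = Q3.cubT kC (Ex.ev x a) (Ex.ev x b) (Ex.ev x c) := by
  simp [Q3.cubT, Q3.prodT, ev_sum3, ev_dev3, kC]

theorem ev_gPot (x : Fin 6 → ℝ) (a b c : Ex) :
    Ex.ev x (gPot Ex.num a b c) = gPot kC (Ex.ev x a) (Ex.ev x b) (Ex.ev x c) := by
  simp [gPot, ev_p4T, sq2T, ev_sum3, ev_dev3, ev_cub3, kC]

theorem ev_vEdge (x : Fin 6 → ℝ) (a b : Ex) :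
    Ex.ev x (vEdge Ex.num a b) = vEdge kC (Ex.ev x a) (Ex.ev x b) := by
  simp [vEdge, kC]

theorem ev_rotT (x : Fin 6 → ℝ) (t0 t1 t2 U V g0 g1 g2 : Ex) :
    Ex.ev x (rotT Ex.num t0 t1 t2 U V g0 g1 g2) = rotT kC (Ex.ev x t0) (Ex.ev x t1)
      (Ex.ev x t2) (Ex.ev x U) (Ex.ev x V) (Ex.ev x g0) (Ex.ev x g1) (Ex.ev x g2) := by
  simp [rotT, ev_p5T, kC]

theorem ev_pairT (x : Fin 6 → ℝ) (a b c a' b' c' : Ex) :
    Ex.ev x (pairT Ex.num a b c a' b' c') = pairT kC (Ex.ev x a) (Ex.ev x b) (Ex.ev x c)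
      (Ex.ev x a') (Ex.ev x b') (Ex.ev x c') := by
  simp only [pairT, Ex.ev_sub, Ex.ev_add, Ex.ev_mul, Ex.ev_num, ev_rotT, ev_p5T, ev_p6T,
    ev_p4T, ev_gPot, ev_dev3, ev_vEdge, ev_sum3]
  rfl

/-- The sum of pairwise products. -/
def e2Of (u : Fin 3 → ℝ) : ℝ := u 0 * u 1 + u 1 * u 2 + u 2 * u 0

/-- The second moment of the deviation, normalised to one at a point mass. -/
def aOf (u : Fin 3 → ℝ) : ℝ := 1 - 3 * e2Of u

/-- Twice the third moment of the deviation. -/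
def cOf2 (u : Fin 3 → ℝ) : ℝ := 27 * (u 0 * u 1 * u 2) - 1 + 3 * aOf u

/-- The potential `A + (5 A² + 24 s² - 18 A s) / 69`. -/
noncomputable def anti3 (u : Fin 3 → ℝ) : ℝ :=
  aOf u + (5 * aOf u ^ 2 + 6 * cOf2 u ^ 2 - 9 * (aOf u * cOf2 u)) / 69

theorem gPot_simplex {u : Fin 3 → ℝ} (hu : u 0 + u 1 + u 2 = 1) :
    gPot kC (u 0) (u 1) (u 2) = 276 * anti3 u := by
  simp only [gPot, p4T, sq2T, Q3.sumT, Q3.devT, Q3.compT, Q3.cubT, Q3.prodT, kC, hu, anti3,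
    cOf2, aOf, e2Of]
  push_cast
  ring

theorem devT_simplex {u : Fin 3 → ℝ} (hu : u 0 + u 1 + u 2 = 1) :
    Q3.devT kC (u 0) (u 1) (u 2) = aOf u := by
  simp only [Q3.sumT, Q3.devT, Q3.compT, kC, hu, aOf, e2Of]
  push_cast
  ring

theorem gPot_scale (t a b c : ℝ) :
    gPot kC (t * a) (t * b) (t * c) = t ^ 6 * gPot kC a b c := by
  simp only [gPot, p4T, sq2T, Q3.sumT, Q3.devT, Q3.compT, Q3.cubT, Q3.prodT, kC]
  push_cast
  ring

theorem gPot_pos {z : Fin 3 → ℝ} (hz : z 0 + z 1 + z 2 ≠ 0) :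
    gPot kC (z 0) (z 1) (z 2)
      = 276 * (z 0 + z 1 + z 2) ^ 5 * homExt anti3 z := by
  have hsum : (∑ j, z j) = z 0 + z 1 + z 2 := Fin.sum_univ_three z
  set T := z 0 + z 1 + z 2 with hT
  have h1 := gPot_simplex (u := fun i => z i / T) (by
    show z 0 / T + z 1 / T + z 2 / T = 1
    rw [← add_div, ← add_div, div_self hz])
  have h2 := gPot_scale T (z 0 / T) (z 1 / T) (z 2 / T)
  rw [mul_div_cancel₀ _ hz, mul_div_cancel₀ _ hz, mul_div_cancel₀ _ hz] at h2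
  rw [h2, h1, homExt, hsum]
  ring

/-- The second factor after the edge, for the three rotations. -/
noncomputable def rotV (u v : Fin 3 → ℝ) : Fin 3 → Fin 3 → ℝ :=
  let w := shrink (-(1 / 9 : ℝ)) v
  ![![u 0 * w 0, u 1 * w 1, u 2 * w 2], ![u 0 * w 1, u 1 * w 2, u 2 * w 0],
    ![u 0 * w 2, u 1 * w 0, u 2 * w 1]]

theorem shrink_ninth_pos {v : Fin 3 → ℝ} (h1 : v 0 + v 1 + v 2 = 1) (h : ∀ i, 0 ≤ v i)
    (i : Fin 3) : 7 / 27 ≤ shrink (-(1 / 9 : ℝ)) v i := by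
  have : v i ≤ 1 := by
    have h2 := single_le_sum (fun j _ => h j) (mem_univ i)
    rw [Fin.sum_univ_three] at h2
    linarith
  unfold shrink
  push_cast
  linarith

theorem pairT_eq (a b c a' b' c' : ℝ) (hU : a + b + c = 1) (hV : a' + b' + c' = 1) :
    pairT kC a b c a' b' c' =
      27 * ((a * vEdge kC 1 a' + b * vEdge kC 1 b' + c * vEdge kC 1 c') ^ 5
          * (a * vEdge kC 1 b' + b * vEdge kC 1 c' + c * vEdge kC 1 a') ^ 5
          * (a * vEdge kC 1 c' + b * vEdge kC 1 a' + c * vEdge kC 1 b') ^ 5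
          * (4050 * gPot kC a b c + 50 * gPot kC a' b' c'
            - 4 * (Q3.devT kC a b c * Q3.devT kC a' b' c')))
        - 4050 *
          (gPot kC (a * vEdge kC 1 a') (b * vEdge kC 1 b') (c * vEdge kC 1 c')
              * ((a * vEdge kC 1 b' + b * vEdge kC 1 c' + c * vEdge kC 1 a') ^ 5
                * (a * vEdge kC 1 c' + b * vEdge kC 1 a' + c * vEdge kC 1 b') ^ 5)
            + gPot kC (a * vEdge kC 1 b') (b * vEdge kC 1 c') (c * vEdge kC 1 a')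
              * ((a * vEdge kC 1 a' + b * vEdge kC 1 b' + c * vEdge kC 1 c') ^ 5
                * (a * vEdge kC 1 c' + b * vEdge kC 1 a' + c * vEdge kC 1 b') ^ 5)
            + gPot kC (a * vEdge kC 1 c') (b * vEdge kC 1 a') (c * vEdge kC 1 b')
              * ((a * vEdge kC 1 a' + b * vEdge kC 1 b' + c * vEdge kC 1 c') ^ 5
                * (a * vEdge kC 1 b' + b * vEdge kC 1 c' + c * vEdge kC 1 a') ^ 5)) := by
  have h : ∀ x : ℝ, p5T x = x ^ 5 := fun x => by simp only [p5T, p4T, sq2T]; ring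
  have h4 : p4T (1 : ℝ) = 1 := by simp [p4T, sq2T]
  have h6 : p6T (1 : ℝ) = 1 := by simp [p6T, p4T, sq2T]
  have k1 : kC 27 = 27 ∧ kC 4050 = 4050 ∧ kC 50 = 50 ∧ kC 4 = 4 := by
    simp [kC]
  simp only [pairT, rotT, Q3.sumT, hU, hV, h, h4, h6, k1.1, k1.2.1, k1.2.2.1, k1.2.2.2,
    mul_one, one_pow]

theorem rot_algebra {T0 T1 T2 G Gv D X0 X1 X2 : ℝ} (h0 : 0 < T0) (h1 : 0 < T1) (h2 : 0 < T2)
    (hP : 0 ≤ 27 * ((27 * T0) ^ 5 * (27 * T1) ^ 5 * (27 * T2) ^ 5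
        * (4050 * (276 * G) + 50 * (276 * Gv) - 4 * D))
      - 4050 * (276 * 27 ^ 6 * T0 ^ 5 * X0 * ((27 * T1) ^ 5 * (27 * T2) ^ 5)
        + 276 * 27 ^ 6 * T1 ^ 5 * X1 * ((27 * T0) ^ 5 * (27 * T2) ^ 5)
        + 276 * 27 ^ 6 * T2 ^ 5 * X2 * ((27 * T0) ^ 5 * (27 * T1) ^ 5))) :
    X0 + X1 + X2 ≤ G + 1 / 81 * Gv - 4 / 1117800 * D := by
  have h : 0 < 27 ^ 16 * (4050 * 276) * (T0 ^ 5 * T1 ^ 5 * T2 ^ 5) := by positivity
  have e : 0 ≤ (27 ^ 16 * (4050 * 276) * (T0 ^ 5 * T1 ^ 5 * T2 ^ 5)) *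
      (G + 1 / 81 * Gv - 4 / 1117800 * D - (X0 + X1 + X2)) :=
    le_trans hP (le_of_eq (by ring))
  linarith [nonneg_of_mul_nonneg_right e h]

/-- The inequality over a rotation class, given the polynomial inequality. -/
theorem rot_le {u v : Fin 3 → ℝ} (hu : ∀ i, 0 ≤ u i) (hu1 : u 0 + u 1 + u 2 = 1)
    (hv : ∀ i, 0 ≤ v i) (hv1 : v 0 + v 1 + v 2 = 1)
    (hP : 0 ≤ pairT kC (u 0) (u 1) (u 2) (v 0) (v 1) (v 2)) :
    homExt anti3 (rotV u v 0) + homExt anti3 (rotV u v 1) + homExt anti3 (rotV u v 2)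
      ≤ anti3 u + 1 / 81 * anti3 v - 4 / 1117800 * (aOf u * aOf v) := by
  set w := shrink (-(1 / 9 : ℝ)) v with hw
  have hpos : ∀ r : Fin 3, 0 < rotV u v r 0 + rotV u v r 1 + rotV u v r 2 := by
    intro r
    have hs := shrink_ninth_pos hv1 hv
    have a0 := mul_le_mul_of_nonneg_left (hs 0) (hu 0)
    have a1 := mul_le_mul_of_nonneg_left (hs 1) (hu 1)
    have a2 := mul_le_mul_of_nonneg_left (hs 2) (hu 2)
    have b0 := mul_le_mul_of_nonneg_left (hs 1) (hu 0)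
    have b1 := mul_le_mul_of_nonneg_left (hs 2) (hu 1)
    have b2 := mul_le_mul_of_nonneg_left (hs 0) (hu 2)
    have c0 := mul_le_mul_of_nonneg_left (hs 2) (hu 0)
    have c1 := mul_le_mul_of_nonneg_left (hs 0) (hu 1)
    have c2 := mul_le_mul_of_nonneg_left (hs 1) (hu 2)
    fin_cases r <;> simp [rotV] <;> linarith
  have e : ∀ i, vEdge kC 1 (v i) = 27 * w i := fun i => by
    simp only [vEdge, kC, hw, shrink]
    push_cast
    ring
  have key : ∀ r : Fin 3,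
      gPot kC (27 * rotV u v r 0) (27 * rotV u v r 1) (27 * rotV u v r 2)
        = 276 * 27 ^ 6 * (rotV u v r 0 + rotV u v r 1 + rotV u v r 2) ^ 5
          * homExt anti3 (rotV u v r) := by
    intro r
    rw [gPot_scale, gPot_pos (hpos r).ne']
    ring
  have k0 := key 0
  have k1 := key 1
  have k2 := key 2
  have p0 := hpos 0
  have p1 := hpos 1
  have p2 := hpos 2
  rw [pairT_eq _ _ _ _ _ _ hu1 hv1] at hP
  simp only [rotV, ← hw, Matrix.cons_val_zero, Matrix.cons_val_one, Matrix.cons_val]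
    at k0 k1 k2 p0 p1 p2 ⊢
  refine rot_algebra p0 p1 p2 ?_
  rw [← gPot_simplex hu1, ← gPot_simplex hv1, ← devT_simplex hu1, ← devT_simplex hv1,
    ← k0, ← k1, ← k2]
  simp only [e] at hP
  simp only [mul_add]
  simp only [mul_left_comm (27 : ℝ)]
  simp only [mul_add] at hP
  exact le_of_le_of_eq hP (congrArg (· - _) (mul_left_comm _ _ _))

end Vale.Agent.P154.Anti
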