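import Vale.Agent.P154.Q3.Kron

/-!
# A sliced Kronecker check

As `Q3.check`, but one variable is kept symbolic, so the integers stay small.
-/

namespace Vale.Agent.P154.Anti

open Finset Vale.Agent.P154.Q3

/-- Sum of two coefficient lists. -/
def addL : List ℤ → List ℤ → List ℤ
  | [], l => l
  | a :: l, [] => a :: l
  | a :: l, b :: m => (a + b) :: addL l m

/-- Product of two coefficient lists. -/
def mulL : List ℤ → List ℤ → List ℤ
  | [], _ => []
  | a :: l, m => addL (m.map (a * ·)) (0 :: mulL l m)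

/-- Value at a point. -/
def valL (B : ℤ) : List ℤ → ℤ
  | [] => 0
  | a :: l => a + B * valL B l

/-- Evaluation with the last variable symbolic. -/
def evL (x : Fin 6 → ℤ) : Ex → List ℤ
  | Ex.num z => [z]
  | Ex.var i => if i.val = 5 then [0, 1] else [x i]
  | Ex.add a b => addL (evL x a) (evL x b)
  | Ex.mul a b => mulL (evL x a) (evL x b)

/-- The exponents. -/
def sExp (D1 D2 dep : ℕ) (i : Fin 6) : ℕ :=
  if i.val = 5 then 2 ^ dep else kExp D1 D2 i

/-- One slice. -/
def sliceOk (K dep : ℕ) : ℤ → Bool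
  | Int.ofNat N => digitsSmall K dep N
  | Int.negSucc _ => false

/-- The check. -/
def checkL (K D1 D2 dep : ℕ) (e : Ex) : Bool :=
  match Ex.bideg e with
  | some p =>
    decide (0 < K) && decide (p.1 < D1) && decide (p.2 < D2) && decide (2 * Ex.nrm e < 2 ^ K) &&
      decide (D1 * D1 * D2 ≤ 2 ^ dep) &&
      (evL (fun i => ((2 ^ (K * kExp D1 D2 i) : ℕ) : ℤ)) e).all (sliceOk K dep)
  | none => false

theorem valL_add (B : ℤ) : ∀ l m : List ℤ, valL B (addL l m) = valL B l + valL B m
  | [], l => by simp [addL, valL]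
  | a :: l, [] => by simp [addL, valL]
  | a :: l, b :: m => by
    simp only [addL, valL, valL_add B l m]
    ring

theorem valL_map (B a : ℤ) : ∀ l : List ℤ, valL B (l.map (a * ·)) = a * valL B l
  | [] => by simp [valL]
  | b :: l => by
    simp only [List.map_cons, valL, valL_map B a l]
    ring

theorem valL_mul (B : ℤ) : ∀ l m : List ℤ, valL B (mulL l m) = valL B l * valL B m
  | [], m => by simp [mulL, valL]
  | a :: l, m => by
    simp only [mulL, valL, valL_add, valL_map, valL_mul B l m]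
    ring

theorem valL_evL (x y : Fin 6 → ℤ) (B : ℤ) (hy : ∀ i, y i = if i.val = 5 then B else x i) :
    ∀ e : Ex, valL B (evL x e) = Ex.ev y e
  | Ex.num z => by simp [evL, valL, Ex.ev]
  | Ex.var i => by
    rw [evL, Ex.ev, hy i]
    split_ifs <;> simp [valL]
  | Ex.add a b => by
    rw [evL, Ex.ev, valL_add, valL_evL x y B hy a, valL_evL x y B hy b]
  | Ex.mul a b => by
    rw [evL, Ex.ev, valL_mul, valL_evL x y B hy a, valL_evL x y B hy b]

theorem exists_slices {K dep : ℕ} : ∀ l : List ℤ, l.all (sliceOk K dep) = true →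
    ∃ R : Polynomial ℤ, (∀ n, 0 ≤ R.coeff n ∧ R.coeff n < 2 ^ (K - 1)) ∧
      R.eval ((2 : ℤ) ^ K) = valL ((2 : ℤ) ^ (K * 2 ^ dep)) l
  | [], _ => ⟨0, fun n => by simp, by simp [valL]⟩
  | a :: l, h => by
    simp only [List.all_cons, Bool.and_eq_true] at h
    obtain ⟨R2, b2, e2⟩ := exists_slices l h.2
    match a, h.1 with
    | Int.ofNat N, h1 =>
      obtain ⟨R1, b1, s1, e1⟩ := exists_digits dep N h1
      refine ⟨R1 + R2 * Polynomial.X ^ (2 ^ dep), fun n => ?_, ?_⟩
      · rw [Polynomial.coeff_add, Polynomial.coeff_mul_X_pow']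
        split_ifs with hle
        · rw [s1 n hle, zero_add]
          exact b2 _
        · rw [add_zero]
          exact b1 n
      · rw [Polynomial.eval_add, Polynomial.eval_mul, Polynomial.eval_pow, Polynomial.eval_X,
          e1, e2, ← pow_mul, valL]
        push_cast
        rw [mul_comm (valL _ l)]
        rfl
    | Int.negSucc _, h1 => exact absurd h1 (by simp [sliceOk])

/-- A checked expression is nonnegative at nonnegative points. -/
theorem ev_nonneg_of_checkL {K D1 D2 dep : ℕ} {e : Ex} (h : checkL K D1 D2 dep e = true)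
    (x : Fin 6 → ℝ) (hx : ∀ i, 0 ≤ x i) : 0 ≤ Ex.ev x e := by
  unfold checkL at h
  split at h
  swap
  · simp at h
  rename_i p hp
  simp only [Bool.and_eq_true, decide_eq_true_eq] at h
  obtain ⟨⟨⟨⟨⟨hK0, hd1⟩, hd2⟩, hK⟩, hM⟩, hdig⟩ := h
  obtain ⟨R, hb, hRe⟩ := exists_slices _ hdig
  set P : MvPolynomial (Fin 6) ℤ := Ex.ev MvPolynomial.X e with hP
  set Q : Polynomial ℤ := Ex.ev (fun i => Polynomial.X ^ sExp D1 D2 dep i) e with hQ
  have hQe : Q.eval ((2 : ℤ) ^ K) = R.eval ((2 : ℤ) ^ K) := by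
    show Polynomial.evalRingHom ((2 : ℤ) ^ K) Q = _
    rw [hQ, Ex.map_ev, hRe]
    symm
    refine valL_evL _ _ _ (fun i => ?_) e
    unfold sExp
    split_ifs <;> simp [← pow_mul]
  have hQnn : ∀ n, 0 ≤ Q.coeff n := by
    intro n
    have hK' : (2 * (Ex.nrm e : ℤ)) < 2 ^ K := by exact_mod_cast hK
    have hK1 : (2 : ℤ) ^ (K - 1) * 2 = 2 ^ K := by
      rw [← pow_succ, Nat.sub_add_cancel hK0]
    have := eq_zero_of_eval (B := (2 : ℤ) ^ K) n (Q - R) (fun m => by
      rw [Polynomial.coeff_sub]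
      have h1 := Ex.coeff_abs_le (sExp D1 D2 dep) e m
      rw [← hQ] at h1
      have h2 := hb m
      rw [abs_lt]
      rw [abs_le] at h1
      constructor <;> linarith) (by simp [hQe])
    rw [Polynomial.coeff_sub, sub_eq_zero] at this
    rw [this]
    exact (hb n).1
  have hhom := Ex.isHom e p hp
  rw [← hP] at hhom
  let idx : (Fin 6 →₀ ℕ) → ℕ := fun m => ∑ i, sExp D1 D2 dep i * m i
  have hidx : ∀ m, idx m = m 1 + D1 * m 2 + D1 * D1 * m 4 + 2 ^ dep * m 5 := by
    intro m
    simp [idx, Fin.sum_univ_six, sExp, kExp]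
  have hQP : Q = ∑ m ∈ P.support, Polynomial.C (P.coeff m) * Polynomial.X ^ idx m := by
    have : Q = MvPolynomial.eval₂Hom Polynomial.C
        (fun i => Polynomial.X ^ sExp D1 D2 dep i) P := by
      rw [hP, Ex.map_ev]
      simp [hQ]
    rw [this, MvPolynomial.coe_eval₂Hom, MvPolynomial.eval₂_eq']
    refine sum_congr rfl fun m _ => ?_
    simp only [← pow_mul, prod_pow_eq_pow_sum, idx]
  have hinj : ∀ m ∈ P.support, ∀ m' ∈ P.support, idx m = idx m' → m = m' := by
    intro m hm m' hm' he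
    have w1 := hhom (MvPolynomial.mem_support_iff.1 hm)
    have w2 := hhom (MvPolynomial.mem_support_iff.1 hm')
    rw [weight_eq, Prod.ext_iff] at w1 w2
    simp only [] at w1 w2
    rw [hidx, hidx] at he
    have step : ∀ D a a' b b' : ℕ, a < D → a' < D → a + D * b = a' + D * b' →
        a = a' ∧ b = b' := by
      intro D a a' b b' ha ha' hab
      have h1 := congrArg (· % D) hab
      simp only [Nat.add_mul_mod_self_left, Nat.mod_eq_of_lt ha, Nat.mod_eq_of_lt ha'] at h1
      subst h1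
      exact ⟨rfl, Nat.eq_of_mul_eq_mul_left (lt_of_le_of_lt (Nat.zero_le _) ha)
        (Nat.add_left_cancel hab)⟩
    have hlow : ∀ a b c : ℕ, a < D1 → b < D1 → c < D2 →
        a + D1 * b + D1 * D1 * c < 2 ^ dep := by
      intro a b c ha hb' hc
      refine lt_of_lt_of_le ?_ hM
      calc a + D1 * b + D1 * D1 * c < D1 + D1 * b + D1 * D1 * c := by omega
        _ = D1 * (b + 1) + D1 * D1 * c := by ring
        _ ≤ D1 * D1 + D1 * D1 * c :=
            Nat.add_le_add_right (Nat.mul_le_mul_left _ hb') _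
        _ = D1 * D1 * (c + 1) := by ring
        _ ≤ D1 * D1 * D2 := Nat.mul_le_mul_left _ hc
    obtain ⟨r, q5⟩ := step (2 ^ dep) (m 1 + D1 * m 2 + D1 * D1 * m 4)
      (m' 1 + D1 * m' 2 + D1 * D1 * m' 4) (m 5) (m' 5)
      (hlow _ _ _ (by omega) (by omega) (by omega))
      (hlow _ _ _ (by omega) (by omega) (by omega)) (by linarith)
    obtain ⟨q1, r1⟩ := step D1 (m 1) (m' 1) (m 2 + D1 * m 4) (m' 2 + D1 * m' 4)
      (by omega) (by omega) (by linarith)
    obtain ⟨q2, q4⟩ := step D1 (m 2) (m' 2) (m 4) (m' 4) (by omega) (by omega) r1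
    refine Finsupp.ext fun i => ?_
    fin_cases i <;> first | assumption | (show m 0 = m' 0; omega) | (show m 3 = m' 3; omega)
  have hcoeff : ∀ m ∈ P.support, 0 ≤ P.coeff m := by
    intro m hm
    have h1 := hQnn (idx m)
    rw [hQP, Polynomial.finsetSum_coeff] at h1
    simp only [Polynomial.coeff_C_mul, Polynomial.coeff_X_pow] at h1
    rw [sum_eq_single m] at h1
    · simpa using h1
    · intro m' hm' hne
      rw [if_neg (fun hi => hne (hinj m' hm' m hm hi.symm)), mul_zero]
    · exact fun hnot => absurd hm hnot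
  have hev : Ex.ev x e = MvPolynomial.eval₂Hom (Int.castRingHom ℝ) x P := by
    rw [hP, Ex.map_ev]
    simp
  rw [hev, MvPolynomial.coe_eval₂Hom, MvPolynomial.eval₂_eq']
  exact sum_nonneg fun m hm => mul_nonneg (by simpa using hcoeff m hm)
    (prod_nonneg fun i _ => pow_nonneg (hx i) _)

end Vale.Agent.P154.Anti
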