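import Vale.Agent.P154.Anti.CertExpr
import Vale.Agent.P154.Anti.KronSlice

/-!
# The two kernel checks
-/

namespace Vale.Agent.P154.Anti

open Vale.Agent.P154.Q3

theorem check_rot : checkL 192 22 22 14
    (pairT Ex.num (su3 0) (su3 1) (su3 2) (sv3 0) (sv3 1) (sv3 2)) = true := by decide +kernel

theorem check_refl : checkL 192 22 22 14
    (pairT Ex.num (su3 0) (su3 1) (su3 2) (sv3 0) (sv3 2) (sv3 1)) = true := by decide +kernel

end Vale.Agent.P154.Anti
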