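import Vale.Agent.P154.Q3.Exprs

/-!
# The polynomial of the pair inequality at edge parameter `-1/9`

For `u`, `v` in a sector of the simplex, three relabellings of the second argument forming a
rotation class are treated together.
-/

namespace Vale.Agent.P154.Anti

open Vale.Agent.P154.Q3

section Hom

variable {R : Type} [Add R] [Mul R] [Sub R] (k : ℤ → R)

/-- Square of a sum. -/
def sq2T (x : R) : R := x * x
/-- Fourth power. -/
def p4T (x : R) : R := sq2T x * sq2T x
/-- Fifth power. -/
def p5T (x : R) : R := p4T x * x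
/-- Sixth power. -/
def p6T (x : R) : R := p4T x * sq2T x

/-- `276` times the potential, homogenised to degree six. -/
def gPot (x y z : R) : R :=
  let S := sumT x y z
  let A := devT k x y z
  let C := cubT k x y z
  k 276 * (A * p4T S) + k 20 * (A * A * sq2T S) + k 24 * (C * C) - k 36 * (A * C * S)

/-- `27` times the coordinate after the edge, homogenised. -/
def vEdge (V b : R) : R := k 10 * V - k 3 * b

/-- The cleared numerator of the sum over three rotations. -/
def rotT (t0 t1 t2 : R) (U V : R) (g0 g1 g2 : R) : R :=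
  k 4050 * ((g0 * (p5T t1 * p5T t2) + g1 * (p5T t0 * p5T t2) + g2 * (p5T t0 * p5T t1))
    * (p5T U * p5T V))

/-- The checked polynomial. -/
def pairT (a b c a' b' c' : R) : R :=
  let U := sumT a b c
  let V := sumT a' b' c'
  let x := vEdge k V a'
  let y := vEdge k V b'
  let z := vEdge k V c'
  let t0 := sumT (a * x) (b * y) (c * z)
  let t1 := sumT (a * y) (b * z) (c * x)
  let t2 := sumT (a * z) (b * x) (c * y)
  k 27 * ((p5T t0 * p5T t1 * p5T t2) *
      (k 4050 * (gPot k a b c * p6T V) + k 50 * (gPot k a' b' c' * p6T U)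
        - k 4 * (devT k a b c * devT k a' b' c' * (p4T U * p4T V))))
    - rotT k t0 t1 t2 U V (gPot k (a * x) (b * y) (c * z))
        (gPot k (a * y) (b * z) (c * x)) (gPot k (a * z) (b * x) (c * y))

end Hom

/-- The sector coordinates, first group. -/
def su3 : Fin 3 → Ex :=
  ![Ex.var 0 + Ex.var 1 + Ex.var 2, Ex.var 0 + Ex.var 2, Ex.var 0]

/-- The sector coordinates, second group. -/
def sv3 : Fin 3 → Ex :=
  ![Ex.var 3 + Ex.var 4 + Ex.var 5, Ex.var 3 + Ex.var 5, Ex.var 3]

end Vale.Agent.P154.Anti
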