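import Vale.Agent.P154.Anti.Exprs
import Vale.Agent.P154.Q3.Certs

/-!
# The kernel checks for the antiferromagnetic certificate
-/

namespace Vale.Agent.P154.Anti

open Vale.Agent.P154.Q3

theorem cert_ga : check 175 14 14 16
    (gaTriple Ex.num (su 0) (su 1) (su 2) (sv 0) (sv 1) (sv 2)) = true := by decide +kernel
theorem cert_ga' : check 175 14 14 16
    (gaTriple Ex.num (su 0) (su 1) (su 2) (sv 0) (sv 2) (sv 1)) = true := by decide +kernel
theorem cert_pa : check 178 14 14 16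
    (paTriple Ex.num (su 0) (su 1) (su 2) (sv 0) (sv 1) (sv 2)) = true := by decide +kernel
theorem cert_pa' : check 178 14 14 16
    (paTriple Ex.num (su 0) (su 1) (su 2) (sv 0) (sv 2) (sv 1)) = true := by decide +kernel

theorem ev_gaTriple (x : Fin 6 → ℝ) (a b c a' b' c' : Ex) :
    Ex.ev x (gaTriple Ex.num a b c a' b' c') = gaTriple kR (Ex.ev x a) (Ex.ev x b) (Ex.ev x c)
      (Ex.ev x a') (Ex.ev x b') (Ex.ev x c') := by
  simp [gaTriple, gaH, potH, psiH, cube2, shH, ev_sumT, ev_devT, ev_cubT, kR]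

theorem ev_paTriple (x : Fin 6 → ℝ) (a b c a' b' c' : Ex) :
    Ex.ev x (paTriple Ex.num a b c a' b' c') = paTriple kR (Ex.ev x a) (Ex.ev x b) (Ex.ev x c)
      (Ex.ev x a') (Ex.ev x b') (Ex.ev x c') := by
  simp [paTriple, paH, psiH, cube2, shH, ev_sumT, ev_devT, ev_cubT, kR]

/-- The polynomials on pairs of vectors. -/
def gaVal (u w : Fin 3 → ℝ) : ℝ := gaTriple kR (u 0) (u 1) (u 2) (w 0) (w 1) (w 2)
/-- See `gaVal`. -/
def paVal (u w : Fin 3 → ℝ) : ℝ := paTriple kR (u 0) (u 1) (u 2) (w 0) (w 1) (w 2)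

theorem parts_rot (x y z : ℝ) : sumT y z x = sumT x y z ∧ devT kR y z x = devT kR x y z ∧
    cubT kR y z x = cubT kR x y z := by
  refine ⟨?_, ?_, ?_⟩ <;> simp [cubT, devT, compT, prodT, sumT, kR] <;> ring

theorem parts_swap (x y z : ℝ) : sumT y x z = sumT x y z ∧ devT kR y x z = devT kR x y z ∧
    cubT kR y x z = cubT kR x y z := by
  refine ⟨?_, ?_, ?_⟩ <;> simp [cubT, devT, compT, prodT, sumT, kR] <;> ring

theorem gaH_perm (U Au su W Aw S₀ A₀ S₁ A₁ S₂ A₂ : ℝ) :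
    gaH kR U Au su W Aw S₁ A₁ S₂ A₂ S₀ A₀ = gaH kR U Au su W Aw S₀ A₀ S₁ A₁ S₂ A₂ ∧
    gaH kR U Au su W Aw S₀ A₀ S₂ A₂ S₁ A₁ = gaH kR U Au su W Aw S₀ A₀ S₁ A₁ S₂ A₂ := by
  constructor <;> simp only [gaH, cube2] <;> ring

theorem paH_perm (U Au su W Aw S₀ A₀ s₀ S₁ A₁ s₁ S₂ A₂ s₂ : ℝ) :
    paH kR U Au su W Aw S₁ A₁ s₁ S₂ A₂ s₂ S₀ A₀ s₀
        = paH kR U Au su W Aw S₀ A₀ s₀ S₁ A₁ s₁ S₂ A₂ s₂ ∧
    paH kR U Au su W Aw S₀ A₀ s₀ S₂ A₂ s₂ S₁ A₁ s₁
        = paH kR U Au su W Aw S₀ A₀ s₀ S₁ A₁ s₁ S₂ A₂ s₂ := by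
  constructor <;> simp only [paH, cube2] <;> ring

theorem gaVal_inv : TriInv gaVal := by
  constructor
  · intro u v
    simp only [gaVal, gaTriple, Matrix.cons_val_zero, Matrix.cons_val_one, Matrix.cons_val]
    congr 1 <;> simp [shH, cubT, devT, compT, prodT, sumT, kR] <;> ring
  · intro u v
    simp only [gaVal, gaTriple, Matrix.cons_val_zero, Matrix.cons_val_one, Matrix.cons_val]
    rw [(gaH_perm _ _ _ _ _ _ _ _ _ _ _).2]
    congr 1 <;> simp [shH, cubT, devT, compT, prodT, sumT, kR] <;> ring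
  · intro u v
    simp only [gaVal, gaTriple, Matrix.cons_val_zero, Matrix.cons_val_one, Matrix.cons_val]
    refine Eq.trans ?_ (gaH_perm _ _ _ _ _ _ _ _ _ _ _).1
    congr 1 <;> simp [shH, cubT, devT, compT, prodT, sumT, kR] <;> ring

theorem paVal_inv : TriInv paVal := by
  constructor
  · intro u v
    simp only [paVal, paTriple, Matrix.cons_val_zero, Matrix.cons_val_one, Matrix.cons_val]
    congr 1 <;> simp [shH, cubT, devT, compT, prodT, sumT, kR] <;> ring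
  · intro u v
    simp only [paVal, paTriple, Matrix.cons_val_zero, Matrix.cons_val_one, Matrix.cons_val]
    rw [(paH_perm _ _ _ _ _ _ _ _ _ _ _ _ _ _).2]
    congr 1 <;> simp [shH, cubT, devT, compT, prodT, sumT, kR] <;> ring
  · intro u v
    simp only [paVal, paTriple, Matrix.cons_val_zero, Matrix.cons_val_one, Matrix.cons_val]
    refine Eq.trans ?_ (paH_perm _ _ _ _ _ _ _ _ _ _ _ _ _ _).1
    congr 1 <;> simp [shH, cubT, devT, compT, prodT, sumT, kR] <;> ring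

theorem gaVal_nonneg {u w : Fin 3 → ℝ} (hu : OnSimplex u) (hw : OnSimplex w) :
    0 ≤ gaVal u w := by
  refine tri_nonneg gaVal_inv ?_ ?_ u w hu hw
  all_goals
    intro a b c a' b' c' h1 h2 h3 h4 hu hv
    have hc : 0 ≤ c := by simpa using hu.1 2
    have hc' : 0 ≤ c' := by simpa using hv.1 2
    obtain ⟨e0, e1, e2, e3, e4, e5⟩ := ev_pt a b c a' b' c'
  · have h := ev_nonneg_of_check cert_ga _ (pt_nonneg h1 h2 hc h3 h4 hc')
    rw [ev_gaTriple, e0, e1, e2, e3, e4, e5] at h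
    simpa [gaVal] using h
  · have h := ev_nonneg_of_check cert_ga' _ (pt_nonneg h1 h2 hc h3 h4 hc')
    rw [ev_gaTriple, e0, e1, e2, e3, e4, e5] at h
    simpa [gaVal] using h

theorem paVal_nonneg {u w : Fin 3 → ℝ} (hu : OnSimplex u) (hw : OnSimplex w) :
    0 ≤ paVal u w := by
  refine tri_nonneg paVal_inv ?_ ?_ u w hu hw
  all_goals
    intro a b c a' b' c' h1 h2 h3 h4 hu hv
    have hc : 0 ≤ c := by simpa using hu.1 2
    have hc' : 0 ≤ c' := by simpa using hv.1 2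
    obtain ⟨e0, e1, e2, e3, e4, e5⟩ := ev_pt a b c a' b' c'
  · have h := ev_nonneg_of_check cert_pa _ (pt_nonneg h1 h2 hc h3 h4 hc')
    rw [ev_paTriple, e0, e1, e2, e3, e4, e5] at h
    simpa [paVal] using h
  · have h := ev_nonneg_of_check cert_pa' _ (pt_nonneg h1 h2 hc h3 h4 hc')
    rw [ev_paTriple, e0, e1, e2, e3, e4, e5] at h
    simpa [paVal] using h

end Vale.Agent.P154.Anti
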