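import Vale.Agent.P154.Anti.Pot

/-!
# The potential criterion on a class closed under multiplication by edge outputs

As in `Pot`, but subadditivity is only required on the channels `X` with nonnegative total of
`homExt ψ`; this class contains every product of edge outputs, whatever the channels below
the edges are.
-/

namespace Vale.Agent.P154.Anti

open Finset Filter Topology Vale.Agent.P154.Tree

variable {q : ℕ} {ι κ : Type} {w : ℕ → ℝ} {d lam a c Kb : ℝ}
  {F ψ g h : (Fin q → ℝ) → ℝ}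

/-- The hypotheses of the criterion at edge parameter `lam`. -/
structure CPot (q : ℕ) (lam : ℝ) (F ψ g h : (Fin q → ℝ) → ℝ) (a c Kb : ℝ) : Prop where
  apos : 0 < a
  cnn : 0 ≤ c
  bddF : ∀ u : Fin q → ℝ, (∀ i, 0 ≤ u i) → ∑ i, u i = 1 → |F u| ≤ Kb
  bddψ : ∀ u : Fin q → ℝ, (∀ i, 0 ≤ u i) → ∑ i, u i = 1 → |ψ u| ≤ Kb
  bddg : ∀ u : Fin q → ℝ, (∀ i, 0 ≤ u i) → ∑ i, u i = 1 → 0 ≤ g u ∧ g u ≤ Kb
  bddh : ∀ u : Fin q → ℝ, (∀ i, 0 ≤ u i) → ∑ i, u i = 1 → 0 ≤ h u ∧ h u ≤ 1
  uniformF : F (fun _ => 1 / (q : ℝ)) = 0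
  uniformψ : ψ (fun _ => 1 / (q : ℝ)) = 0
  lower : ∀ u : Fin q → ℝ, (∀ i, 0 ≤ u i) → ∑ i, u i = 1 → a * sqDev u ≤ F u
  pairF : ∀ u v : Fin q → ℝ, (∀ i, 0 ≤ u i) → ∑ i, u i = 1 → (∀ i, 0 ≤ v i) →
    ∑ i, v i = 1 →
    ∑ s : Equiv.Perm (Fin q), homExt F (fun i => u i * shrink lam v (s i))
      ≤ (q.factorial : ℝ) / q * (F u + lam ^ 2 * F v - c * sqDev u * sqDev v - ψ u * g v)
  pairψ : ∀ u v : Fin q → ℝ, (∀ i, 0 ≤ u i) → ∑ i, u i = 1 → (∀ i, 0 ≤ v i) →
    ∑ i, v i = 1 →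
    (q.factorial : ℝ) / q * (ψ u * (1 - h v))
      ≤ ∑ s : Equiv.Perm (Fin q), homExt ψ (fun i => u i * shrink lam v (s i))

namespace CPot

theorem uniform_one (f : (Fin q → ℝ) → ℝ) (hf : f (fun _ => 1 / (q : ℝ)) = 0) :
    homExt f (fun _ : Fin q => (1 : ℝ)) = 0 := by
  rcases Nat.eq_zero_or_pos q with hq | hq
  · subst hq; simp [homExt]
  · simp only [homExt, sum_const, card_univ, Fintype.card_fin, nsmul_eq_mul, mul_one]
    rw [hf, mul_zero]

theorem total_SS_le (H : CPot q lam F ψ g h a c Kb) {X : ι → Fin q → ℝ} (hX : IsChan X) :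
    a * total SS X ≤ total (homExt F) X := by
  refine hasSum_le (f := fun o => a * SS (X o)) (g := fun o => homExt F (X o)) (fun o => ?_)
    ((hX.summable massBdd_SS).hasSum.mul_left a) (hX.summable (massBdd_homExt H.bddF)).hasSum
  rcases eq_or_ne (∑ i, X o i) 0 with hz | hz
  · simp [SS, homExt, hz]
  obtain ⟨u0, u1⟩ := exists_unit (hX.nonneg o) hz
  have := mul_le_mul_of_nonneg_left (H.lower _ u0 u1) (hX.mass_nonneg o)
  simp only [SS, homExt]
  linarith

theorem total_nonneg_of {X : ι → Fin q → ℝ} (hX : IsChan X) {f : (Fin q → ℝ) → ℝ}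
    (hf : ∀ u : Fin q → ℝ, (∀ i, 0 ≤ u i) → ∑ i, u i = 1 → 0 ≤ f u) :
    0 ≤ total (homExt f) X := by
  refine tsum_nonneg fun o => ?_
  rcases eq_or_ne (∑ i, X o i) 0 with hz | hz
  · simp [homExt, hz]
  obtain ⟨u0, u1⟩ := exists_unit (hX.nonneg o) hz
  exact mul_nonneg (hX.mass_nonneg o) (hf _ u0 u1)

/-- The class is closed under multiplication by an edge output. -/
theorem class_mulEdge (H : CPot q lam F ψ g h a c Kb) (hq : q ≠ 0) {X : ι → Fin q → ℝ}
    {Y : κ → Fin q → ℝ} (hX : IsChan X) (hXp : 0 ≤ total (homExt ψ) X) (hY : IsChan Y)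
    (hYs : IsSymm Y) (hl : Adm q lam) :
    0 ≤ total (homExt ψ) (mulChan X (Tree.edge lam Y)) := by
  have hq' : (q : ℝ) ≠ 0 := by exact_mod_cast hq
  let f : Fin 1 → (Fin q → ℝ) → ℝ := fun _ => ψ
  let g' : Fin 1 → (Fin q → ℝ) → ℝ := fun _ v => -(1 / (q : ℝ)) * (1 - h v)
  have hg' : ∀ l, ∀ u : Fin q → ℝ, (∀ i, 0 ≤ u i) → ∑ i, u i = 1 →
      |g' l u| ≤ 1 / (q : ℝ) := fun l u u0 u1 => by
    obtain ⟨e0, e1⟩ := H.bddh u u0 u1
    rw [abs_mul, abs_neg, abs_of_nonneg (by positivity : (0 : ℝ) ≤ 1 / q)]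
    refine mul_le_of_le_one_right (by positivity) ?_
    rw [abs_le]; constructor <;> linarith
  have key := total_mulEdge_le_simplex hX hY hYs hl (F := fun u => (-1) * ψ u) (K := Kb)
    (fun u u0 u1 => by simpa using H.bddψ u u0 u1) f g' (Kf := Kb)
    (fun _ => H.bddψ) hg' fun u v u0 u1 v0 v1 => by
      have h2 := H.pairψ u v u0 u1 v0 v1
      have e : ∀ x : Fin q → ℝ, homExt (fun u => (-1) * ψ u) x = (-1) * homExt ψ x :=
        fun x => by simp only [homExt]; ring
      simp only [e, ← mul_sum, Fin.sum_univ_one, f, g']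
      rw [show (q.factorial : ℝ) * (ψ u * (-(1 / (q : ℝ)) * (1 - h v)))
        = -((q.factorial : ℝ) / q * (ψ u * (1 - h v))) by ring]
      linarith
  simp only [Fin.sum_univ_one, f, g', total_homExt_mul] at key
  have hh : 0 ≤ total (homExt fun v => 1 - h v) Y :=
    total_nonneg_of hY fun u u0 u1 => by linarith [(H.bddh u u0 u1).2]
  have hprod : 0 ≤ 1 / (q : ℝ) * (total (homExt ψ) X * total (homExt fun v => 1 - h v) Y) :=
    mul_nonneg (by positivity) (mul_nonneg hXp hh)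
  linarith

/-- Subadditivity of the total potential on the class. -/
theorem total_mulEdge (H : CPot q lam F ψ g h a c Kb) (hq : q ≠ 0) {X : ι → Fin q → ℝ}
    {Y : κ → Fin q → ℝ} (hX : IsChan X) (hXp : 0 ≤ total (homExt ψ) X) (hY : IsChan Y)
    (hYs : IsSymm Y) (hl : Adm q lam) :
    total (homExt F) (mulChan X (Tree.edge lam Y))
      ≤ total (homExt F) X + lam ^ 2 * total (homExt F) Y
        - c / q * (total SS X * total SS Y) := by
  have hq' : (q : ℝ) ≠ 0 := by exact_mod_cast hq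
  let f : Fin 4 → (Fin q → ℝ) → ℝ := ![F, fun _ => 1, sqDev, ψ]
  let g' : Fin 4 → (Fin q → ℝ) → ℝ := ![fun _ => 1 / (q : ℝ) * 1, fun v => lam ^ 2 / q * F v,
    fun v => -(c / q) * sqDev v, fun v => -(1 / (q : ℝ)) * g v]
  have hs : ∀ u : Fin q → ℝ, (∀ i, 0 ≤ u i) → ∑ i, u i = 1 → |sqDev u| ≤ 1 :=
    fun u u0 u1 => by
      rw [abs_of_nonneg (sum_nonneg fun i _ => sq_nonneg _)]
      exact sqDev_le_one u0 u1
  have hf : ∀ l, ∀ u : Fin q → ℝ, (∀ i, 0 ≤ u i) → ∑ i, u i = 1 → |f l u| ≤ max Kb 1 := by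
    intro l u u0 u1
    fin_cases l
    · exact (H.bddF u u0 u1).trans (le_max_left _ _)
    · simp [f]
    · exact (hs u u0 u1).trans (le_max_right _ _)
    · exact (H.bddψ u u0 u1).trans (le_max_left _ _)
  have hg' : ∀ l, ∀ u : Fin q → ℝ, (∀ i, 0 ≤ u i) → ∑ i, u i = 1 →
      |g' l u| ≤ 1 / q + |lam ^ 2 / q| * Kb + |c / q| + 1 / q * Kb := by
    intro l u u0 u1
    have hK : 0 ≤ Kb := (abs_nonneg _).trans (H.bddF u u0 u1)
    have e1 : (0 : ℝ) ≤ 1 / q := by positivity
    have e2 : 0 ≤ |lam ^ 2 / (q : ℝ)| * Kb := mul_nonneg (abs_nonneg _) hK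
    have e3 := abs_nonneg (c / (q : ℝ))
    have e4 : 0 ≤ 1 / (q : ℝ) * Kb := mul_nonneg e1 hK
    fin_cases l
    · show |1 / (q : ℝ) * 1| ≤ _
      rw [mul_one, abs_of_nonneg e1]
      linarith
    · show |lam ^ 2 / (q : ℝ) * F u| ≤ _
      rw [abs_mul]
      have := mul_le_mul_of_nonneg_left (H.bddF u u0 u1) (abs_nonneg (lam ^ 2 / (q : ℝ)))
      linarith
    · show |-(c / (q : ℝ)) * sqDev u| ≤ _
      rw [abs_mul, abs_neg]
      have := mul_le_mul_of_nonneg_left (hs u u0 u1) (abs_nonneg (c / (q : ℝ)))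
      linarith
    · show |-(1 / (q : ℝ)) * g u| ≤ _
      obtain ⟨g0, g1⟩ := H.bddg u u0 u1
      rw [abs_mul, abs_neg, abs_of_nonneg e1, abs_of_nonneg g0]
      have := mul_le_mul_of_nonneg_left g1 e1
      linarith
  have key := total_mulEdge_le_simplex hX hY hYs hl H.bddF f g' hf hg'
    fun u v u0 u1 v0 v1 => by
      refine (H.pairF u v u0 u1 v0 v1).trans_eq ?_
      simp [Fin.sum_univ_four, f, g']
      field_simp
      ring
  simp only [Fin.sum_univ_four, f, g', Matrix.cons_val_zero, Matrix.cons_val_one,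
    Matrix.cons_val, total_homExt_mul, total_homExt_one hX, total_homExt_one hY] at key
  have e : ∀ {α : Type} (Z : α → Fin q → ℝ), total (homExt sqDev) Z = total SS Z :=
    fun _ => rfl
  rw [e, e] at key
  have hgY : 0 ≤ total (homExt g) Y := total_nonneg_of hY fun u u0 u1 => (H.bddg u u0 u1).1
  have hprod : 0 ≤ 1 / (q : ℝ) * (total (homExt ψ) X * total (homExt g) Y) :=
    mul_nonneg (by positivity) (mul_nonneg hXp hgY)
  field_simp at key hprod ⊢
  linarith

/-- The products at a vertex. -/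
theorem piChan_le (H : CPot q lam F ψ g h a c Kb) (hq : q ≠ 0) {Y : ι → Fin q → ℝ}
    (hY : IsChan Y) (hYs : IsSymm Y) (hl : Adm q lam) (k : ℕ) :
    0 ≤ total (homExt ψ) (piChan k (Tree.edge lam Y)) ∧
    total (homExt F) (piChan k (Tree.edge lam Y))
      ≤ k * (lam ^ 2 * total (homExt F) Y)
        - (if 2 ≤ k then c / q * (lam ^ 2 * total SS Y ^ 2) else 0) := by
  have hE := hY.edge' hl
  induction k with
  | zero =>
    simp [total_piChan_zero, uniform_one F H.uniformF, uniform_one ψ H.uniformψ]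
  | succ k ih =>
    obtain ⟨hp, ih⟩ := ih
    have hX := isChan_piChan hE k
    have hstep := H.total_mulEdge hq hX hp hY hYs hl
    have hclass := H.class_mulEdge hq hX hp hY hYs hl
    rw [piChan_succ, total_reindex, total_reindex]
    refine ⟨hclass, ?_⟩
    have hnn : 0 ≤ c / q * (total SS (piChan k (Tree.edge lam Y)) * total SS Y) :=
      mul_nonneg (div_nonneg H.cnn (Nat.cast_nonneg q))
        (mul_nonneg (total_SS_nonneg hX) (total_SS_nonneg hY))
    rcases k with _ | _ | k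
    · norm_num at ih ⊢
      nlinarith
    · rw [show total SS (piChan (0 + 1) (Tree.edge lam Y)) = lam ^ 2 * total SS Y from
        (total_piChan_one SS (Tree.edge lam Y)).trans (total_SS_edge lam Y)] at hstep
      norm_num at ih hstep ⊢
      nlinarith
    · rw [if_pos (by omega : 2 ≤ k + 1 + 1)] at ih
      rw [if_pos (by omega : 2 ≤ k + 1 + 1 + 1)]
      push_cast at ih ⊢
      nlinarith

/-- One generation. -/
theorem step (H : CPot q lam F ψ g h a c Kb) (hq : q ≠ 0) (hw : IsLaw w d) (hl : Adm q lam)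
    (n : ℕ) :
    total (homExt F) (lik q w lam (n + 1))
      ≤ d * lam ^ 2 * total (homExt F) (lik q w lam n)
        - c / q * branchProb w * lam ^ 2 * total SS (lik q w lam n) ^ 2 := by
  have hT := total_succ hw hl (massBdd_homExt H.bddF) n
  have hB : HasSum (fun k : ℕ => if 2 ≤ k then w k else 0) (branchProb w) :=
    (Summable.of_nonneg_of_le (fun k => by split_ifs <;> simp [hw.nonneg k])
      (fun k => by split_ifs <;> simp [hw.nonneg k]) hw.hasSum.summable).hasSum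
  have hR := (hw.mean.mul_right (lam ^ 2 * total (homExt F) (lik q w lam n))).sub
    (hB.mul_right (c / q * (lam ^ 2 * total SS (lik q w lam n) ^ 2)))
  refine (hasSum_le (fun k => ?_) hT hR).trans_eq (by ring)
  refine (mul_le_mul_of_nonneg_left
    (H.piChan_le hq (isChan_lik hw hl n) (isSymm_lik w lam n) hl k).2 (hw.nonneg k)).trans_eq ?_
  split_ifs <;> ring

/-- Nonreconstruction from the criterion. -/
theorem tendsto_adv (H : CPot q lam F ψ g h a c Kb) (hq : 0 < q) (hw : IsLaw w d)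
    (hl : Adm q lam)
    (hd : d * lam ^ 2 < 1 ∨ (d * lam ^ 2 ≤ 1 ∧ 0 < c ∧ 0 < branchProb w)) :
    Tendsto (adv q w lam) atTop (𝓝 0) := by
  refine tendsto_adv_of_SS hq hw hl ?_
  set x : ℕ → ℝ := fun n => total (homExt F) (lik q w lam n)
  set y : ℕ → ℝ := fun n => total SS (lik q w lam n)
  have hyn : ∀ n, 0 ≤ y n := fun n => total_SS_nonneg (isChan_lik hw hl n)
  have hyx : ∀ n, a * y n ≤ x n := fun n => H.total_SS_le (isChan_lik hw hl n)
  have hxn : ∀ n, 0 ≤ x n := fun n => le_trans (mul_nonneg H.apos.le (hyn n)) (hyx n)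
  have hB : 0 ≤ branchProb w := tsum_nonneg fun k => by split_ifs <;> simp [hw.nonneg k]
  set K : ℝ := c / q * branchProb w * lam ^ 2
  have hK : 0 ≤ K := mul_nonneg (mul_nonneg (div_nonneg H.cnn (Nat.cast_nonneg q)) hB)
    (sq_nonneg lam)
  have hstep : ∀ n, x (n + 1) ≤ d * lam ^ 2 * x n - K * y n ^ 2 :=
    fun n => H.step hq.ne' hw hl n
  have hd0 : 0 ≤ d := hw.mean.nonneg fun k => mul_nonneg (Nat.cast_nonneg k) (hw.nonneg k)
  have hanti : Antitone x := antitone_nat_of_succ_le fun n => by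
    have h1 : d * lam ^ 2 ≤ 1 := hd.elim le_of_lt fun e => e.1
    nlinarith [hstep n, hxn n, mul_nonneg hK (sq_nonneg (y n))]
  have hbdd : BddBelow (Set.range x) := ⟨0, by rintro _ ⟨n, rfl⟩; exact hxn n⟩
  have hlim := tendsto_atTop_ciInf hanti hbdd
  set L := ⨅ n, x n
  have hsq : ∀ hgap : d * lam ^ 2 < 1, Tendsto y atTop (𝓝 0) := fun hgap => by
    have hL0 : 0 ≤ L := ge_of_tendsto' hlim hxn
    have hL : L ≤ d * lam ^ 2 * L :=
      le_of_tendsto_of_tendsto' (hlim.comp (tendsto_add_atTop_nat 1)) (hlim.const_mul _)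
        fun n => (hstep n).trans (by nlinarith [mul_nonneg hK (sq_nonneg (y n))])
    have hLz : L = 0 := by nlinarith
    rw [hLz] at hlim
    refine squeeze_zero hyn (fun n => ?_) (by simpa using hlim.div_const a)
    rw [le_div_iff₀ H.apos, mul_comm]
    exact hyx n
  rcases hd with hgap | ⟨hle, hc, hb⟩
  · exact hsq hgap
  rcases eq_or_ne lam 0 with hz | hz
  · exact hsq (by rw [hz]; norm_num)
  have hKp : 0 < K := by
    have : (0 : ℝ) < q := by exact_mod_cast hq
    positivity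
  have hdiff : Tendsto (fun n => (x n - x (n + 1)) / K) atTop (𝓝 0) := by
    simpa using (hlim.sub (hlim.comp (tendsto_add_atTop_nat 1))).div_const K
  have hy2 : Tendsto (fun n => y n ^ 2) atTop (𝓝 0) := by
    refine squeeze_zero (fun n => sq_nonneg _) (fun n => ?_) hdiff
    rw [le_div_iff₀ hKp]
    nlinarith [hstep n, hxn n]
  have := (Real.continuous_sqrt.tendsto 0).comp hy2
  simp only [Real.sqrt_zero] at this
  exact this.congr fun n => Real.sqrt_sq (hyn n)

end CPot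

end Vale.Agent.P154.Anti
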