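import Mathlib.Data.Real.Basic
import Mathlib.Tactic

/-!
# The scalar inequality for small limits

With `A = r ^ 2` the squared deviation and `y ≤ Y` the defect after an edge, the pointwise
inequality reduces to `0 ≤ η(r) r⁴ - y β(r) r² + γ y²`.
-/

namespace Vale.Agent.P154.Anti.SmallX

/-- The coefficient of the mixed term. -/
noncomputable def beta (L SL r : ℝ) : ℝ :=
  756 / 25 * ((3 + 2 * SL * r) / 3 + L * r ^ 2 * (3 + 2 * SL * r) ^ 2 / 9
    + L ^ 2 * r ^ 4 * (3 + 2 * SL * r) ^ 3 / 5) - 481 / 25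

/-- The coefficient of `r⁴` near zero. -/
noncomputable def eta1 (L r : ℝ) : ℝ := 9 - 19 / 2 * L - 7 * L ^ 2 * r ^ 2 - 130 * r ^ 4

/-- The coefficient of `r⁴` everywhere. -/
noncomputable def eta0 (L r : ℝ) : ℝ := 16 / 5 - 19 / 2 * L - 7 * L ^ 2 * r ^ 2

/-- The scalar inequality on `[0, Y]`. -/
def Scalar (L SL Y gam : ℝ) : Prop :=
  ∀ ⦃r y F B : ℝ⦄, 0 ≤ r → r ≤ 1 → 0 ≤ y → y ≤ Y → eta1 L r * r ^ 4 ≤ F →
    eta0 L r * r ^ 4 ≤ F → -(r ^ 2 * beta L SL r) ≤ B → 0 ≤ F + y * B + gam * y ^ 2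

theorem beta_mono {L SL r s : ℝ} (hL : 0 ≤ L) (hS : 0 ≤ SL) (hr : 0 ≤ r) (hrs : r ≤ s) :
    beta L SL r ≤ beta L SL s := by
  unfold beta
  gcongr

theorem eta1_anti {L r s : ℝ} (hr : 0 ≤ r) (hrs : r ≤ s) : eta1 L s ≤ eta1 L r := by
  unfold eta1
  gcongr

/-- The products of a Bernstein basis of degree nine are nonnegative. -/
theorem bern_basis {a b r : ℝ} (ha : a ≤ r) (hb : r ≤ b) (k l : ℕ) :
    0 ≤ (r - a) ^ k * (b - r) ^ l :=
  mul_nonneg (pow_nonneg (sub_nonneg.2 ha) k) (pow_nonneg (sub_nonneg.2 hb) l)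

/-- A quadratic below the discriminant, and the largest `y` above it. -/
theorem scalar_of {L SL Y gam r1 : ℝ} (hL : 0 ≤ L) (hS : 0 ≤ SL) (hg : 0 ≤ gam)
    (h1 : 0 ≤ r1) (he : 0 < eta1 L r1) (hb : 0 ≤ beta L SL r1)
    (hdisc : beta L SL r1 ^ 2 ≤ 4 * eta1 L r1 * gam) (hmono : 2 * gam * Y ≤ r1 ^ 2 * beta L SL r1)
    (hq : ∀ r, r1 ≤ r → r ≤ 1 →
      0 ≤ eta1 L r * r ^ 4 - Y * beta L SL r * r ^ 2 + gam * Y ^ 2 ∨
        0 ≤ eta0 L r * r ^ 4 - Y * beta L SL r * r ^ 2 + gam * Y ^ 2) :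
    Scalar L SL Y gam := by
  intro r y F B hr hr1 hy hyY hF1 hF0 hB
  have hyB := mul_le_mul_of_nonneg_left hB hy
  rcases le_total r r1 with h | h
  · have hF := (mul_le_mul_of_nonneg_right (eta1_anti (L := L) hr h) (by positivity)).trans hF1
    have hβ := mul_le_mul_of_nonneg_left (beta_mono hL hS hr h)
      (show 0 ≤ y * r ^ 2 by positivity)
    have key : 0 ≤ 4 * eta1 L r1 * (eta1 L r1 * r ^ 4 - y * beta L SL r1 * r ^ 2 + gam * y ^ 2) := by
      nlinarith [sq_nonneg (2 * eta1 L r1 * r ^ 2 - beta L SL r1 * y),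
        mul_nonneg (sub_nonneg.2 hdisc) (sq_nonneg y)]
    have := (mul_nonneg_iff_of_pos_left (show 0 < 4 * eta1 L r1 by linarith)).1 key
    linarith
  · have hm : 2 * gam * Y ≤ r ^ 2 * beta L SL r :=
      hmono.trans (mul_le_mul (pow_le_pow_left₀ h1 h 2) (beta_mono hL hS h1 h) hb (sq_nonneg r))
    have hd : 0 ≤ (Y - y) * (r ^ 2 * beta L SL r - gam * (Y + y)) :=
      mul_nonneg (sub_nonneg.2 hyY) (by nlinarith)
    rcases hq r h hr1 with hh | hh <;> linarith

theorem scalar_low : Scalar (2209 / 10000) (47 / 100) (3 / 250) (27 / 5) := by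
  refine scalar_of (r1 := 21 / 200) (by norm_num) (by norm_num) (by norm_num)
    (by norm_num) (by norm_num [eta1]) (by norm_num [beta]) (by norm_num [eta1, beta])
    (by norm_num [beta]) fun r h0 h1 => ?_
  rcases le_total r (23 / 50) with h | h
  · left
    unfold eta1 beta
    linarith [bern_basis h0 h 0 9, bern_basis h0 h 1 8, bern_basis h0 h 2 7,
      bern_basis h0 h 3 6, bern_basis h0 h 4 5, bern_basis h0 h 5 4, bern_basis h0 h 6 3,
      bern_basis h0 h 7 2, bern_basis h0 h 8 1, bern_basis h0 h 9 0]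
  · right
    unfold eta0 beta
    linarith [bern_basis h h1 0 9, bern_basis h h1 1 8, bern_basis h h1 2 7,
      bern_basis h h1 3 6, bern_basis h h1 4 5, bern_basis h h1 5 4, bern_basis h h1 6 3,
      bern_basis h h1 7 2, bern_basis h h1 8 1, bern_basis h h1 9 0]

theorem scalar_high : Scalar (1 / 5) (9 / 20) (1 / 80) (1023 / 200) := by
  refine scalar_of (r1 := 21 / 200) (by norm_num) (by norm_num) (by norm_num)
    (by norm_num) (by norm_num [eta1]) (by norm_num [beta]) (by norm_num [eta1, beta])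
    (by norm_num [beta]) fun r h0 h1 => ?_
  rcases le_total r (23 / 50) with h | h
  · left
    unfold eta1 beta
    rcases le_total r (189 / 1000) with h' | h'
    · linarith [bern_basis h0 h' 0 9, bern_basis h0 h' 1 8, bern_basis h0 h' 2 7,
        bern_basis h0 h' 3 6, bern_basis h0 h' 4 5, bern_basis h0 h' 5 4, bern_basis h0 h' 6 3,
        bern_basis h0 h' 7 2, bern_basis h0 h' 8 1, bern_basis h0 h' 9 0]
    · linarith [bern_basis h' h 0 9, bern_basis h' h 1 8, bern_basis h' h 2 7,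
        bern_basis h' h 3 6, bern_basis h' h 4 5, bern_basis h' h 5 4, bern_basis h' h 6 3,
        bern_basis h' h 7 2, bern_basis h' h 8 1, bern_basis h' h 9 0]
  · right
    unfold eta0 beta
    linarith [bern_basis h h1 0 9, bern_basis h h1 1 8, bern_basis h h1 2 7,
      bern_basis h h1 3 6, bern_basis h h1 4 5, bern_basis h h1 5 4, bern_basis h h1 6 3,
      bern_basis h h1 7 2, bern_basis h h1 8 1, bern_basis h h1 9 0]

end Vale.Agent.P154.Anti.SmallX
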