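import Mathlib.Analysis.SpecialFunctions.Pow.Deriv
import Mathlib.Analysis.SpecialFunctions.Log.Deriv
import Mathlib.Analysis.Convex.SpecificFunctions.Basic
import Mathlib.Analysis.Convex.Mul
import Mathlib.Analysis.Calculus.Deriv.MeanValue

/-!
# Tangents and bounds for the two generation functions

`hP z = z - 1 + exp (-z)` (Poisson offspring, `z = d y`) and
`hR d z = z - 1 + (1 - z / d) ^ d` (regular offspring, `0 ≤ z ≤ d`): exact tangents from
below, polynomial bounds of their conjugates, Taylor bounds, and chords from above.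
-/

namespace Vale.Agent.P154.Anti

open Finset

/-- The Poisson generation function, centred. -/
noncomputable def hP (z : ℝ) : ℝ := z - 1 + Real.exp (-z)

/-- The regular generation function, centred. -/
noncomputable def hR (d : ℕ) (z : ℝ) : ℝ := z - 1 + (1 - z / d) ^ d

theorem hP_nonneg (z : ℝ) : 0 ≤ hP z := by
  have := Real.add_one_le_exp (-z)
  simp only [hP]
  linarith

/-- The exact tangent of slope `s`. -/
theorem hP_ge_tangent {s : ℝ} (hs : s < 1) (z : ℝ) :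
    s * z - (s + (1 - s) * Real.log (1 - s)) ≤ hP z := by
  have h := Real.add_one_le_exp (-z - Real.log (1 - s))
  rw [Real.exp_sub, Real.exp_log (by linarith), le_div_iff₀ (by linarith)] at h
  simp only [hP]
  linarith

/-- The conjugate is below its Taylor polynomial of any degree. -/
theorem conj_le_series {s : ℝ} (h0 : 0 ≤ s) (h1 : s < 1) (K : ℕ) :
    s + (1 - s) * Real.log (1 - s)
      ≤ s - (1 - s) * ∑ k ∈ range K, s ^ (k + 1) / (k + 1) := by
  have hsum := Real.hasSum_pow_div_log_of_abs_lt_one (x := s) (by rwa [abs_of_nonneg h0])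
  have hle := sum_le_hasSum (range K) (fun i _ => by positivity) hsum
  have := mul_le_mul_of_nonneg_left hle (show (0 : ℝ) ≤ 1 - s by linarith)
  linarith

/-- The tangent with the cubic bound of the conjugate. -/
theorem hP_ge_linear {s : ℝ} (h0 : 0 ≤ s) (h1 : s < 1) (z : ℝ) :
    s * z - (s ^ 2 / 2 + s ^ 3 / 2) ≤ hP z := by
  have a := conj_le_series h0 h1 2
  have b := hP_ge_tangent h1 z
  norm_num [sum_range_succ] at a
  linarith

/-- The tangent with the quintic bound of the conjugate. -/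
theorem hP_ge_linear_five {s : ℝ} (h0 : 0 ≤ s) (h1 : s < 1) (z : ℝ) :
    s * z - (s ^ 2 / 2 + s ^ 3 / 6 + s ^ 4 / 12 + s ^ 5 / 4) ≤ hP z := by
  have a := conj_le_series h0 h1 4
  have b := hP_ge_tangent h1 z
  norm_num [sum_range_succ] at a
  linarith

theorem hP_le_sq {z : ℝ} (hz : 0 ≤ z) : hP z ≤ z ^ 2 / 2 := by
  have h := Real.quadratic_le_exp_of_nonneg hz
  have hp : 0 ≤ 1 - z + z ^ 2 / 2 := by nlinarith [sq_nonneg (z - 1)]
  have : Real.exp (-z) ≤ 1 - z + z ^ 2 / 2 := by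
    rw [Real.exp_neg, inv_le_iff_one_le_mul₀ (Real.exp_pos z)]
    nlinarith [mul_le_mul_of_nonneg_left h hp, sq_nonneg (z ^ 2)]
  simp only [hP]
  linarith

theorem hP_ge_cubic {z : ℝ} (hz : 0 ≤ z) : z ^ 2 / 2 - z ^ 3 / 6 ≤ hP z := by
  have hd : ∀ x : ℝ, HasDerivAt (fun x => hP x - x ^ 2 / 2 + x ^ 3 / 6)
      (1 - Real.exp (-x) - x + x ^ 2 / 2) x := fun x => by
    unfold hP
    have h := ((((hasDerivAt_id x).sub_const 1).add (hasDerivAt_id x).neg.exp).sub
      ((hasDerivAt_pow 2 x).div_const 2)).add ((hasDerivAt_pow 3 x).div_const 6)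
    exact (h.congr_of_eventuallyEq (.of_forall fun y => by simp)).congr_deriv
      (by simp; ring)
  have hmono : MonotoneOn (fun x => hP x - x ^ 2 / 2 + x ^ 3 / 6) (Set.Ici 0) := by
    refine monotoneOn_of_hasDerivWithinAt_nonneg (convex_Ici 0)
      (fun x _ => (hd x).continuousAt.continuousWithinAt) (fun x _ => (hd x).hasDerivWithinAt)
      fun x hx => ?_
    rw [interior_Ici, Set.mem_Ioi] at hx
    have := hP_le_sq hx.le
    simp only [hP] at this
    linarith
  have := hmono Set.self_mem_Ici hz hz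
  simp [hP] at this ⊢
  linarith

theorem hP_le_chord {lo hi z : ℝ} (h1 : lo ≤ z) (h2 : z ≤ hi) :
    (hi - lo) * hP z ≤ (hi - z) * hP lo + (z - lo) * hP hi := by
  rcases (h1.trans h2).eq_or_lt with h | h
  · obtain rfl : z = lo := le_antisymm (h ▸ h2) h1
    subst h
    simp
  have hh : 0 < hi - lo := sub_pos.2 h
  have key := convexOn_exp.2 (Set.mem_univ (-lo)) (Set.mem_univ (-hi))
    (div_nonneg (sub_nonneg.2 h2) hh.le) (div_nonneg (sub_nonneg.2 h1) hh.le) (by field_simp; ring)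
  simp only [smul_eq_mul] at key
  rw [show (hi - z) / (hi - lo) * -lo + (z - lo) / (hi - lo) * -hi = -z by field_simp; ring,
    div_mul_eq_mul_div, div_mul_eq_mul_div, ← add_div, le_div_iff₀ hh] at key
  simp only [hP]
  linarith

/-- The line tangent to `y ↦ y ^ d` at `r`. -/
theorem pow_ge_tangent (d : ℕ) {y r : ℝ} (hy : 0 ≤ y) (hr : 0 ≤ r) :
    r ^ d + d * r ^ (d - 1) * (y - r) ≤ y ^ d := by
  have key : ∀ n : ℕ, r ^ (n + 1) + (n + 1 : ℝ) * r ^ n * (y - r) ≤ y ^ (n + 1) := by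
    intro n
    induction n with
    | zero => simp
    | succ n ih =>
      have h := mul_le_mul_of_nonneg_left ih hy
      have h2 : 0 ≤ (n + 1 : ℝ) * r ^ n * (y - r) ^ 2 := by positivity
      simp only [pow_succ] at h ⊢
      push_cast
      nlinarith
  rcases d with _ | n
  · simp
  · simpa using key n

/-- The exact tangent, parametrised by the point `r` with slope `1 - r ^ (d - 1)`. -/
theorem hR_ge_tangent {d : ℕ} (hd : 1 ≤ d) {z r : ℝ} (hz : z ≤ d) (hr : 0 ≤ r) :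
    (1 - r ^ (d - 1)) * z - (1 + ((d : ℝ) - 1) * r ^ d - d * r ^ (d - 1)) ≤ hR d z := by
  have hd' : (0 : ℝ) < d := by exact_mod_cast hd
  have h := pow_ge_tangent d (y := 1 - z / d) (r := r)
    (sub_nonneg.2 ((div_le_one hd').2 hz)) hr
  have e : r ^ d = r ^ (d - 1) * r := by rw [← pow_succ, Nat.sub_add_cancel hd]
  have e2 : (d : ℝ) * r ^ (d - 1) * (1 - z / d - r)
      = d * r ^ (d - 1) - r ^ (d - 1) * z - d * (r ^ (d - 1) * r) := by field_simp
  simp only [hR]
  rw [e2] at h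
  rw [e] at h ⊢
  linarith

theorem rpow_one_sub_le {a s : ℝ} (ha : 0 ≤ a) (ha1 : a ≤ 1) (h0 : 0 ≤ s) (h1 : s < 1) :
    (1 - s) ^ a ≤ 1 - a * s - a * (1 - a) * s ^ 2 / 2 := by
  set F : ℝ → ℝ := fun x => 1 - a * x - a * (1 - a) * x ^ 2 / 2 - (1 - x) ^ a
  have hd : ∀ x : ℝ, x < 1 → HasDerivAt F
      (-a - a * (1 - a) * x + a * (1 - x) ^ (a - 1)) x := fun x hx => by
    have h := ((((hasDerivAt_id x).const_mul a).const_sub 1).sub
      (((hasDerivAt_pow 2 x).const_mul (a * (1 - a))).div_const 2)).sub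
      (((hasDerivAt_id x).const_sub 1).rpow_const (p := a) (Or.inl (by simp; linarith)))
    exact (h.congr_of_eventuallyEq (.of_forall fun y => by simp [F])).congr_deriv
      (by simp; ring)
  have hmono : MonotoneOn F (Set.Icc 0 s) := by
    refine monotoneOn_of_hasDerivWithinAt_nonneg (convex_Icc 0 s)
      (fun x hx => (hd x (hx.2.trans_lt h1)).continuousAt.continuousWithinAt)
      (f' := fun x => -a - a * (1 - a) * x + a * (1 - x) ^ (a - 1))
      (fun x hx => ?_) fun x hx => ?_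
    · rw [interior_Icc] at hx
      exact (hd x (hx.2.trans h1)).hasDerivWithinAt
    · rw [interior_Icc] at hx
      have hx1 : 0 < 1 - x := by linarith [hx.2]
      have hl := Real.log_le_sub_one_of_pos hx1
      have he : 1 + (1 - a) * x ≤ (1 - x) ^ (a - 1) := by
        rw [Real.rpow_def_of_pos hx1]
        refine le_trans ?_ (Real.add_one_le_exp _)
        nlinarith
      have := mul_le_mul_of_nonneg_left he ha
      linarith
  have := hmono (Set.left_mem_Icc.2 h0) (Set.right_mem_Icc.2 h0) h0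
  simp [F] at this ⊢
  linarith

/-- The tangent of slope `s` with the cubic bound of the conjugate. -/
theorem hR_ge_linear {d : ℕ} (hd : 2 ≤ d) {z s : ℝ} (hz : z ≤ d) (h0 : 0 ≤ s) (h1 : s < 1) :
    s * z - ((d : ℝ) / (2 * ((d : ℝ) - 1)) * s ^ 2
      + ((d : ℝ) - 2) / (2 * ((d : ℝ) - 1)) * s ^ 3) ≤ hR d z := by
  have hd2 : (2 : ℝ) ≤ d := by exact_mod_cast hd
  have hm : (0 : ℝ) < (d : ℝ) - 1 := by linarith
  set a : ℝ := 1 / ((d : ℝ) - 1) with ha
  have ha0 : 0 ≤ a := by positivity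
  have ha1 : a ≤ 1 := by rw [ha, div_le_one hm]; linarith
  set r := (1 - s) ^ a with hr
  have hr0 : 0 ≤ r := Real.rpow_nonneg (by linarith) a
  have hpow : r ^ (d - 1) = 1 - s := by
    rw [hr, ← Real.rpow_natCast, ← Real.rpow_mul (by linarith), Nat.cast_sub (by omega)]
    push_cast
    rw [ha, one_div_mul_cancel hm.ne', Real.rpow_one]
  have hpow' : r ^ d = (1 - s) * r := by
    rw [← hpow, ← pow_succ, Nat.sub_add_cancel (by omega)]
  have ht := hR_ge_tangent (d := d) (by omega) hz hr0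
  rw [hpow', hpow] at ht
  have hb := mul_le_mul_of_nonneg_left (rpow_one_sub_le ha0 ha1 h0 h1)
    (mul_nonneg hm.le (show (0 : ℝ) ≤ 1 - s by linarith))
  have e : ((d : ℝ) - 1) * (1 - s) * (1 - a * s - a * (1 - a) * s ^ 2 / 2)
      = (d : ℝ) / (2 * ((d : ℝ) - 1)) * s ^ 2
        + ((d : ℝ) - 2) / (2 * ((d : ℝ) - 1)) * s ^ 3 - 1 + d * (1 - s) := by
    rw [ha]
    field_simp
    ring
  rw [e, ← hr] at hb
  linarith

theorem pow_one_sub_le {x : ℝ} (h0 : 0 ≤ x) (h1 : x ≤ 1) :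
    ∀ d : ℕ, (1 - x) ^ d ≤ 1 - d * x + (d : ℝ) * ((d : ℝ) - 1) / 2 * x ^ 2 := by
  intro d
  induction d with
  | zero => simp
  | succ d ih =>
    have hC : (0 : ℝ) ≤ (d : ℝ) * ((d : ℝ) - 1) / 2 := by
      rcases Nat.eq_zero_or_pos d with h | h
      · simp [h]
      · have : (1 : ℝ) ≤ d := by exact_mod_cast h
        nlinarith
    have := mul_le_mul_of_nonneg_left ih (show (0 : ℝ) ≤ 1 - x by linarith)
    have := mul_nonneg hC (pow_nonneg h0 3)
    rw [pow_succ' (1 - x) d]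
    push_cast
    linarith

theorem pow_one_sub_ge {x : ℝ} (h0 : 0 ≤ x) (h1 : x ≤ 1) :
    ∀ d : ℕ, 1 - d * x + (d : ℝ) * ((d : ℝ) - 1) / 2 * x ^ 2
      - (d : ℝ) * ((d : ℝ) - 1) * ((d : ℝ) - 2) / 6 * x ^ 3 ≤ (1 - x) ^ d := by
  intro d
  induction d with
  | zero => simp
  | succ d ih =>
    have hC : (0 : ℝ) ≤ (d : ℝ) * ((d : ℝ) - 1) * ((d : ℝ) - 2) / 6 := by
      rcases d with _ | _ | d
      · simp
      · simp
      · push_cast
        have : (0 : ℝ) ≤ d := Nat.cast_nonneg d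
        ring_nf
        positivity
    have := mul_le_mul_of_nonneg_left ih (show (0 : ℝ) ≤ 1 - x by linarith)
    have := mul_nonneg hC (pow_nonneg h0 4)
    rw [pow_succ' (1 - x) d]
    push_cast
    linarith

theorem hR_le_sq {d : ℕ} (hd : 1 ≤ d) {z : ℝ} (h0 : 0 ≤ z) (h1 : z ≤ d) :
    hR d z ≤ ((d : ℝ) - 1) / (2 * d) * z ^ 2 := by
  have hd' : (0 : ℝ) < d := by exact_mod_cast hd
  have h := pow_one_sub_le (div_nonneg h0 hd'.le) ((div_le_one hd').2 h1) d
  have e : 1 - (d : ℝ) * (z / d) + (d : ℝ) * ((d : ℝ) - 1) / 2 * (z / d) ^ 2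
      = 1 - z + ((d : ℝ) - 1) / (2 * d) * z ^ 2 := by field_simp
  simp only [hR]
  linarith [e ▸ h]

theorem hR_ge_cubic {d : ℕ} (hd : 1 ≤ d) {z : ℝ} (h0 : 0 ≤ z) (h1 : z ≤ d) :
    ((d : ℝ) - 1) / (2 * d) * z ^ 2 - ((d : ℝ) - 1) * ((d : ℝ) - 2) / (6 * (d : ℝ) ^ 2) * z ^ 3
      ≤ hR d z := by
  have hd' : (0 : ℝ) < d := by exact_mod_cast hd
  have h := pow_one_sub_ge (div_nonneg h0 hd'.le) ((div_le_one hd').2 h1) d
  have e : 1 - (d : ℝ) * (z / d) + (d : ℝ) * ((d : ℝ) - 1) / 2 * (z / d) ^ 2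
      - (d : ℝ) * ((d : ℝ) - 1) * ((d : ℝ) - 2) / 6 * (z / d) ^ 3
      = 1 - z + ((d : ℝ) - 1) / (2 * d) * z ^ 2
        - ((d : ℝ) - 1) * ((d : ℝ) - 2) / (6 * (d : ℝ) ^ 2) * z ^ 3 := by field_simp
  simp only [hR]
  linarith [e ▸ h]

theorem hR_le_chord {d : ℕ} (hd : 1 ≤ d) {lo hi z : ℝ} (h1 : lo ≤ z) (h2 : z ≤ hi)
    (h3 : hi ≤ d) : (hi - lo) * hR d z ≤ (hi - z) * hR d lo + (z - lo) * hR d hi := by
  rcases (h1.trans h2).eq_or_lt with h | h
  · obtain rfl : z = lo := le_antisymm (h ▸ h2) h1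
    subst h
    simp
  have hd' : (0 : ℝ) < d := by exact_mod_cast hd
  have hh : 0 < hi - lo := sub_pos.2 h
  have mem : ∀ x ≤ hi, 1 - x / (d : ℝ) ∈ Set.Ici (0 : ℝ) := fun x hx =>
    sub_nonneg.2 ((div_le_one hd').2 (hx.trans h3))
  have key := (convexOn_pow d).2 (mem lo h.le) (mem hi le_rfl)
    (div_nonneg (sub_nonneg.2 h2) hh.le) (div_nonneg (sub_nonneg.2 h1) hh.le) (by field_simp; ring)
  simp only [smul_eq_mul] at key
  rw [show (hi - z) / (hi - lo) * (1 - lo / d) + (z - lo) / (hi - lo) * (1 - hi / d) = 1 - z / d by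
      field_simp; ring,
    div_mul_eq_mul_div, div_mul_eq_mul_div, ← add_div, le_div_iff₀ hh] at key
  simp only [hR]
  linarith

end Vale.Agent.P154.Anti
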