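import Vale.Agent.P154.Anti.SmallPoint
import Vale.Agent.P154.Anti.SmallScalar
import Vale.Agent.P154.Anti.Window
import Vale.Agent.P154.Anti.Tangent

/-!
# Exclusion of small limits

The exponents `(2,2,2)/6`, `(3,3,0)/6` and `(4,1,1)/6` exclude small nonzero limits of the
defect at `(2,2,2)/6` on the critical curve, for Poisson offspring and on regular trees. The
exponent `(5,1,0)/6` is comparable with the first one.
-/

namespace Vale.Agent.P154.Anti.SmallX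

open Finset Vale.Agent.P154.Tree

/-- The pointwise inequality at one edge parameter. -/
theorem pointwise {L SL Y gam : ℝ} (hS : Scalar L SL Y gam) (hSL : 0 ≤ SL)
    {lam d : ℝ} (hd : d * lam ^ 2 = 1) (hlo : -(47 / 100) ≤ lam) (hneg : lam < 0)
    (hab : -lam ≤ SL) (hl2 : lam ^ 2 ≤ L) {u : Fin 3 → ℝ} (u0 : ∀ i, 0 ≤ u i) (u1 : ∑ i, u i = 1) {y kq : ℝ}
    (hy : 0 ≤ y) (hyY : y ≤ Y) (hk : 0 ≤ kq) (hk1 : kq ≤ 1) :
    0 ≤ psi u - d * psi (shrink lam u)
      + kq * y * (d * (37 / 50 * psi (shrink lam u) - 756 / 25 * phi eX (shrink lam u)))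
      + kq * gam * y ^ 2 := by
  have s : u 0 + u 1 + u 2 = 1 := by simpa [Fin.sum_univ_three] using u1
  set v := shrink lam u with hv
  have vdef : ∀ i, v i = lam * u i + (1 - lam) / 3 := fun i => by
    simp [hv, shrink]
  have v1 : ∑ i, v i = 1 := by
    simp only [Fin.sum_univ_three, vdef]
    linear_combination lam * s
  have vlo : ∀ i, 1 / 50 ≤ v i := fun i => by
    have := mul_le_mul_of_nonpos_left (le_one_of_simplex u0 u1 i) hneg.le
    rw [vdef]; linarith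
  have vhi : ∀ i, v i ≤ 49 / 100 := fun i => by
    have := mul_nonpos_of_nonpos_of_nonneg hneg.le (u0 i)
    rw [vdef]; linarith
  have v0 : ∀ i, 0 ≤ v i := fun i => le_trans (by norm_num) (vlo i)
  have hdev : dev v = lam ^ 2 * dev u := by
    simp only [dev, sqDev, Fin.sum_univ_three, vdef]
    push_cast
    ring
  have hA1 : dev u ≤ 1 := by
    have q : ∀ i, u i ^ 2 ≤ u i := fun i => by
      nlinarith [u0 i, le_one_of_simplex u0 u1 i]
    simp only [dev, sqDev, Fin.sum_univ_three]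
    push_cast
    linarith [q 0, q 1, q 2]
  have hA0 : 0 ≤ dev u := by
    simp only [dev, sqDev]
    exact mul_nonneg (by norm_num) (sum_nonneg fun i _ => sq_nonneg _)
  set r := Real.sqrt (dev u) with hr
  have hr2 : r ^ 2 = dev u := Real.sq_sqrt hA0
  have hr0 : 0 ≤ r := Real.sqrt_nonneg _
  have hr1 : r ≤ 1 := by nlinarith
  have hl0 : 0 ≤ lam ^ 2 := sq_nonneg _
  have hL0 : 0 ≤ L := hl0.trans hl2
  have hd0 : 0 ≤ d := by nlinarith
  -- the upper bound after the edge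
  have hup := mul_le_mul_of_nonneg_left (psi_le vlo vhi v1) hd0
  rw [hdev, show d * (26 * (lam ^ 2 * dev u) + 19 / 2 * (lam ^ 2 * dev u) ^ 2
      + 7 * (lam ^ 2 * dev u) ^ 3) = (d * lam ^ 2) * (26 * dev u + 19 / 2 * lam ^ 2 * dev u ^ 2
      + 7 * (lam ^ 2) ^ 2 * dev u ^ 3) by ring, hd, one_mul, ← hr2] at hup
  have a2 := mul_le_mul_of_nonneg_right hl2 (pow_nonneg hr0 4)
  have a3 := mul_le_mul_of_nonneg_right (pow_le_pow_left₀ hl0 hl2 2) (pow_nonneg hr0 6)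
  have hF1 : eta1 L r * r ^ 4 ≤ psi u - d * psi v := by
    have := psi_ge_near u0 u1
    rw [← hr2] at this
    unfold eta1
    linarith
  have hF0 : eta0 L r * r ^ 4 ≤ psi u - d * psi v := by
    have := psi_ge u0 u1
    rw [← hr2] at this
    unfold eta0
    linarith
  -- the lower bound of the mixed term
  have hlow := mul_le_mul_of_nonneg_left (psi_ge v0 v1) hd0
  have hlow' : 26 * r ^ 2 ≤ d * psi v := by
    rw [hdev, ← hr2] at hlow
    have : 0 ≤ d * (16 / 5 * (lam ^ 2 * r ^ 2) ^ 2) := by positivity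
    rw [show (26 : ℝ) * r ^ 2 = d * lam ^ 2 * (26 * r ^ 2) by rw [hd, one_mul]]
    linarith
  have ht : 0 ≤ -lam * r := mul_nonneg (by linarith) hr0
  have hx := mul_le_mul_of_nonneg_left
    (eX_le vlo vhi v1 ht (by rw [hdev, ← hr2]; ring)) hd0
  set T := 3 + 2 * SL * r with hT
  have hT' : 3 + 2 * (-lam * r) ≤ T := by nlinarith
  have hT0 : 0 ≤ 3 + 2 * (-lam * r) := by linarith
  have hx' : d * phi eX v ≤ r ^ 2 * (T / 3 + L * r ^ 2 * T ^ 2 / 9 + L ^ 2 * r ^ 4 * T ^ 3 / 5) := by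
    refine hx.trans (le_of_eq_of_le (show _ = r ^ 2 * ((3 + 2 * (-lam * r)) / 3
      + lam ^ 2 * r ^ 2 * (3 + 2 * (-lam * r)) ^ 2 / 9
      + (lam ^ 2) ^ 2 * r ^ 4 * (3 + 2 * (-lam * r)) ^ 3 / 5) by
        linear_combination (r ^ 2 * ((3 + 2 * (-lam * r)) / 3
          + lam ^ 2 * r ^ 2 * (3 + 2 * (-lam * r)) ^ 2 / 9
          + (lam ^ 2) ^ 2 * r ^ 4 * (3 + 2 * (-lam * r)) ^ 3 / 5)) * hd) ?_)
    gcongr
  have hB : -(r ^ 2 * beta L SL r)
      ≤ d * (37 / 50 * psi v - 756 / 25 * phi eX v) := by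
    unfold beta
    rw [← hT]
    linarith
  have hG := hS hr0 hr1 hy hyY hF1 hF0 hB
  have hF : 0 ≤ psi u - d * psi v := by
    have := hS hr0 hr1 le_rfl (hy.trans hyY) hF1 hF0 hB
    simpa using this
  have e1 := mul_nonneg hk hG
  have e2 := mul_nonneg (sub_nonneg.2 hk1) hF
  linarith

variable {n : ℕ} {A : Fin n → Fin 3 → ℝ}

theorem sum_single (i : Fin n) (a : ℝ) (X : Fin n → ℝ) :
    ∑ j, (Pi.single i a : Fin n → ℝ) j * X j = a * X i := by
  simp [Pi.single_apply, ite_mul]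

/-- No nonzero limit of the first defect is at most `Y`. -/
theorem zero_of_pw (iX iS iT : Fin n) (hX : A iX = eX) (hS : A iS = eS) (hT : A iT = eT)
    {L SL Y gam C : ℝ} (hsc : Scalar L SL Y gam) (hSL : 0 ≤ SL)
    (hgam : 121 / 2 + 98 * (37 / 50) ^ 2 + 196 * C * (37 / 50) ^ 3 * Y + gam
      < 121 * (37 / 50) + 756 / 25)
    {lam d kq : ℝ} (hd : d * lam ^ 2 = 1) (hlo : -(47 / 100) ≤ lam) (hneg : lam < 0)
    (hab : -lam ≤ SL) (hl2 : lam ^ 2 ≤ L) (hk : 0 < kq) (hk1 : kq ≤ 1) {g h : ℝ → ℝ} {M y : Fin n → ℝ}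
    (hM : ∀ j, M j = g (y j)) (hg : ∀ j, g (y j) = d * y j - h (d * y j)) (hy : 0 ≤ y iX)
    (hyY : d * y iX ≤ Y) (hsq : h (d * y iX) ≤ kq / 2 * (d * y iX) ^ 2)
    (hlin : ∀ j, kq * (37 / 50) * (d * y iX) * (d * y j)
      - kq * ((37 / 50) ^ 2 / 2 + C * (37 / 50) ^ 3 * Y) * (d * y iX) ^ 2 ≤ h (d * y j))
    (hpw : ∀ c b : Fin n → ℝ, ∀ k : ℝ, PW 3 lam A c b k →
      0 ≤ (∑ j, (c j * M j + b j * y j)) + k) :
    y iX = 0 := by
  have hd0 : 0 < d := by
    by_contra hn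
    nlinarith [mul_nonpos_of_nonpos_of_nonneg (not_lt.1 hn) (sq_nonneg lam)]
  set z := d * y iX with hz
  have hz0 : 0 ≤ z := mul_nonneg hd0.le hy
  have h := hpw (fun j => (Pi.single iX (-121) : Fin n → ℝ) j + (Pi.single iS 110 : Fin n → ℝ) j
      + (Pi.single iT 86 : Fin n → ℝ) j)
    (fun j => (Pi.single iX (d * (121 - kq * z * (121 * (37 / 50) + 756 / 25))) : Fin n → ℝ) j
      + (Pi.single iS (d * (-110 + kq * z * (110 * (37 / 50)))) : Fin n → ℝ) j
      + (Pi.single iT (d * (-86 + kq * z * (86 * (37 / 50)))) : Fin n → ℝ) j)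
    (kq * gam * z ^ 2) fun u u0 u1 => by
      have hp := pointwise hsc hSL hd hlo hneg hab hl2 u0 u1 hz0 hyY hk.le hk1
      simp only [psi] at hp
      simp only [add_mul, sum_add_distrib, sum_single, hX, hS, hT]
      linarith
  simp only [add_mul, sum_add_distrib, sum_single, hM, hg] at h
  have hS' := hlin iS
  have hT' := hlin iT
  have key : 0 ≤ kq * ((121 / 2 + 98 * (37 / 50) ^ 2 + 196 * C * (37 / 50) ^ 3 * Y + gam)
      - (121 * (37 / 50) + 756 / 25)) * z ^ 2 := by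
    rw [← hz] at h
    linarith
  have hneg' := mul_neg_of_pos_of_neg hk (sub_neg.2 hgam)
  have hz2 : z ^ 2 = 0 := by
    by_contra hne
    have := mul_neg_of_neg_of_pos hneg' (lt_of_le_of_ne (sq_nonneg z) (Ne.symm hne))
    linarith
  exact (mul_eq_zero.1 (pow_eq_zero_iff (two_ne_zero) |>.1 hz2)).resolve_left hd0.ne'

/-- The comparison of the limits at `(5,1,0)/6` and `(2,2,2)/6`. -/
theorem limit_ratio (iX iP : Fin n) (hX : A iX = eX) (hP : A iP = eP) {lam : ℝ}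
    (hlo : -(1 / 2) ≤ lam) (hneg : lam ≤ 0) {M y : Fin n → ℝ}
    (hpw : ∀ c b : Fin n → ℝ, ∀ k : ℝ, PW 3 lam A c b k →
      0 ≤ (∑ j, (c j * M j + b j * y j)) + k) :
    y iP ≤ y iX ∧ y iX ≤ 66 / 25 * y iP := by
  have hv : ∀ u : Fin 3 → ℝ, (∀ i, 0 ≤ u i) → ∑ i, u i = 1 →
      phi eX (shrink lam u) ≤ 66 / 25 * phi eP (shrink lam u) ∧
        phi eP (shrink lam u) ≤ phi eX (shrink lam u) := by
    intro u u0 u1
    refine eX_le_eP (fun i => ?_) ?_
    · have := mul_le_mul_of_nonpos_left (le_one_of_simplex u0 u1 i) hneg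
      simp only [shrink]
      push_cast
      linarith
    · simp only [Fin.sum_univ_three] at u1 ⊢
      simp only [shrink]
      push_cast
      linear_combination lam * u1
  have h1 := hpw 0 (fun j => (Pi.single iX 1 : Fin n → ℝ) j + (Pi.single iP (-1) : Fin n → ℝ) j)
    0 fun u u0 u1 => by
      have := (hv u u0 u1).2
      simp only [Pi.zero_apply, zero_mul, zero_add, add_mul, sum_add_distrib, sum_single, hX, hP]
      linarith
  have h2 := hpw 0
    (fun j => (Pi.single iX (-1) : Fin n → ℝ) j + (Pi.single iP (66 / 25) : Fin n → ℝ) j) 0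
    fun u u0 u1 => by
      have := (hv u u0 u1).1
      simp only [Pi.zero_apply, zero_mul, zero_add, add_mul, sum_add_distrib, sum_single, hX, hP]
      linarith
  simp only [Pi.zero_apply, zero_mul, zero_add, add_mul, sum_add_distrib, sum_single] at h1 h2
  constructor <;> linarith

/-- The conjugate of the Poisson generation function at a small slope. -/
theorem hP_slope {C Y kz : ℝ} (hC : 1 / 5 ≤ C) (h0 : 0 ≤ kz) (h1 : kz ≤ Y) (hY : Y ≤ 1 / 50)
    (x : ℝ) :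
    37 / 50 * kz * x - ((37 / 50) ^ 2 / 2 + C * (37 / 50) ^ 3 * Y) * kz ^ 2 ≤ hP x := by
  set s := 37 / 50 * kz with hs
  have hs0 : 0 ≤ s := by positivity
  have hs1 : s ≤ 1 / 50 := by linarith
  have h := hP_ge_linear_five hs0 (by linarith) x
  have e : s ^ 3 / 6 + s ^ 4 / 12 + s ^ 5 / 4 ≤ C * s ^ 3 := by
    have : 1 / 6 + s / 12 + s ^ 2 / 4 ≤ C := by nlinarith
    have := mul_le_mul_of_nonneg_right this (pow_nonneg hs0 3)
    linarith
  have e2 := mul_le_mul_of_nonneg_left h1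
    (show 0 ≤ C * (37 / 50) ^ 3 * kz ^ 2 by have : 0 ≤ C := by linarith
                                            positivity)
  have es3 : C * s ^ 3 = C * (37 / 50) ^ 3 * kz ^ 2 * kz := by rw [hs]; ring
  have es2 : s ^ 2 = (37 / 50) ^ 2 * kz ^ 2 := by rw [hs]; ring
  linarith

/-- Poisson offspring, general form. -/
theorem zero_poisson (iX iS iT : Fin n) (hX : A iX = eX) (hS : A iS = eS) (hT : A iT = eT)
    {L SL Y gam C : ℝ} (hsc : Scalar L SL Y gam) (hSL : 0 ≤ SL)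
    (hgam : 121 / 2 + 98 * (37 / 50) ^ 2 + 196 * C * (37 / 50) ^ 3 * Y + gam
      < 121 * (37 / 50) + 756 / 25)
    (hC : 1 / 5 ≤ C) (hY : Y ≤ 1 / 50)
    {lam d : ℝ} (hd : d * lam ^ 2 = 1) (hlo : -(47 / 100) ≤ lam) (hneg : lam < 0)
    (hab : -lam ≤ SL) (hl2 : lam ^ 2 ≤ L) {M y : Fin n → ℝ} (hM : ∀ j, M j = 1 - Real.exp (-(d * y j)))
    (hy : ∀ j, 0 ≤ y j) (hyY : d * y iX ≤ Y)
    (hpw : ∀ c b : Fin n → ℝ, ∀ k : ℝ, PW 3 lam A c b k →
      0 ≤ (∑ j, (c j * M j + b j * y j)) + k) :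
    y iX = 0 := by
  have hd0 : 0 ≤ d := by nlinarith [sq_nonneg lam]
  have hz : 0 ≤ d * y iX := mul_nonneg hd0 (hy iX)
  refine zero_of_pw iX iS iT hX hS hT hsc hSL hgam hd hlo hneg hab hl2 one_pos le_rfl
    (g := fun y => 1 - Real.exp (-(d * y))) (h := hP) hM (fun j => by simp only [hP]; ring) (hy iX) hyY
    ((hP_le_sq hz).trans_eq (by ring)) (fun j => ?_) hpw
  have := hP_slope hC hz hyY hY (d * y j)
  linarith

/-- Small limits at `(2,2,2)/6`, Poisson offspring, `λ² ≤ 1/5`. -/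
theorem smallExcl_poisson_X (iX iS iT : Fin n) (hX : A iX = Box.expo3 ⟨2, 2, 2⟩)
    (hS : A iS = Box.expo3 ⟨3, 3, 0⟩) (hT : A iT = Box.expo3 ⟨4, 1, 1⟩) {x0 lam d : ℝ}
    (hx : x0 ≤ 1 / 80) (hd : d * lam ^ 2 = 1) (hneg : lam < 0) (hl2 : lam ^ 2 ≤ 1 / 5) :
    SmallExcl A (fun y => 1 - Real.exp (-(d * y))) iX x0 lam d := by
  intro M y hM hy _ hxy hpw
  exact zero_poisson iX iS iT hX hS hT (C := 1 / 2) scalar_high (by norm_num) (by norm_num)
    (by norm_num) (by norm_num) hd (by nlinarith) hneg (by nlinarith) hl2 hM hy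
    (hxy.trans hx) hpw

/-- Small limits at `(2,2,2)/6`, Poisson offspring, `-47/100 ≤ λ < 0`. -/
theorem smallExcl_poisson_X' (iX iS iT : Fin n) (hX : A iX = Box.expo3 ⟨2, 2, 2⟩)
    (hS : A iS = Box.expo3 ⟨3, 3, 0⟩) (hT : A iT = Box.expo3 ⟨4, 1, 1⟩) {x0 lam d : ℝ}
    (hx : x0 ≤ 3 / 250) (hd : d * lam ^ 2 = 1) (hneg : lam < 0) (hl : -(47 / 100) ≤ lam) :
    SmallExcl A (fun y => 1 - Real.exp (-(d * y))) iX x0 lam d := by
  intro M y hM hy _ hxy hpw
  exact zero_poisson iX iS iT hX hS hT (C := 1 / 5) scalar_low (by norm_num) (by norm_num)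
    (by norm_num) (by norm_num) hd hl hneg (by linarith) (by nlinarith) hM hy
    (hxy.trans hx) hpw

/-- Small limits at `(5,1,0)/6`, Poisson offspring, `-47/100 ≤ λ < 0`. -/
theorem smallExcl_poisson_P (iP iX iS iT : Fin n) (hP : A iP = Box.expo3 ⟨5, 1, 0⟩)
    (hX : A iX = Box.expo3 ⟨2, 2, 2⟩) (hS : A iS = Box.expo3 ⟨3, 3, 0⟩)
    (hT : A iT = Box.expo3 ⟨4, 1, 1⟩) {x0 lam d : ℝ}
    (hx : x0 ≤ 1 / 220) (hd : d * lam ^ 2 = 1) (hneg : lam < 0) (hl : -(47 / 100) ≤ lam) :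
    SmallExcl A (fun y => 1 - Real.exp (-(d * y))) iP x0 lam d := by
  intro M y hM hy _ hxy hpw
  obtain ⟨hPX, hXP⟩ := limit_ratio iX iP hX hP (by linarith) hneg.le hpw
  have hd0 : 0 ≤ d := by nlinarith [sq_nonneg lam]
  have h := mul_le_mul_of_nonneg_left hXP hd0
  have := zero_poisson iX iS iT hX hS hT (C := 1 / 5) scalar_low (by norm_num) (by norm_num)
    (by norm_num) (by norm_num) hd hl hneg (by linarith) (by nlinarith) hM hy (by linarith) hpw
  exact le_antisymm (hPX.trans this.le) (hy iP)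

/-- Small limits at `(2,2,2)/6` on the regular tree, `λ² ≤ 1/5`. -/
theorem smallExcl_regular_X (iX iS iT : Fin n) (hX : A iX = Box.expo3 ⟨2, 2, 2⟩)
    (hS : A iS = Box.expo3 ⟨3, 3, 0⟩) (hT : A iT = Box.expo3 ⟨4, 1, 1⟩) {x0 lam : ℝ} {k : ℕ}
    (hx : x0 ≤ 1 / 80) (hd : (k : ℝ) * lam ^ 2 = 1) (hneg : lam < 0) (hl2 : lam ^ 2 ≤ 1 / 5) :
    SmallExcl A (fun y => 1 - (1 - y) ^ k) iX x0 lam k := by
  intro M y hM hy hy1 hxy hpw
  have hk5 : (5 : ℝ) ≤ k := by nlinarith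
  have hk2 : 2 ≤ k := by exact_mod_cast (show (2 : ℝ) ≤ k by linarith)
  have hk0 : (0 : ℝ) < k := by linarith
  have hk1 : (0 : ℝ) < (k : ℝ) - 1 := by linarith
  set kq := ((k : ℝ) - 1) / k with hkq
  have hkq0 : 0 < kq := div_pos hk1 hk0
  have hkq1 : kq ≤ 1 := by rw [hkq, div_le_one hk0]; linarith
  have hz : ∀ j, (k : ℝ) * y j ≤ k := fun j => mul_le_of_le_one_right hk0.le (hy1 j)
  set z := (k : ℝ) * y iX with hzdef
  have hz0 : 0 ≤ z := mul_nonneg hk0.le (hy iX)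
  have hzY : z ≤ 1 / 80 := hxy.trans hx
  refine zero_of_pw iX iS iT hX hS hT (L := 1 / 5) (C := 1 / 2) scalar_high (by norm_num)
    (by norm_num) hd (by nlinarith) hneg (by nlinarith) hl2 hkq0 hkq1
    (g := fun y => 1 - (1 - y) ^ k) (h := hR k) hM (fun j => ?_) (hy iX) hzY ?_ (fun j => ?_) hpw
  · simp only [hR, mul_div_cancel_left₀ _ hk0.ne']
    ring
  · exact (hR_le_sq (by omega) hz0 (hz iX)).trans_eq (by rw [hkq]; ring)
  · set s := kq * (37 / 50) * z with hs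
    have hs0 : 0 ≤ s := by positivity
    have hsz : s ≤ 37 / 50 * z := by
      rw [hs]; nlinarith [mul_nonneg (sub_nonneg.2 hkq1) hz0]
    have h := hR_ge_linear hk2 (hz j) hs0 (by linarith)
    have e2 : (k : ℝ) / (2 * ((k : ℝ) - 1)) * s ^ 2 = kq * ((37 / 50) ^ 2 / 2) * z ^ 2 := by
      rw [hs, hkq]; field_simp
    have c3 : ((k : ℝ) - 2) / (2 * ((k : ℝ) - 1)) ≤ 1 / 2 := by
      rw [div_le_iff₀ (by linarith)]; linarith
    have hs3 : s ^ 3 ≤ kq * (37 / 50) ^ 3 * (1 / 80) * z ^ 2 := by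
      have a : kq ^ 3 ≤ kq := by simpa using pow_le_pow_of_le_one hkq0.le hkq1 (show 1 ≤ 3 by norm_num)
      calc s ^ 3 = kq ^ 3 * ((37 / 50) ^ 3 * z ^ 2 * z) := by rw [hs]; ring
        _ ≤ kq * ((37 / 50) ^ 3 * z ^ 2 * (1 / 80)) := by gcongr
        _ = _ := by ring
    have e3 := mul_le_mul c3 hs3 (pow_nonneg hs0 3) (by norm_num)
    linarith

end Vale.Agent.P154.Anti.SmallX
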