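import Vale.Agent.P154.Anti.SmallHalfPoint
import Vale.Agent.P154.Anti.SmallX

/-!
# Exclusion of small limits at the Kesten-Stigum end of the antiferromagnetic range

For `λ` in `[-1/2, -47/100]` (Poisson offspring) and at `λ = -1/2` (regular tree of degree four)
the exponents `(2,2,2)/6`, `(3,3,0)/6`, `(4,1,1)/6`, `(5,1,0)/6` exclude small nonzero limits of
the defect at `(2,2,2)/6`.
-/

namespace Vale.Agent.P154.Anti.SmallHalf

open Finset Vale.Agent.P154.Tree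
open Vale.Agent.P154.Anti.SmallX (dev root6 root6_nonneg root6_six root6_sorted eX eS eT eP
  dev_relabel sum_single bern_basis)

/-- The coefficient of `A²` near zero. -/
noncomputable def etaNear (A : ℝ) : ℝ := 743 / 100 - 61 / 80 * A - 85 * A ^ 2
/-- The coefficient of `A²` everywhere. -/
noncomputable def etaAll (A : ℝ) : ℝ := 73 / 15 - 258 / 100 - 61 / 80 * A

/-- The scalar inequality on `[0, Y]`. -/
def Scalar (sc Y gam : ℝ) (beta : ℝ → ℝ) : Prop :=
  ∀ ⦃A y F B : ℝ⦄, 0 ≤ A → A ≤ 1 → 0 ≤ y → y ≤ Y → etaNear A * A ^ 2 ≤ F →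
    etaAll A * A ^ 2 ≤ F → -(A * beta A) ≤ B → 0 ≤ sc * F + y * B + gam * y ^ 2

/-- A quadratic below the discriminant, and the largest `y` above it. -/
theorem scalar_of {sc Y gam A1 : ℝ} {beta : ℝ → ℝ} (hsc : 0 < sc) (hg : 0 ≤ gam) (h1 : 0 ≤ A1)
    (he : 0 < etaNear A1) (hb : 0 ≤ beta A1)
    (hmonob : ∀ s t, 0 ≤ s → s ≤ t → beta s ≤ beta t)
    (hdisc : beta A1 ^ 2 ≤ 4 * (sc * etaNear A1) * gam) (hmono : 2 * gam * Y ≤ A1 * beta A1)
    (hq : ∀ A, A1 ≤ A → A ≤ 1 →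
      0 ≤ sc * etaNear A * A ^ 2 - Y * (beta A * A) + gam * Y ^ 2 ∨
        0 ≤ sc * etaAll A * A ^ 2 - Y * (beta A * A) + gam * Y ^ 2) :
    Scalar sc Y gam beta := by
  intro A y F B hA hA1 hy hyY hF1 hF0 hB
  have hyB := mul_le_mul_of_nonneg_left hB hy
  have f1 := mul_le_mul_of_nonneg_left hF1 hsc.le
  have f0 := mul_le_mul_of_nonneg_left hF0 hsc.le
  rcases le_total A A1 with h | h
  · have hem : etaNear A1 ≤ etaNear A := by
      unfold etaNear
      gcongr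
    have hF := (mul_le_mul_of_nonneg_left (mul_le_mul_of_nonneg_right hem (sq_nonneg A))
      hsc.le).trans f1
    have hβ := mul_le_mul_of_nonneg_left (hmonob A A1 hA h) (mul_nonneg hy hA)
    have e0 : 0 < sc * etaNear A1 := mul_pos hsc he
    have key : 0 ≤ 4 * (sc * etaNear A1) * (sc * etaNear A1 * A ^ 2 - y * beta A1 * A
        + gam * y ^ 2) := by
      linear_combination sq_nonneg (2 * (sc * etaNear A1) * A - beta A1 * y)
        + mul_nonneg (sub_nonneg.2 hdisc) (sq_nonneg y)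
    have := (mul_nonneg_iff_of_pos_left (show 0 < 4 * (sc * etaNear A1) by linarith)).1 key
    linarith
  · have hm : 2 * gam * Y ≤ A * beta A :=
      hmono.trans (mul_le_mul h (hmonob A1 A h1 h) hb hA)
    have hd : 0 ≤ (Y - y) * (A * beta A - gam * (Y + y)) :=
      mul_nonneg (sub_nonneg.2 hyY) (by linarith [mul_le_mul_of_nonneg_left hyY hg])
    rcases hq A h hA1 with hh | hh <;> linarith

/-- The edge bound for Poisson offspring. -/
noncomputable def betaP (A : ℝ) : ℝ := 1347 / 100 + 66 * A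
/-- The edge bound on the regular tree. -/
noncomputable def betaR (A : ℝ) : ℝ := 1422 / 100 + 31 * A + 28 * A ^ 2

theorem scalar_poisson : Scalar 1 (1 / 140) (131 / 20) betaP := by
  refine scalar_of (A1 := 68 / 10000) one_pos (by norm_num) (by norm_num)
    (by norm_num [etaNear]) (by norm_num [betaP]) (fun s t _ hst => by unfold betaP; linarith)
    (by norm_num [etaNear, betaP]) (by norm_num [betaP]) fun A h0 h1 => ?_
  unfold etaNear etaAll betaP
  rcases le_total A (23 / 100) with h | h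
  · left
    rcases le_total A (89 / 10000) with h' | h'
    · linarith [bern_basis h0 h' 0 4, bern_basis h0 h' 1 3, bern_basis h0 h' 2 2,
        bern_basis h0 h' 3 1, bern_basis h0 h' 4 0]
    · linarith [bern_basis h' h 0 4, bern_basis h' h 1 3, bern_basis h' h 2 2,
        bern_basis h' h 3 1, bern_basis h' h 4 0]
  · right
    linarith [bern_basis h h1 0 3, bern_basis h h1 1 2, bern_basis h h1 2 1, bern_basis h h1 3 0]

theorem scalar_regular : Scalar (4 / 3) (1 / 36) (31 / 5) betaR := by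
  refine scalar_of (A1 := 233 / 10000) (by norm_num) (by norm_num) (by norm_num)
    (by norm_num [etaNear]) (by norm_num [betaR])
    (fun s t hs hst => by
      have := pow_le_pow_left₀ hs hst 2
      unfold betaR; linarith)
    (by norm_num [etaNear, betaR]) (by norm_num [betaR]) fun A h0 h1 => ?_
  unfold etaNear etaAll betaR
  rcases le_total A (23 / 100) with h | h
  · left
    linarith [bern_basis h0 h 0 4, bern_basis h0 h 1 3, bern_basis h0 h 2 2,
      bern_basis h0 h 3 1, bern_basis h0 h 4 0]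
  · right
    linarith [bern_basis h h1 0 3, bern_basis h h1 1 2, bern_basis h h1 2 1, bern_basis h h1 3 0]

/-- The vertex polynomial. -/
noncomputable def vertex (b c : ℝ) : ℝ :=
  89 - 46 * (c * b ^ 5) - 118 * (c ^ 2 * b ^ 4) - 323 * (c ^ 3 * b ^ 3) - 240 * (c ^ 5 * b)
    - 115 * c ^ 6

theorem vertex_le {b c : ℝ} (hc : 0 ≤ c) (hb : 8888 / 10000 ≤ b) :
    vertex b c ≤ 89 - 2509 / 100 * c - 73526 / 1000 * c ^ 2 - 2264 / 10 * c ^ 3
      - 2128 / 10 * c ^ 5 - 11441 / 100 * c ^ 6 := by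
  have p : ∀ m, (8888 / 10000 : ℝ) ^ m ≤ b ^ m := fun m => pow_le_pow_left₀ (by norm_num) hb m
  have a1 := mul_le_mul_of_nonneg_left (p 5) hc
  have a2 := mul_le_mul_of_nonneg_left (p 4) (pow_nonneg hc 2)
  have a3 := mul_le_mul_of_nonneg_left (p 3) (pow_nonneg hc 3)
  have a5 := mul_le_mul_of_nonneg_left hb (pow_nonneg hc 5)
  unfold vertex
  linarith [pow_nonneg hc 2, pow_nonneg hc 3, pow_nonneg hc 5, pow_nonneg hc 6]

/-- The mixed term of one vector. -/
noncomputable def mixed (d : ℝ) (v : Fin 3 → ℝ) : ℝ := d * theta v / 100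

/-- Near a vertex the slack absorbs the mixed term. -/
theorem corner {lam d : ℝ} (hd : d * lam ^ 2 = 1) (hlo : -(1 / 2) ≤ lam) (hneg : lam < 0)
    {u v : Fin 3 → ℝ} (u0 : ∀ i, 0 ≤ u i) (u1 : ∑ i, u i = 1)
    (hv : ∀ i, v i = lam * u i + (1 - lam) / 3) (h21 : v 2 ≤ v 1) (h10 : v 1 ≤ v 0)
    (v0 : ∀ i, 0 ≤ v i) (v1 : ∑ i, v i = 1) (hhalf : v 0 ≤ 1 / 2)
    (hc : 50 * root6 (v 2) ≤ 24 * root6 (v 1)) :
    0 ≤ psi u - d * psi v ∧ 0 ≤ psi u - d * psi v + 1 / 36 * mixed d v := by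
  obtain ⟨r0, r1, r2⟩ := root6_sorted v0 h21 h10
  have q : ∀ i, root6 (v i) ^ 6 = v i := fun i => root6_six (v0 i)
  have s : u 0 + u 1 + u 2 = 1 := by simpa [Fin.sum_univ_three] using u1
  have sv : v 0 + v 1 + v 2 = 1 := by simpa [Fin.sum_univ_three] using v1
  obtain ⟨eM, -⟩ := mass_dev v0 v1
  obtain ⟨eC, eT⟩ := forms v0 v1
  set a := root6 (v 0) with hadef
  set b := root6 (v 1)
  set c := root6 (v 2)
  have key : ∀ x y : ℝ, 0 ≤ y → x ^ 6 ≤ y ^ 6 → 0 ≤ x → x ≤ y := fun x y hy h hx =>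
    (pow_le_pow_iff_left₀ hx hy (show 6 ≠ 0 by norm_num)).1 h
  have hc6 := pow_le_pow_left₀ (mul_nonneg (by norm_num) r0) hc 6
  rw [mul_pow, mul_pow, q, q] at hc6
  have hvb : v 1 ≤ 1 / 2 := h10.trans hhalf
  have hw : v 2 ≤ 7 / 1000 := by linarith
  have hb : 8888 / 10000 ≤ b := key _ _ (r0.trans r1) (by rw [q]; norm_num; linarith) (by norm_num)
  have hb0 : 0 < b := by linarith
  have ha : 50 * a ≤ 51 * b := key _ _ (by linarith) (by
    rw [mul_pow, mul_pow, q, q]; norm_num; linarith) (mul_nonneg (by norm_num) (r0.trans (r1.trans r2)))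
  -- the parameter and the two small entries before the edge
  have hv2 := hv 2
  have hmax := mul_le_mul_of_nonpos_left (le_one_of_simplex u0 u1 2) hneg.le
  have hl : (1 - 3 * v 2) / 2 ≤ -lam := by linarith
  have hq0 : 0 ≤ (1 - 3 * v 2) / 2 := by linarith
  have hl2 := pow_le_pow_left₀ hq0 hl 2
  rw [neg_sq] at hl2
  have ht : u 0 + u 1 ≤ 2043 / 1000 * c ^ 6 := by
    rw [q]
    have e : -lam * (u 0 + u 1) ≤ v 2 := by
      rw [hv2, show u 2 = 1 - (u 0 + u 1) by linarith]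
      linarith
    have e2 := mul_le_mul_of_nonneg_right (show 489 / 1000 ≤ -lam by linarith)
      (add_nonneg (u0 0) (u0 1))
    have e3 := mul_le_mul_of_nonneg_right (show 4895 / 10000 ≤ -lam by linarith)
      (add_nonneg (u0 0) (u0 1))
    linarith
  have hL := (vertex_le r0 hb).trans (psi_ge_vertex u0 u1 r0 ht)
  have hpsi : 0 ≤ psi u := by
    have := psi_ge u0 u1
    have : 0 ≤ dev u := mul_nonneg (by norm_num) (sum_nonneg fun i _ => sq_nonneg _)
    nlinarith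
  have hlow : ((1 - 3 * v 2) / 2) ^ 2 * vertex b c ≤ lam ^ 2 * psi u :=
    (mul_le_mul_of_nonneg_left hL (sq_nonneg _)).trans (mul_le_mul_of_nonneg_right hl2 hpsi)
  have eV : vertexH (fun z : ℤ => (z : ℝ)) a b c = vertex b c := by
    simp only [vertexH, vertex, eM, SmallX.sqH, SmallX.cuH]
    push_cast
    ring
  have e3 : SmallX.massH a b c - 3 * SmallX.sqH (SmallX.cuH c) = 1 - 3 * v 2 := by
    rw [eM, ← q 2]
    simp only [SmallX.sqH, SmallX.cuH]
    ring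
  have hd0 : 0 ≤ d := by nlinarith [sq_nonneg lam]
  have E : d * (lam ^ 2 * psi u) = psi u := by rw [← mul_assoc, hd, one_mul]
  have box := fun {fE : Q3.Ex → Q3.Ex → Q3.Ex → Q3.Ex} {fR : ℝ → ℝ → ℝ → ℝ}
      (hev : ∀ x a b c, Q3.Ex.ev x (fE a b c) = fR (Q3.Ex.ev x a) (Q3.Ex.ev x b) (Q3.Ex.ev x c))
      (hck : Q3.check 168 19 19 13 (ratioBox fE 50 51 0 24) = true) =>
    ratio_nonneg (fR := fR) hev hck (by norm_num) (by norm_num) hb0 (a := a) (c := c)
      (by push_cast; linarith) (by push_cast; exact ha) (by push_cast; linarith)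
      (by push_cast; exact hc)
  refine ⟨?_, ?_⟩
  · have h := box (fR := cornerZeroH fun z : ℤ => (z : ℝ)) ev_cornerZeroH cert_cornerZero
    simp only [cornerZeroH, eV, eC] at h
    push_cast at h
    rw [e3] at h
    simp only [SmallX.sqH, eM, mul_one] at h
    have := mul_nonneg hd0 (show 0 ≤ lam ^ 2 * psi u - psi v by linarith)
    linarith
  · have h := box (fR := cornerH fun z : ℤ => (z : ℝ)) ev_cornerH cert_corner
    simp only [cornerH, eV, eC, eT] at h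
    push_cast at h
    rw [e3] at h
    simp only [SmallX.sqH, eM, mul_one] at h
    have := mul_nonneg hd0 (show 0 ≤ lam ^ 2 * psi u - psi v + 1 / 3600 * theta v by linarith)
    unfold mixed
    linarith

/-- The pointwise inequality at a vector with increasing entries. -/
theorem pointwise_sorted {sc Y gam kq B0 k1 k2 : ℝ} (hsc : Scalar sc Y gam fun A =>
      B0 + k1 * A + k2 * A ^ 2) (hY : Y ≤ 1 / 36) (hkq : kq * sc = 1) (hk : 0 ≤ kq) (hk1' : kq ≤ 1)
    (hk1 : 0 ≤ k1) (hk2 : 0 ≤ k2) (hg : 0 ≤ gam)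
    (hedge : ∀ v : Fin 3 → ℝ, (∀ i, 0 ≤ v i) → ∑ i, v i = 1 → v 2 ≤ v 1 → v 1 ≤ v 0 →
      v 0 ≤ 1 / 2 → 24 * root6 (v 1) ≤ 50 * root6 (v 2) →
      -(100 * B0 * dev v + 400 * k1 * dev v ^ 2 + 1600 * k2 * dev v ^ 3) ≤ theta v)
    {lam d : ℝ} (hd : d * lam ^ 2 = 1) (hlo : -(1 / 2) ≤ lam) (hneg : lam < 0) {x : Fin 3 → ℝ}
    (x0 : ∀ i, 0 ≤ x i) (x1 : ∑ i, x i = 1) (g21 : x 1 ≤ x 2) (g10 : x 0 ≤ x 1) {y : ℝ} (hy : 0 ≤ y) (hyY : y ≤ Y) :
    0 ≤ psi x - d * psi (shrink lam x) + kq * y * mixed d (shrink lam x)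
      + kq * gam * y ^ 2 := by
  have vdef : ∀ (u : Fin 3 → ℝ) i, shrink lam u i = lam * u i + (1 - lam) / 3 := fun u i => by
    simp [shrink]
  set v := shrink lam x with hvd
  have hv : ∀ i, v i = lam * x i + (1 - lam) / 3 := vdef x
  have s : x 0 + x 1 + x 2 = 1 := by simpa [Fin.sum_univ_three] using x1
  have v21 : v 2 ≤ v 1 := by
    rw [hv, hv]; linarith [mul_le_mul_of_nonpos_left g21 hneg.le]
  have v10 : v 1 ≤ v 0 := by
    rw [hv, hv]; linarith [mul_le_mul_of_nonpos_left g10 hneg.le]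
  have v0 : ∀ i, 0 ≤ v i := fun i => by
    have := mul_le_mul_of_nonpos_left (le_one_of_simplex x0 x1 i) hneg.le
    rw [hv]; linarith
  have vhalf : v 0 ≤ 1 / 2 := by
    have := mul_nonpos_of_nonpos_of_nonneg hneg.le (x0 0)
    rw [hv]; linarith
  have v1 : ∑ i, v i = 1 := by
    simp only [Fin.sum_univ_three, hv]
    linear_combination lam * s
  have hl0 : 0 ≤ lam ^ 2 := sq_nonneg _
  have hd0 : 0 ≤ d := by nlinarith
  have hkg : 0 ≤ kq * gam * y ^ 2 := mul_nonneg (mul_nonneg hk hg) (sq_nonneg y)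
  rcases le_total (50 * root6 (v 2)) (24 * root6 (v 1)) with hc | hc
  · obtain ⟨hF, hFB⟩ := corner hd hlo hneg x0 x1 hv v21 v10 v0 v1 vhalf hc
    have s1 : kq * y * 36 ≤ 1 := by
      linarith [mul_le_mul hk1' (hyY.trans hY) hy zero_le_one]
    have := mul_nonneg (mul_nonneg (mul_nonneg hk hy) (show (0 : ℝ) ≤ 36 by norm_num)) hFB
    have := mul_nonneg (sub_nonneg.2 s1) hF
    linarith
  have hdev : dev v = lam ^ 2 * dev x := by
    simp only [dev, sqDev, Fin.sum_univ_three, hv]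
    push_cast
    ring
  have hA0 : 0 ≤ dev x := mul_nonneg (by norm_num) (sum_nonneg fun i _ => sq_nonneg _)
  have hA1 : dev x ≤ 1 := by
    have q : ∀ i, x i ^ 2 ≤ x i := fun i => by
      nlinarith [x0 i, le_one_of_simplex x0 x1 i]
    simp only [dev, sqDev, Fin.sum_univ_three]
    push_cast
    linarith [q 0, q 1, q 2]
  have hl2 : lam ^ 2 ≤ 1 / 4 := by nlinarith
  obtain ⟨hdown, -, -⟩ := edge_bounds v0 v1 v21 v10 vhalf hc
  have hed := hedge v v0 v1 v21 v10 vhalf hc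
  set A := dev x
  rw [hdev] at hdown hed
  have hup := mul_le_mul_of_nonneg_left hdown hd0
  have hlow := mul_le_mul_of_nonneg_left hed hd0
  have a2 := mul_le_mul_of_nonneg_right hl2 (sq_nonneg A)
  have a3 := mul_le_mul_of_nonneg_right (pow_le_pow_left₀ hl0 hl2 2) (pow_nonneg hA0 3)
  have b2 := mul_le_mul_of_nonneg_left a2 hk1
  have b3 := mul_le_mul_of_nonneg_left a3 hk2
  have m1 : ∀ K, d * (K * (lam ^ 2 * A)) = K * A := fun K => by
    linear_combination K * A * hd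
  have m2 : ∀ K, d * (K * (lam ^ 2 * A) ^ 2) = K * (lam ^ 2 * A ^ 2) := fun K => by
    linear_combination K * lam ^ 2 * A ^ 2 * hd
  have m3 : ∀ K, d * (K * (lam ^ 2 * A) ^ 3) = K * ((lam ^ 2) ^ 2 * A ^ 3) := fun K => by
    linear_combination K * (lam ^ 2) ^ 2 * A ^ 3 * hd
  rw [mul_add, mul_add, m1, m2, m3] at hup
  rw [mul_neg, mul_add, mul_add, m1, m2, m3] at hlow
  have hF1 : etaNear A * A ^ 2 ≤ psi x - d * psi v := by
    have := psi_ge_near x0 x1
    unfold etaNear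
    linarith
  have hF0 : etaAll A * A ^ 2 ≤ psi x - d * psi v := by
    have := psi_ge x0 x1
    unfold etaAll
    linarith
  have hB : -(A * (B0 + k1 * A + k2 * A ^ 2)) ≤ mixed d v := by
    unfold mixed
    linarith
  have hG := mul_nonneg hk (hsc hA0 hA1 hy hyY hF1 hF0 hB)
  have eF : kq * (sc * (psi x - d * psi v)) = psi x - d * psi v := by
    rw [← mul_assoc, hkq, one_mul]
  linarith

/-- The pointwise inequality at one edge parameter. -/
theorem pointwise {sc Y gam kq B0 k1 k2 : ℝ} (hsc : Scalar sc Y gam fun A =>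
      B0 + k1 * A + k2 * A ^ 2) (hY : Y ≤ 1 / 36) (hkq : kq * sc = 1) (hk : 0 ≤ kq) (hk1' : kq ≤ 1)
    (hk1 : 0 ≤ k1) (hk2 : 0 ≤ k2) (hg : 0 ≤ gam)
    (hedge : ∀ v : Fin 3 → ℝ, (∀ i, 0 ≤ v i) → ∑ i, v i = 1 → v 2 ≤ v 1 → v 1 ≤ v 0 →
      v 0 ≤ 1 / 2 → 24 * root6 (v 1) ≤ 50 * root6 (v 2) →
      -(100 * B0 * dev v + 400 * k1 * dev v ^ 2 + 1600 * k2 * dev v ^ 3) ≤ theta v)
    {lam d : ℝ} (hd : d * lam ^ 2 = 1) (hlo : -(1 / 2) ≤ lam) (hneg : lam < 0) {u : Fin 3 → ℝ}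
    (u0 : ∀ i, 0 ≤ u i) (u1 : ∑ i, u i = 1) {y : ℝ} (hy : 0 ≤ y) (hyY : y ≤ Y) :
    0 ≤ psi u - d * psi (shrink lam u) + kq * y * mixed d (shrink lam u)
      + kq * gam * y ^ 2 := by
  have vdef : ∀ (u : Fin 3 → ℝ) i, shrink lam u i = lam * u i + (1 - lam) / 3 := fun u i => by
    simp [shrink]
  refine sorted_cases
    (P := fun u => 0 ≤ psi u - d * psi (shrink lam u) + kq * y * mixed d (shrink lam u)
      + kq * gam * y ^ 2)
    (fun u s hu => ?_) ?_ u0 u1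
  · have e : shrink lam (fun i => u (s i)) = fun i => shrink lam u (s i) := by
      funext i; simp [vdef]
    simpa [e, psi_relabel, theta_relabel, mixed] using hu
  intro w w0 w1 h21 h10
  -- reverse, so that the entries after the edge decrease
  set e : Equiv.Perm (Fin 3) := Equiv.swap 0 2
  have e1 : psi w = psi (fun i => w (e i)) := (psi_relabel w e).symm
  have e2 : shrink lam (fun i => w (e i)) = fun i => shrink lam w (e i) := by
    funext i; simp [vdef]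
  rw [e1, ← psi_relabel (shrink lam w) e, show mixed d (shrink lam w)
      = mixed d (fun i => shrink lam w (e i)) by simp [mixed, theta_relabel], ← e2]
  have x0 : ∀ i, 0 ≤ w (e i) := fun i => w0 _
  have x1 : ∑ i, w (e i) = 1 := by rw [Equiv.sum_comp e w]; exact w1
  exact pointwise_sorted hsc hY hkq hk hk1' hk1 hk2 hg hedge hd hlo hneg x0 x1
    (by simp [e, Equiv.swap_apply_def]; exact h10) (by simp [e, Equiv.swap_apply_def]; exact h21)
    hy hyY

variable {n : ℕ} {A : Fin n → Fin 3 → ℝ}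

/-- No nonzero limit of the first defect is at most `Y`. -/
theorem zero_of_pw (iX iS iT iP : Fin n) (hX : A iX = eX) (hS : A iS = eS) (hT : A iT = eT)
    (hP : A iP = eP) {sc Y gam kq B0 k1 k2 C : ℝ}
    (hsc : Scalar sc Y gam fun A => B0 + k1 * A + k2 * A ^ 2) (hY : Y ≤ 1 / 36)
    (hkq : kq * sc = 1) (hk : 0 < kq) (hk1' : kq ≤ 1) (hk1 : 0 ≤ k1) (hk2 : 0 ≤ k2)
    (hg : 0 ≤ gam)
    (hgam : 121 / 2 + (185 * (37 / 50) ^ 2 + 25 * (41 / 100) ^ 2) / 2
      + (185 * (37 / 50) ^ 3 + 25 * (41 / 100) ^ 3) * C * Y + gam < 1199 / 10)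
    (hedge : ∀ v : Fin 3 → ℝ, (∀ i, 0 ≤ v i) → ∑ i, v i = 1 → v 2 ≤ v 1 → v 1 ≤ v 0 →
      v 0 ≤ 1 / 2 → 24 * root6 (v 1) ≤ 50 * root6 (v 2) →
      -(100 * B0 * dev v + 400 * k1 * dev v ^ 2 + 1600 * k2 * dev v ^ 3) ≤ theta v)
    {lam d : ℝ} (hd : d * lam ^ 2 = 1) (hlo : -(1 / 2) ≤ lam) (hneg : lam < 0)
    {g h : ℝ → ℝ} {M y : Fin n → ℝ} (hM : ∀ j, M j = g (y j))
    (hgh : ∀ j, g (y j) = d * y j - h (d * y j)) (hy : 0 ≤ y iX) (hyY : d * y iX ≤ Y)
    (hsq : h (d * y iX) ≤ kq / 2 * (d * y iX) ^ 2)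
    (hlin : ∀ p, 0 ≤ p → p ≤ 3 / 4 → ∀ j, kq * p * (d * y iX) * (d * y j)
      - kq * (p ^ 2 / 2 + C * p ^ 3 * Y) * (d * y iX) ^ 2 ≤ h (d * y j))
    (hpw : ∀ c b : Fin n → ℝ, ∀ k : ℝ, PW 3 lam A c b k →
      0 ≤ (∑ j, (c j * M j + b j * y j)) + k) :
    y iX = 0 := by
  have hd0 : 0 < d := by
    by_contra hn
    nlinarith [mul_nonpos_of_nonpos_of_nonneg (not_lt.1 hn) (sq_nonneg lam)]
  set z := d * y iX with hz
  have hz0 : 0 ≤ z := mul_nonneg hd0.le hy
  have hs := hpw (fun j => (Pi.single iX (-121) : Fin n → ℝ) j + (Pi.single iS 112 : Fin n → ℝ) j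
      + (Pi.single iT 73 : Fin n → ℝ) j + (Pi.single iP 25 : Fin n → ℝ) j)
    (fun j => (Pi.single iX (d * (121 - kq * z * (1199 / 10))) : Fin n → ℝ) j
      + (Pi.single iS (d * (-112 + kq * z * (112 * (37 / 50)))) : Fin n → ℝ) j
      + (Pi.single iT (d * (-73 + kq * z * (73 * (37 / 50)))) : Fin n → ℝ) j
      + (Pi.single iP (d * (-25 + kq * z * (25 * (41 / 100)))) : Fin n → ℝ) j)
    (kq * gam * z ^ 2) fun u u0 u1 => by
      have hp := pointwise hsc hY hkq hk.le hk1' hk1 hk2 hg hedge hd hlo hneg u0 u1 hz0 hyY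
      simp only [psi, theta, mixed] at hp
      simp only [add_mul, sum_add_distrib, sum_single, hX, hS, hT, hP]
      linarith
  simp only [add_mul, sum_add_distrib, sum_single, hM, hgh] at hs
  have hS' := hlin (37 / 50) (by norm_num) (by norm_num) iS
  have hT' := hlin (37 / 50) (by norm_num) (by norm_num) iT
  have hP' := hlin (41 / 100) (by norm_num) (by norm_num) iP
  have key : 0 ≤ kq * (121 / 2 + (185 * (37 / 50) ^ 2 + 25 * (41 / 100) ^ 2) / 2
      + (185 * (37 / 50) ^ 3 + 25 * (41 / 100) ^ 3) * C * Y + gam - 1199 / 10) * z ^ 2 := by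
    rw [← hz] at hs
    linarith
  have hneg' := mul_neg_of_pos_of_neg hk (sub_neg.2 hgam)
  have hz2 : z ^ 2 = 0 := by
    by_contra hne
    have := mul_neg_of_neg_of_pos hneg' (lt_of_le_of_ne (sq_nonneg z) (Ne.symm hne))
    linarith
  exact (mul_eq_zero.1 (pow_eq_zero_iff (two_ne_zero) |>.1 hz2)).resolve_left hd0.ne'

/-- Small limits at `(2,2,2)/6`, Poisson offspring, `-1/2 ≤ λ < 0`. -/
theorem smallExcl_poisson_half (iX iS iT iP : Fin n) (hX : A iX = Box.expo3 ⟨2, 2, 2⟩)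
    (hS : A iS = Box.expo3 ⟨3, 3, 0⟩) (hT : A iT = Box.expo3 ⟨4, 1, 1⟩)
    (hP : A iP = Box.expo3 ⟨5, 1, 0⟩) {x0 lam d : ℝ} (hx : x0 ≤ 1 / 140)
    (hd : d * lam ^ 2 = 1) (hneg : lam < 0) (hl : -(1 / 2) ≤ lam) :
    SmallExcl A (fun y => 1 - Real.exp (-(d * y))) iX x0 lam d := by
  intro M y hM hy _ hxy hpw
  have hd0 : 0 ≤ d := by nlinarith [sq_nonneg lam]
  have hz : 0 ≤ d * y iX := mul_nonneg hd0 (hy iX)
  have hzY : d * y iX ≤ 1 / 140 := hxy.trans hx
  refine zero_of_pw iX iS iT iP hX hS hT hP (kq := 1) (B0 := 1347 / 100) (k1 := 66) (k2 := 0)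
    (C := 21 / 125) (by
      have : (fun A : ℝ => (1347 / 100 : ℝ) + 66 * A + 0 * A ^ 2) = betaP := by
        funext A; simp [betaP]
      rw [this]; exact scalar_poisson)
    (by norm_num) (one_mul 1) one_pos le_rfl (by norm_num) le_rfl (by norm_num) (by norm_num)
    (fun v v0 v1 h21 h10 hh hlo => by linarith [(edge_bounds v0 v1 h21 h10 hh hlo).2.1])
    hd hl hneg (g := fun y => 1 - Real.exp (-(d * y))) (h := Vale.Agent.P154.Anti.hP) hM
    (fun j => by simp only [Vale.Agent.P154.Anti.hP]; ring) (hy iX) hzY ?_ (fun p hp hp1 j => ?_) hpw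
  · exact (hP_le_sq hz).trans_eq (by ring)
  · set s := p * (d * y iX) with hs
    have hs0 : 0 ≤ s := mul_nonneg hp hz
    have hs1 : s ≤ 3 / 560 := (mul_le_mul hp1 hzY hz (by norm_num)).trans_eq (by norm_num)
    have h := hP_ge_linear_five hs0 (by linarith) (d * y j)
    have e : 1 / 6 + s / 12 + s ^ 2 / 4 ≤ 21 / 125 := by
      linarith [pow_le_pow_left₀ hs0 hs1 2]
    have e' := mul_le_mul_of_nonneg_left e (pow_nonneg hs0 3)
    have e2 := mul_le_mul_of_nonneg_left hzY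
      (show 0 ≤ 21 / 125 * p ^ 3 * (d * y iX) ^ 2 by positivity)
    have e3 : 21 / 125 * p ^ 3 * (d * y iX) ^ 2 * (d * y iX) = 21 / 125 * s ^ 3 := by
      rw [hs]; ring
    have e4 : p ^ 2 * (d * y iX) ^ 2 = s ^ 2 := by rw [hs]; ring
    have e5 : p * (d * y iX) * (d * y j) = s * (d * y j) := by rw [hs]
    linarith

/-- Small limits at `(5,1,0)/6`, Poisson offspring, `-1/2 ≤ λ < 0`. -/
theorem smallExcl_poisson_half_P (iP iX iS iT : Fin n) (hP : A iP = Box.expo3 ⟨5, 1, 0⟩)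
    (hX : A iX = Box.expo3 ⟨2, 2, 2⟩) (hS : A iS = Box.expo3 ⟨3, 3, 0⟩)
    (hT : A iT = Box.expo3 ⟨4, 1, 1⟩) {x0 lam d : ℝ} (hx : x0 ≤ 1 / 370)
    (hd : d * lam ^ 2 = 1) (hneg : lam < 0) (hl : -(1 / 2) ≤ lam) :
    SmallExcl A (fun y => 1 - Real.exp (-(d * y))) iP x0 lam d := by
  intro M y hM hy hy1 hxy hpw
  obtain ⟨hPX, hXP⟩ := SmallX.limit_ratio iX iP hX hP hl hneg.le hpw
  have hd0 : 0 ≤ d := by nlinarith [sq_nonneg lam]
  have h := mul_le_mul_of_nonneg_left hXP hd0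
  have := smallExcl_poisson_half iX iS iT iP hX hS hT hP le_rfl hd hneg hl M y hM hy hy1
    (by linarith) hpw
  exact le_antisymm (hPX.trans this.le) (hy iP)

/-- Small limits at `(2,2,2)/6` on the regular tree of degree four. -/
theorem smallExcl_regular_four (iX iS iT iP : Fin n) (hX : A iX = Box.expo3 ⟨2, 2, 2⟩)
    (hS : A iS = Box.expo3 ⟨3, 3, 0⟩) (hT : A iT = Box.expo3 ⟨4, 1, 1⟩)
    (hP : A iP = Box.expo3 ⟨5, 1, 0⟩) {x0 : ℝ} (hx : x0 ≤ 1 / 36) :
    SmallExcl A (fun y => 1 - (1 - y) ^ 4) iX x0 (-(1 / 2)) 4 := by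
  intro M y hM hy hy1 hxy hpw
  have hz : ∀ j, 4 * y j ≤ ((4 : ℕ) : ℝ) := fun j => by push_cast; linarith [hy1 j]
  have hz0 : 0 ≤ 4 * y iX := by linarith [hy iX]
  have hzY : 4 * y iX ≤ 1 / 36 := hxy.trans hx
  refine zero_of_pw iX iS iT iP hX hS hT hP (kq := 3 / 4) (B0 := 1422 / 100) (k1 := 31) (k2 := 28)
    (C := 3 / 16) (by exact scalar_regular)
    le_rfl (by norm_num) (by norm_num) (by norm_num) (by norm_num) (by norm_num) (by norm_num)
    (by norm_num)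
    (fun v v0 v1 h21 h10 hh hlo => by linarith [(edge_bounds v0 v1 h21 h10 hh hlo).2.2])
    (by norm_num) le_rfl (by norm_num) (g := fun y => 1 - (1 - y) ^ 4) (h := hR 4) hM
    (fun j => by simp only [hR]; push_cast; ring) (hy iX) hzY ?_ (fun p hp hp1 j => ?_) hpw
  · exact (hR_le_sq (by norm_num) hz0 (hz iX)).trans_eq (by push_cast; ring)
  · set s := 3 / 4 * p * (4 * y iX) with hs
    have hs0 : 0 ≤ s := by positivity
    have hpz : p * (4 * y iX) ≤ 3 / 4 * (1 / 36) := mul_le_mul hp1 hzY hz0 (by norm_num)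
    have h := hR_ge_linear (d := 4) (by norm_num) (hz j) hs0 (by linarith)
    push_cast at h
    norm_num at h
    have e := mul_le_mul_of_nonneg_left hzY
      (show 0 ≤ 9 / 64 * p ^ 3 * (4 * y iX) ^ 2 by positivity)
    have e2 : s ^ 2 = 9 / 16 * p ^ 2 * (4 * y iX) ^ 2 := by rw [hs]; ring
    have e3 : s ^ 3 = 27 / 64 * p ^ 3 * (4 * y iX) ^ 2 * (4 * y iX) := by rw [hs]; ring
    linarith

end Vale.Agent.P154.Anti.SmallHalf
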