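import Vale.Agent.P154.Anti.BoxNode

/-!
# Two adjacent windows on three nodes

One family of inequalities, checked at three nodes, covers both windows between them.
-/

namespace Vale.Agent.P154.Anti

open Filter Topology Box Vale.Agent.P154.Tree

variable {n : ℕ}

/-- Poisson offspring: nonreconstruction below the Kesten-Stigum bound at the mean degrees of two
adjacent windows, up to the exclusion of small limits. -/
theorem tendsto_adv_poisson_of_three_nodes {C : Cfg} (hT : Nonneg C)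
    (hb : basisOk C = true) {E : Fin n → N3} (hE : ∀ j, (E j).n0 + (E j).n1 + (E j).n2 = C.N)
    {r : Fin n} (hr : 1 ≤ (E r).n0 ∧ 1 ≤ (E r).n1) {a m b : ℚ}
    (hn : -(1 / 2) ≤ a ∧ a < m ∧ m < b ∧ b < 0) {V : List (SVec n)} {WL WR : List WData}
    (hL : windowCheck C E a m V WL = true) (hR : windowCheck C E m b V WR = true)
    {D x0 : ℚ} (hD : 1 ≤ D * b ^ 2) {Ks M : ℕ} (t : STree n)
    (hck : sCheck (genP D Ks M) V r x0 t (fun _ => 0) (fun _ => D) = true)
    (hsmall : ∀ d lam : ℝ, (a : ℝ) ≤ lam → lam ≤ (b : ℝ) → d * lam ^ 2 = 1 →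
      SmallExcl (fun j => expo3 (E j)) (fun y => 1 - Real.exp (-(d * y))) r x0 lam d)
    {d mu : ℝ} (hd1 : 1 ≤ d * (a : ℝ) ^ 2) (hd2 : d * (b : ℝ) ^ 2 ≤ 1) (hmu : mu ≤ 0)
    (hks : d * mu ^ 2 ≤ 1) : Tendsto (adv 3 (poissonLaw d) mu) atTop (𝓝 0) := by
  have hN : C.N ≠ 0 := by have := hE r; omega
  have hA := fun j => expo3_simplex hN (hE j)
  have hNpos : (0 : ℝ) < C.N := by exact_mod_cast Nat.pos_of_ne_zero hN
  have hge : ∀ i, 1 ≤ (E r).fn i → 1 / (C.N : ℝ) ≤ expo3 (E r) i := fun i hi => by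
    rw [expo3_apply (hE r) i]
    exact div_le_div_of_nonneg_right (by exact_mod_cast hi) hNpos.le
  obtain ⟨ha, ham, hmb, hb0⟩ := hn
  have ha' : ((-(1 / 2) : ℚ) : ℝ) ≤ (a : ℝ) := by exact_mod_cast ha
  push_cast at ha'
  have ham' : (a : ℝ) < m := by exact_mod_cast ham
  have hmb' : (m : ℝ) < b := by exact_mod_cast hmb
  have hb0' : (b : ℝ) < 0 := by exact_mod_cast hb0
  have hdD : d ≤ (D : ℝ) := by
    have h1 : (1 : ℝ) ≤ D * (b : ℝ) ^ 2 := by exact_mod_cast hD
    exact le_of_mul_le_mul_right (hd2.trans h1) (pow_two_pos_of_ne_zero hb0'.ne)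
  rcases le_total (d * (m : ℝ) ^ 2) 1 with h | h
  · exact tendsto_adv_poisson_of_window (fun j => (hA j).1) (fun j => (hA j).2)
      (one_div_pos.2 hNpos) (hge 0 hr.1) (hge 1 hr.2) ha' ham' (hmb'.trans hb0')
      (windowPW_of_check hT hb E a m V WL hL) t hck
      (fun d' lam l1 l2 hl => hsmall d' lam l1 (l2.trans hmb'.le) hl) hd1 h hdD hmu hks
  · exact tendsto_adv_poisson_of_window (fun j => (hA j).1) (fun j => (hA j).2)
      (one_div_pos.2 hNpos) (hge 0 hr.1) (hge 1 hr.2) (ha'.trans ham'.le) hmb' hb0'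
      (windowPW_of_check hT hb E m b V WR hR) t hck
      (fun d' lam l1 l2 hl => hsmall d' lam (ham'.le.trans l1) l2 hl) h hd2 hdD hmu hks

end Vale.Agent.P154.Anti
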