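import Vale.Agent.P154.Anti.Crit.Regular
import Vale.Agent.P154.Anti.Crit.PoissonUpper
import Vale.Agent.P154.Anti.Crit.PoissonCorner

/-!
# The critical curve of the antiferromagnetic three-state model
-/

namespace Vale.Agent.P154.Anti.Crit

open Filter Topology Vale.Agent.P154.Tree

/-- Nonreconstruction on the critical curve, Poisson offspring, `-1/2 ≤ λ ≤ -41/142`. -/
theorem poisson (d lam : ℝ) (h0 : -(1 / 2) ≤ lam) (h1 : lam ≤ -(41 / 142))
    (hd : d * lam ^ 2 = 1) : Tendsto (adv 3 (poissonLaw d) lam) atTop (𝓝 0) := by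
  rcases le_total lam (-(47 / 100)) with h | h
  · exact poisson_corner h0 h hd
  · exact poisson_upper h (by linarith) hd

end Vale.Agent.P154.Anti.Crit
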