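import Vale.Agent.P154.Anti.Certs
import Vale.Agent.P154.Anti.Class
import Vale.Agent.P154.Q3.Good3
import Vale.Agent.P154.Tree.Laws

/-!
# Three states, antiferromagnetic: no reconstruction up to the Kesten-Stigum bound

for every edge parameter in `[-33/140, 0]` and every offspring law; this covers every mean
offspring number at least `18`.
-/

namespace Vale.Agent.P154.Anti

open Finset Filter Topology Vale.Agent.P154.Tree Vale.Agent.P154.Q3

/-- The potential. -/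
def F3 (u : Fin 3 → ℝ) : ℝ := 1000 * AOf u + 48 * AOf u ^ 2

/-- The class functional. -/
def psi3 (u : Fin 3 → ℝ) : ℝ := 664 * AOf u + 1080 * sOf u - 2652 * AOf u ^ 2

/-- `420` times the shrunk vector at `-33/140`. -/
def shv (w : Fin 3 → ℝ) : Fin 3 → ℝ := fun i => shH kR 1 (w i)

theorem shrink_mu (w : Fin 3 → ℝ) :
    shrink (-33 / 140) w = fun i => (1 / 420) * shv w i := by
  funext i
  simp [shrink, shv, shH, kR]
  ring

theorem shv_pos {w : Fin 3 → ℝ} (hw : OnSimplex w) (i : Fin 3) : 0 < shv w i := by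
  obtain ⟨h, hs⟩ := hw
  have := h 0; have := h 1; have := h 2
  have : w i ≤ 1 := by fin_cases i <;> simp <;> linarith
  simp [shv, shH, kR]
  linarith

theorem values_scaled (a b c : ℝ) (hS : sumT a b c ≠ 0) :
    AOf ![a / sumT a b c, b / sumT a b c, c / sumT a b c] = devT kR a b c / sumT a b c ^ 2 ∧
    sOf ![a / sumT a b c, b / sumT a b c, c / sumT a b c] = cubT kR a b c / sumT a b c ^ 3 := by
  simp only [sumT] at hS ⊢
  constructor
  · simp [AOf, cOf, devT, compT, sumT, kR]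
    field_simp
  · simp [sOf, PmOf, AOf, cOf, cubT, prodT, devT, compT, sumT, kR]
    field_simp

theorem homExt_F3 (a b c : ℝ) (hS : sumT a b c ≠ 0) :
    homExt F3 ![1 / 420 * a, 1 / 420 * b, 1 / 420 * c]
      = potH kR (sumT a b c) (devT kR a b c) / (420 * sumT a b c ^ 3) := by
  have e : (![1 / 420 * a, 1 / 420 * b, 1 / 420 * c] : Fin 3 → ℝ)
      = fun i => (1 / 420 : ℝ) * ![a, b, c] i := by funext i; fin_cases i <;> rfl
  rw [e, homExt_smul, homExt_val, ← show sumT a b c = a + b + c from rfl, F3,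
    (values_scaled a b c hS).1]
  simp [potH, kR]
  field_simp

theorem homExt_psi3 (a b c : ℝ) (hS : sumT a b c ≠ 0) :
    homExt psi3 ![1 / 420 * a, 1 / 420 * b, 1 / 420 * c]
      = psiH kR (sumT a b c) (devT kR a b c) (cubT kR a b c) / (420 * sumT a b c ^ 3) := by
  have e : (![1 / 420 * a, 1 / 420 * b, 1 / 420 * c] : Fin 3 → ℝ)
      = fun i => (1 / 420 : ℝ) * ![a, b, c] i := by funext i; fin_cases i <;> rfl
  rw [e, homExt_smul, homExt_val, ← show sumT a b c = a + b + c from rfl, psi3,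
    (values_scaled a b c hS).1, (values_scaled a b c hS).2]
  simp [psiH, kR]
  field_simp

theorem tw_shrink (u w : Fin 3 → ℝ) :
    tw u (shrink (-33 / 140) w) 0
        = ![1 / 420 * (u 0 * shv w 0), 1 / 420 * (u 1 * shv w 1), 1 / 420 * (u 2 * shv w 2)] ∧
    tw u (shrink (-33 / 140) w) 1
        = ![1 / 420 * (u 0 * shv w 1), 1 / 420 * (u 1 * shv w 2), 1 / 420 * (u 2 * shv w 0)] ∧
    tw u (shrink (-33 / 140) w) 2
        = ![1 / 420 * (u 0 * shv w 2), 1 / 420 * (u 1 * shv w 0), 1 / 420 * (u 2 * shv w 1)] := by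
  rw [shrink_mu]
  refine ⟨?_, ?_, ?_⟩ <;> funext i <;> fin_cases i <;> simp [tw] <;> ring

theorem sum_pos3 {u : Fin 3 → ℝ} (hu : OnSimplex u) {a b c : ℝ} (ha : 0 < a) (hb : 0 < b)
    (hc : 0 < c) : 0 < sumT (u 0 * a) (u 1 * b) (u 2 * c) := by
  obtain ⟨h, hs⟩ := hu
  have h0 := h 0; have h1 := h 1; have h2 := h 2
  simp only [sumT]
  by_contra hh
  have p0 := mul_nonneg h0 ha.le
  have p1 := mul_nonneg h1 hb.le
  have p2 := mul_nonneg h2 hc.le
  have e0 : u 0 * a = 0 := by linarith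
  have e1 : u 1 * b = 0 := by linarith
  have e2 : u 2 * c = 0 := by linarith
  have := (mul_eq_zero.1 e0).resolve_right ha.ne'
  have := (mul_eq_zero.1 e1).resolve_right hb.ne'
  have := (mul_eq_zero.1 e2).resolve_right hc.ne'
  linarith

theorem pointwise_F {u w : Fin 3 → ℝ} (hu : OnSimplex u) (hw : OnSimplex w) :
    tSum F3 u (shrink (-33 / 140) w)
      ≤ F3 u + 1089 / 19600 * F3 w - 1089 / 19600 * (AOf w * (psi3 u + 2 * AOf u)) := by
  have hp := shv_pos hw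
  have hS0 := sum_pos3 hu (hp 0) (hp 1) (hp 2)
  have hS1 := sum_pos3 hu (hp 1) (hp 2) (hp 0)
  have hS2 := sum_pos3 hu (hp 2) (hp 0) (hp 1)
  obtain ⟨t0, t1, t2⟩ := tw_shrink u w
  rw [tSum, t0, t1, t2, homExt_F3 _ _ _ hS0.ne', homExt_F3 _ _ _ hS1.ne',
    homExt_F3 _ _ _ hS2.ne']
  have h := gaVal_nonneg hu hw
  have eU : sumT (u 0) (u 1) (u 2) = 1 := hu.2
  have eW : sumT (w 0) (w 1) (w 2) = 1 := hw.2
  have eA : ∀ {x : Fin 3 → ℝ}, OnSimplex x → devT kR (x 0) (x 1) (x 2) = AOf x ∧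
      cubT kR (x 0) (x 1) (x 2) = sOf x := fun {x} hx => by
    have := parts_eq (a := x 0) (b := x 1) (c := x 2) (by rw [eta3]; exact hx)
    rw [eta3] at this
    exact ⟨this.2.2.1, this.2.2.2.2⟩
  simp only [gaVal, gaTriple, eU, eW, (eA hu).1, (eA hu).2, (eA hw).1] at h
  simp only [shv] at hS0 hS1 hS2 ⊢
  generalize sumT (u 0 * shH kR 1 (w 0)) (u 1 * shH kR 1 (w 1)) (u 2 * shH kR 1 (w 2)) = S₀ at *
  generalize sumT (u 0 * shH kR 1 (w 1)) (u 1 * shH kR 1 (w 2)) (u 2 * shH kR 1 (w 0)) = S₁ at *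
  generalize sumT (u 0 * shH kR 1 (w 2)) (u 1 * shH kR 1 (w 0)) (u 2 * shH kR 1 (w 1)) = S₂ at *
  generalize devT kR (u 0 * shH kR 1 (w 0)) (u 1 * shH kR 1 (w 1)) (u 2 * shH kR 1 (w 2)) = A₀ at *
  generalize devT kR (u 0 * shH kR 1 (w 1)) (u 1 * shH kR 1 (w 2)) (u 2 * shH kR 1 (w 0)) = A₁ at *
  generalize devT kR (u 0 * shH kR 1 (w 2)) (u 1 * shH kR 1 (w 0)) (u 2 * shH kR 1 (w 1)) = A₂ at *
  set T := potH kR S₀ A₀ / (420 * S₀ ^ 3) + potH kR S₁ A₁ / (420 * S₁ ^ 3)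
    + potH kR S₂ A₂ / (420 * S₂ ^ 3) with hT
  have key : gaH kR 1 (AOf u) (sOf u) 1 (AOf w) S₀ A₀ S₁ A₁ S₂ A₂
      = 420 * 19600 * (S₀ * S₁ * S₂) ^ 3 * (F3 u + 1089 / 19600 * F3 w
        - 1089 / 19600 * (AOf w * (psi3 u + 2 * AOf u)) - T) := by
    rw [hT]
    simp only [gaH, cube2, potH, psiH, F3, psi3, kR]
    push_cast
    field_simp
  rw [key] at h
  have hpos : (0 : ℝ) < 420 * 19600 * (S₀ * S₁ * S₂) ^ 3 := by positivity
  linarith [(mul_nonneg_iff_of_pos_left hpos).1 h]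

theorem pointwise_psi {u w : Fin 3 → ℝ} (hu : OnSimplex u) (hw : OnSimplex w) :
    psi3 u * (1 - 8712 / 19600 * AOf w) ≤ tSum psi3 u (shrink (-33 / 140) w) := by
  have hp := shv_pos hw
  have hS0 := sum_pos3 hu (hp 0) (hp 1) (hp 2)
  have hS1 := sum_pos3 hu (hp 1) (hp 2) (hp 0)
  have hS2 := sum_pos3 hu (hp 2) (hp 0) (hp 1)
  obtain ⟨t0, t1, t2⟩ := tw_shrink u w
  rw [tSum, t0, t1, t2, homExt_psi3 _ _ _ hS0.ne', homExt_psi3 _ _ _ hS1.ne',
    homExt_psi3 _ _ _ hS2.ne']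
  have h := paVal_nonneg hu hw
  have eU : sumT (u 0) (u 1) (u 2) = 1 := hu.2
  have eW : sumT (w 0) (w 1) (w 2) = 1 := hw.2
  have eA : ∀ {x : Fin 3 → ℝ}, OnSimplex x → devT kR (x 0) (x 1) (x 2) = AOf x ∧
      cubT kR (x 0) (x 1) (x 2) = sOf x := fun {x} hx => by
    have := parts_eq (a := x 0) (b := x 1) (c := x 2) (by rw [eta3]; exact hx)
    rw [eta3] at this
    exact ⟨this.2.2.1, this.2.2.2.2⟩
  simp only [paVal, paTriple, eU, eW, (eA hu).1, (eA hu).2, (eA hw).1] at h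
  simp only [shv] at hS0 hS1 hS2 ⊢
  generalize sumT (u 0 * shH kR 1 (w 0)) (u 1 * shH kR 1 (w 1)) (u 2 * shH kR 1 (w 2)) = S₀ at *
  generalize sumT (u 0 * shH kR 1 (w 1)) (u 1 * shH kR 1 (w 2)) (u 2 * shH kR 1 (w 0)) = S₁ at *
  generalize sumT (u 0 * shH kR 1 (w 2)) (u 1 * shH kR 1 (w 0)) (u 2 * shH kR 1 (w 1)) = S₂ at *
  generalize devT kR (u 0 * shH kR 1 (w 0)) (u 1 * shH kR 1 (w 1)) (u 2 * shH kR 1 (w 2)) = A₀ at *
  generalize devT kR (u 0 * shH kR 1 (w 1)) (u 1 * shH kR 1 (w 2)) (u 2 * shH kR 1 (w 0)) = A₁ at *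
  generalize devT kR (u 0 * shH kR 1 (w 2)) (u 1 * shH kR 1 (w 0)) (u 2 * shH kR 1 (w 1)) = A₂ at *
  generalize cubT kR (u 0 * shH kR 1 (w 0)) (u 1 * shH kR 1 (w 1)) (u 2 * shH kR 1 (w 2)) = s₀ at *
  generalize cubT kR (u 0 * shH kR 1 (w 1)) (u 1 * shH kR 1 (w 2)) (u 2 * shH kR 1 (w 0)) = s₁ at *
  generalize cubT kR (u 0 * shH kR 1 (w 2)) (u 1 * shH kR 1 (w 0)) (u 2 * shH kR 1 (w 1)) = s₂ at *
  set T := psiH kR S₀ A₀ s₀ / (420 * S₀ ^ 3) + psiH kR S₁ A₁ s₁ / (420 * S₁ ^ 3)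
    + psiH kR S₂ A₂ s₂ / (420 * S₂ ^ 3) with hT
  have key : paH kR 1 (AOf u) (sOf u) 1 (AOf w) S₀ A₀ s₀ S₁ A₁ s₁ S₂ A₂ s₂
      = 420 * 19600 * (S₀ * S₁ * S₂) ^ 3
        * (T - psi3 u * (1 - 8712 / 19600 * AOf w)) := by
    rw [hT]
    simp only [paH, cube2, psiH, psi3, kR]
    push_cast
    field_simp
  rw [key] at h
  have hpos : (0 : ℝ) < 420 * 19600 * (S₀ * S₁ * S₂) ^ 3 := by positivity
  linarith [(mul_nonneg_iff_of_pos_left hpos).1 h]

theorem shrink_simplex {w : Fin 3 → ℝ} (hw : OnSimplex w) {τ : ℝ} (h0 : 0 ≤ τ) (h1 : τ ≤ 1) :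
    OnSimplex (shrink τ w) ∧ AOf (shrink τ w) = τ ^ 2 * AOf w := by
  obtain ⟨h, hs⟩ := hw
  have e2 : w 2 = 1 - w 0 - w 1 := by linarith
  refine ⟨⟨fun i => ?_, ?_⟩, ?_⟩
  · have := h i
    have : 0 ≤ 1 - τ := by linarith
    simp only [shrink]
    positivity
  · simp [shrink, e2]; ring
  · simp [shrink, AOf, cOf, e2]; ring

theorem shrink_shrink (τ : ℝ) (w : Fin 3 → ℝ) :
    shrink (-33 / 140) (shrink τ w) = shrink (-33 / 140 * τ) w := by
  funext i
  simp [shrink]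
  ring

theorem flip_shrink (lam : ℝ) (v : Fin 3 → ℝ) :
    flipTri (shrink lam v) = shrink lam (flipTri v) := by
  funext i
  fin_cases i <;> simp [flipTri, shrink]

theorem value_bounds {u : Fin 3 → ℝ} (hu : OnSimplex u) :
    0 ≤ AOf u ∧ AOf u ≤ 1 ∧ |F3 u| ≤ 7000 ∧ |psi3 u| ≤ 7000 := by
  obtain ⟨a0, a1, -, -, -⟩ := bounds hu
  have h3 := pow_le_one₀ (n := 3) (gm_nonneg hu.1) (gm_le_one hu)
  have h3' := pow_nonneg (gm_nonneg hu.1) 3
  rw [gm_cube hu.1] at h3 h3'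
  have q0 := sq_nonneg (AOf u)
  have q1 := pow_le_one₀ (n := 2) a0 a1
  refine ⟨a0, a1, ?_, ?_⟩
  · rw [abs_le, F3]; constructor <;> linarith
  · rw [abs_le, psi3, sOf]; constructor <;> linarith

/-- The criterion holds at every edge parameter in `[-33/140, 0]`. -/
theorem cpot3 {lam : ℝ} (h0 : -(33 / 140) ≤ lam) (h1 : lam ≤ 0) :
    CPot 3 lam F3 psi3 (fun v => lam ^ 2 * AOf v) (fun v => 8 * lam ^ 2 * AOf v)
      1500 (9 / 2 * lam ^ 2) 7000 := by
  have hl2 : lam ^ 2 ≤ 1 / 8 := by nlinarith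
  obtain ⟨τ, t0, t1, hτ⟩ : ∃ τ : ℝ, 0 ≤ τ ∧ τ ≤ 1 ∧ lam = -33 / 140 * τ :=
    ⟨-(140 / 33) * lam, by linarith, by linarith, by ring⟩
  have hunif : AOf (fun _ : Fin 3 => (1 : ℝ) / 3) = 0 ∧ sOf (fun _ : Fin 3 => (1 : ℝ) / 3) = 0 := by
    constructor <;> simp only [sOf, PmOf, AOf, cOf] <;> norm_num
  have oneF : ∀ u v : Fin 3 → ℝ, OnSimplex u → OnSimplex v → tSum F3 u (shrink lam v)
      ≤ F3 u + lam ^ 2 * F3 v - lam ^ 2 * (AOf v * (psi3 u + 2 * AOf u)) := by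
    intro u v hu hv
    obtain ⟨hs, hA⟩ := shrink_simplex hv t0 t1
    have h := pointwise_F hu hs
    rw [shrink_shrink, ← hτ, hA] at h
    have e : (1089 : ℝ) / 19600 * τ ^ 2 = lam ^ 2 := by rw [hτ]; ring
    have hF : F3 (shrink τ v) ≤ τ ^ 2 * F3 v := by
      simp only [F3, hA]
      have h4 : τ ^ 2 * τ ^ 2 ≤ τ ^ 2 :=
        mul_le_of_le_one_right (sq_nonneg τ) (pow_le_one₀ t0 t1)
      have := mul_le_mul_of_nonneg_right h4 (sq_nonneg (AOf v))
      nlinarith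
    rw [← e]
    nlinarith
  have oneψ : ∀ u v : Fin 3 → ℝ, OnSimplex u → OnSimplex v →
      psi3 u * (1 - 8 * lam ^ 2 * AOf v) ≤ tSum psi3 u (shrink lam v) := by
    intro u v hu hv
    obtain ⟨hs, hA⟩ := shrink_simplex hv t0 t1
    have h := pointwise_psi hu hs
    rw [shrink_shrink, ← hτ, hA] at h
    have e : (8712 : ℝ) / 19600 * (τ ^ 2 * AOf v) = 8 * lam ^ 2 * AOf v := by rw [hτ]; ring
    rwa [e] at h
  refine
    { apos := by norm_num
      cnn := by positivity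
      bddF := fun u a b => (value_bounds (onSimplex_of a b)).2.2.1
      bddψ := fun u a b => (value_bounds (onSimplex_of a b)).2.2.2
      bddg := fun u a b => ?_
      bddh := fun u a b => ?_
      uniformF := by simp only [F3, Nat.cast_ofNat, hunif.1]; norm_num
      uniformψ := by simp only [psi3, Nat.cast_ofNat, hunif.1, hunif.2]; norm_num
      lower := fun u a b => ?_
      pairF := fun u v a b a' b' => ?_
      pairψ := fun u v a b a' b' => ?_ }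
  · obtain ⟨e0, e1, -⟩ := value_bounds (onSimplex_of a b)
    refine ⟨mul_nonneg (sq_nonneg _) e0, ?_⟩
    have := mul_le_one₀ (show lam ^ 2 ≤ 1 by linarith) e0 e1
    linarith
  · obtain ⟨e0, e1, -⟩ := value_bounds (onSimplex_of a b)
    refine ⟨by positivity, ?_⟩
    exact mul_le_one₀ (by linarith) e0 e1
  · have hu := onSimplex_of a b
    rw [F3, A_eq_sqDev hu.2]
    nlinarith [sq_nonneg (sqDev u)]
  · have hu := onSimplex_of a b
    have hv := onSimplex_of a' b'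
    have p1 := oneF u v hu hv
    have p2 := oneF u (flipTri v) hu (flip_onSimplex hv)
    obtain ⟨-, e2, -, -⟩ := flip_inv v
    rw [show F3 (flipTri v) = F3 v by simp only [F3, e2], e2, ← flip_shrink] at p2
    rw [sum_perm_three, show Nat.factorial 3 = 6 from rfl]
    have eu := A_eq_sqDev hu.2
    have ev := A_eq_sqDev hv.2
    push_cast
    simp only [eu, ev] at p1 p2 ⊢
    linarith
  · have hu := onSimplex_of a b
    have hv := onSimplex_of a' b'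
    have p1 := oneψ u v hu hv
    have p2 := oneψ u (flipTri v) hu (flip_onSimplex hv)
    obtain ⟨-, e2, -, -⟩ := flip_inv v
    rw [e2, ← flip_shrink] at p2
    rw [sum_perm_three, show Nat.factorial 3 = 6 from rfl]
    push_cast
    linarith

/-- Nonreconstruction for three states and `lam ∈ [-33/140, 0]`, any offspring law. -/
theorem tendsto_adv_anti {w : ℕ → ℝ} {d lam : ℝ} (hw : IsLaw w d) (h0 : -(33 / 140) ≤ lam)
    (h1 : lam ≤ 0) (hd : d * lam ^ 2 < 1 ∨ (d * lam ^ 2 ≤ 1 ∧ 0 < branchProb w)) :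
    Tendsto (adv 3 w lam) atTop (𝓝 0) := by
  refine (cpot3 h0 h1).tendsto_adv (by norm_num) hw
    (adm_of_range (by norm_num) (by norm_num; linarith) (by linarith)) ?_
  rcases hd with h | ⟨h, hb⟩
  · exact Or.inl h
  rcases eq_or_ne lam 0 with hz | hz
  · left; rw [hz]; norm_num
  · exact Or.inr ⟨h, by positivity, hb⟩

theorem range_of_ks {d lam : ℝ} (hd : 18 ≤ d) (h1 : lam ≤ 0) (h : d * lam ^ 2 ≤ 1) :
    -(33 / 140) ≤ lam := by
  nlinarith [mul_le_mul_of_nonneg_right hd (sq_nonneg lam)]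

/-- `d`-ary trees with `d ≥ 18`: nonreconstruction whenever `d * lam ^ 2 ≤ 1`, `lam ≤ 0`. -/
theorem regular_anti {d : ℕ} (hd : 18 ≤ d) {lam : ℝ} (h1 : lam ≤ 0)
    (h : (d : ℝ) * lam ^ 2 ≤ 1) : Tendsto (adv 3 (regLaw d) lam) atTop (𝓝 0) :=
  tendsto_adv_anti (isLaw_regLaw d) (range_of_ks (by exact_mod_cast hd) h1 h) h1
    (Or.inr ⟨h, by rw [branchProb_regLaw (by omega)]; exact one_pos⟩)

/-- Poisson trees with `d ≥ 18`: nonreconstruction whenever `d * lam ^ 2 ≤ 1`, `lam ≤ 0`. -/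
theorem poisson_anti {d : ℝ} (hd : 18 ≤ d) {lam : ℝ} (h1 : lam ≤ 0)
    (h : d * lam ^ 2 ≤ 1) : Tendsto (adv 3 (poissonLaw d) lam) atTop (𝓝 0) :=
  tendsto_adv_anti (isLaw_poissonLaw (by linarith)) (range_of_ks hd h1 h) h1
    (Or.inr ⟨h, branchProb_poissonLaw_pos (by linarith)⟩)

end Vale.Agent.P154.Anti
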