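import Vale.Agent.P154.Anti.WideCerts
import Vale.Agent.P154.Anti.Range

/-!
# Three states, antiferromagnetic: no reconstruction up to the Kesten-Stigum bound

for every edge parameter in `[-41/142, 0]` and every offspring law; this covers every mean
offspring number at least `12`.
-/

namespace Vale.Agent.P154.Anti.Wide

open Finset Filter Topology Vale.Agent.P154.Tree Vale.Agent.P154.Q3

/-- The potential. -/
def FW (u : Fin 3 → ℝ) : ℝ :=
  5000 * AOf u + 137 * AOf u ^ 2 + 259 * (AOf u * sOf u) + 144 * sOf u ^ 2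

/-- The class functional. -/
def psiV (u : Fin 3 → ℝ) : ℝ :=
  4000 * AOf u + 4058 * sOf u - 19056 * AOf u ^ 2 + 2432 * (AOf u * sOf u) - 1086 * AOf u ^ 3
    + 2039 * sOf u ^ 2

/-- `426` times the shrunk vector at `-41/142`. -/
def wshv (w : Fin 3 → ℝ) : Fin 3 → ℝ := fun i => wsh kR 1 (w i)

theorem shrink_mu (w : Fin 3 → ℝ) :
    shrink (-41 / 142) w = fun i => (1 / 426) * wshv w i := by
  funext i
  simp [shrink, wshv, wsh, kR]
  ring

theorem wshv_pos {w : Fin 3 → ℝ} (hw : OnSimplex w) (i : Fin 3) : 0 < wshv w i := by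
  obtain ⟨h, hs⟩ := hw
  have := h 0; have := h 1; have := h 2
  have : w i ≤ 1 := by fin_cases i <;> simp <;> linarith
  simp [wshv, wsh, kR]
  linarith

theorem homExt_FW (a b c : ℝ) (hS : sumT a b c ≠ 0) :
    homExt FW ![1 / 426 * a, 1 / 426 * b, 1 / 426 * c]
      = potW kR (sumT a b c) (devT kR a b c) (cubT kR a b c) / (426 * sumT a b c ^ 5) := by
  have e : (![1 / 426 * a, 1 / 426 * b, 1 / 426 * c] : Fin 3 → ℝ)
      = fun i => (1 / 426 : ℝ) * ![a, b, c] i := by funext i; fin_cases i <;> rfl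
  rw [e, homExt_smul, homExt_val, ← show sumT a b c = a + b + c from rfl, FW,
    (values_scaled a b c hS).1, (values_scaled a b c hS).2]
  simp only [potW, w4, kR]
  push_cast
  generalize sumT a b c = S at *
  generalize devT (fun z : ℤ => (z : ℝ)) a b c = A
  generalize cubT (fun z : ℤ => (z : ℝ)) a b c = C
  field_simp

theorem homExt_psiV (a b c : ℝ) (hS : sumT a b c ≠ 0) :
    homExt psiV ![1 / 426 * a, 1 / 426 * b, 1 / 426 * c]
      = psiW kR (sumT a b c) (devT kR a b c) (cubT kR a b c) / (426 * sumT a b c ^ 5) := by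
  have e : (![1 / 426 * a, 1 / 426 * b, 1 / 426 * c] : Fin 3 → ℝ)
      = fun i => (1 / 426 : ℝ) * ![a, b, c] i := by funext i; fin_cases i <;> rfl
  rw [e, homExt_smul, homExt_val, ← show sumT a b c = a + b + c from rfl, psiV,
    (values_scaled a b c hS).1, (values_scaled a b c hS).2]
  simp only [psiW, w4, kR]
  push_cast
  generalize sumT a b c = S at *
  generalize devT (fun z : ℤ => (z : ℝ)) a b c = A
  generalize cubT (fun z : ℤ => (z : ℝ)) a b c = C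
  field_simp

theorem tw_shrink (u w : Fin 3 → ℝ) :
    tw u (shrink (-41 / 142) w) 0
        = ![1 / 426 * (u 0 * wshv w 0), 1 / 426 * (u 1 * wshv w 1), 1 / 426 * (u 2 * wshv w 2)] ∧
    tw u (shrink (-41 / 142) w) 1
        = ![1 / 426 * (u 0 * wshv w 1), 1 / 426 * (u 1 * wshv w 2), 1 / 426 * (u 2 * wshv w 0)] ∧
    tw u (shrink (-41 / 142) w) 2
        = ![1 / 426 * (u 0 * wshv w 2), 1 / 426 * (u 1 * wshv w 0), 1 / 426 * (u 2 * wshv w 1)] := by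
  rw [shrink_mu]
  refine ⟨?_, ?_, ?_⟩ <;> funext i <;> fin_cases i <;> simp [tw] <;> ring

theorem simplex_parts {x : Fin 3 → ℝ} (hx : OnSimplex x) :
    sumT (x 0) (x 1) (x 2) = 1 ∧ devT kR (x 0) (x 1) (x 2) = AOf x ∧
      cubT kR (x 0) (x 1) (x 2) = sOf x := by
  have := parts_eq (a := x 0) (b := x 1) (c := x 2) (by rw [eta3]; exact hx)
  rw [eta3] at this
  exact ⟨this.1, this.2.2.1, this.2.2.2.2⟩

theorem pointwise_FW {u w : Fin 3 → ℝ} (hu : OnSimplex u) (hw : OnSimplex w) :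
    tSum FW u (shrink (-41 / 142) w)
      ≤ FW u + 1681 / 20164 * FW w - 1681 / 20164 * (AOf w * (psiV u + 1 / 20 * AOf u)) := by
  have hp := wshv_pos hw
  have hS0 := sum_pos3 hu (hp 0) (hp 1) (hp 2)
  have hS1 := sum_pos3 hu (hp 1) (hp 2) (hp 0)
  have hS2 := sum_pos3 hu (hp 2) (hp 0) (hp 1)
  obtain ⟨t0, t1, t2⟩ := tw_shrink u w
  rw [tSum, t0, t1, t2, homExt_FW _ _ _ hS0.ne', homExt_FW _ _ _ hS1.ne',
    homExt_FW _ _ _ hS2.ne']
  have h := gwVal_nonneg hu hw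
  obtain ⟨eU, eA, eC⟩ := simplex_parts hu
  obtain ⟨eW, eB, eD⟩ := simplex_parts hw
  simp only [gwVal, gwTriple, eU, eW, eA, eC, eB, eD] at h
  simp only [wshv] at hS0 hS1 hS2 ⊢
  generalize sumT (u 0 * wsh kR 1 (w 0)) (u 1 * wsh kR 1 (w 1)) (u 2 * wsh kR 1 (w 2)) = S₀ at *
  generalize sumT (u 0 * wsh kR 1 (w 1)) (u 1 * wsh kR 1 (w 2)) (u 2 * wsh kR 1 (w 0)) = S₁ at *
  generalize sumT (u 0 * wsh kR 1 (w 2)) (u 1 * wsh kR 1 (w 0)) (u 2 * wsh kR 1 (w 1)) = S₂ at *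
  generalize hG0 : potW kR S₀ (devT kR (u 0 * wsh kR 1 (w 0)) (u 1 * wsh kR 1 (w 1))
    (u 2 * wsh kR 1 (w 2))) (cubT kR (u 0 * wsh kR 1 (w 0)) (u 1 * wsh kR 1 (w 1))
    (u 2 * wsh kR 1 (w 2))) = G₀ at *
  generalize hG1 : potW kR S₁ (devT kR (u 0 * wsh kR 1 (w 1)) (u 1 * wsh kR 1 (w 2))
    (u 2 * wsh kR 1 (w 0))) (cubT kR (u 0 * wsh kR 1 (w 1)) (u 1 * wsh kR 1 (w 2))
    (u 2 * wsh kR 1 (w 0))) = G₁ at *
  generalize hG2 : potW kR S₂ (devT kR (u 0 * wsh kR 1 (w 2)) (u 1 * wsh kR 1 (w 0))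
    (u 2 * wsh kR 1 (w 1))) (cubT kR (u 0 * wsh kR 1 (w 2)) (u 1 * wsh kR 1 (w 0))
    (u 2 * wsh kR 1 (w 1))) = G₂ at *
  simp only [gwH] at h
  rw [hG0, hG1, hG2] at h
  set T := G₀ / (426 * S₀ ^ 5) + G₁ / (426 * S₁ ^ 5) + G₂ / (426 * S₂ ^ 5) with hT
  have e : sumW 1 1 S₀ S₁ S₂ G₀ G₁ G₂ = 426 * (S₀ * S₁ * S₂) ^ 5 * T := by
    rw [hT]
    simp only [sumW, w5, w4]
    field_simp
  rw [e] at h
  have key : 0 ≤ (426 * 20 * 20164 * (S₀ * S₁ * S₂) ^ 5) * (FW u + 1681 / 20164 * FW w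
      - 1681 / 20164 * (AOf w * (psiV u + 1 / 20 * AOf u)) - T) := by
    refine le_of_le_of_eq h ?_
    simp only [potW, psiW, FW, psiV, w4, w5, w6, kR]
    push_cast
    ring
  have hpos : (0 : ℝ) < 426 * 20 * 20164 * (S₀ * S₁ * S₂) ^ 5 := by positivity
  linarith [(mul_nonneg_iff_of_pos_left hpos).1 key]

theorem pointwise_psiV {u w : Fin 3 → ℝ} (hu : OnSimplex u) (hw : OnSimplex w) :
    psiV u * (1 - 6724 / 20164 * AOf w) ≤ tSum psiV u (shrink (-41 / 142) w) := by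
  have hp := wshv_pos hw
  have hS0 := sum_pos3 hu (hp 0) (hp 1) (hp 2)
  have hS1 := sum_pos3 hu (hp 1) (hp 2) (hp 0)
  have hS2 := sum_pos3 hu (hp 2) (hp 0) (hp 1)
  obtain ⟨t0, t1, t2⟩ := tw_shrink u w
  rw [tSum, t0, t1, t2, homExt_psiV _ _ _ hS0.ne', homExt_psiV _ _ _ hS1.ne',
    homExt_psiV _ _ _ hS2.ne']
  have h := pwVal_nonneg hu hw
  obtain ⟨eU, eA, eC⟩ := simplex_parts hu
  obtain ⟨eW, eB, eD⟩ := simplex_parts hw
  simp only [pwVal, pwTriple, eU, eW, eA, eC, eB] at h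
  simp only [wshv] at hS0 hS1 hS2 ⊢
  generalize sumT (u 0 * wsh kR 1 (w 0)) (u 1 * wsh kR 1 (w 1)) (u 2 * wsh kR 1 (w 2)) = S₀ at *
  generalize sumT (u 0 * wsh kR 1 (w 1)) (u 1 * wsh kR 1 (w 2)) (u 2 * wsh kR 1 (w 0)) = S₁ at *
  generalize sumT (u 0 * wsh kR 1 (w 2)) (u 1 * wsh kR 1 (w 0)) (u 2 * wsh kR 1 (w 1)) = S₂ at *
  generalize hG0 : psiW kR S₀ (devT kR (u 0 * wsh kR 1 (w 0)) (u 1 * wsh kR 1 (w 1))
    (u 2 * wsh kR 1 (w 2))) (cubT kR (u 0 * wsh kR 1 (w 0)) (u 1 * wsh kR 1 (w 1))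
    (u 2 * wsh kR 1 (w 2))) = G₀ at *
  generalize hG1 : psiW kR S₁ (devT kR (u 0 * wsh kR 1 (w 1)) (u 1 * wsh kR 1 (w 2))
    (u 2 * wsh kR 1 (w 0))) (cubT kR (u 0 * wsh kR 1 (w 1)) (u 1 * wsh kR 1 (w 2))
    (u 2 * wsh kR 1 (w 0))) = G₁ at *
  generalize hG2 : psiW kR S₂ (devT kR (u 0 * wsh kR 1 (w 2)) (u 1 * wsh kR 1 (w 0))
    (u 2 * wsh kR 1 (w 1))) (cubT kR (u 0 * wsh kR 1 (w 2)) (u 1 * wsh kR 1 (w 0))
    (u 2 * wsh kR 1 (w 1))) = G₂ at *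
  simp only [pwH] at h
  rw [hG0, hG1, hG2] at h
  set T := G₀ / (426 * S₀ ^ 5) + G₁ / (426 * S₁ ^ 5) + G₂ / (426 * S₂ ^ 5) with hT
  have e : sumW 1 1 S₀ S₁ S₂ G₀ G₁ G₂ = 426 * (S₀ * S₁ * S₂) ^ 5 * T := by
    rw [hT]
    simp only [sumW, w5, w4]
    field_simp
  rw [e] at h
  have key : 0 ≤ (426 * 20164 * (S₀ * S₁ * S₂) ^ 5)
      * (T - psiV u * (1 - 6724 / 20164 * AOf w)) := by
    refine le_of_le_of_eq h ?_
    simp only [psiW, psiV, w4, w5, w6, kR]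
    push_cast
    ring
  have hpos : (0 : ℝ) < 426 * 20164 * (S₀ * S₁ * S₂) ^ 5 := by positivity
  linarith [(mul_nonneg_iff_of_pos_left hpos).1 key]

theorem sOf_shrink (τ : ℝ) {w : Fin 3 → ℝ} (hw : OnSimplex w) :
    sOf (shrink τ w) = τ ^ 3 * sOf w := by
  obtain ⟨-, hs⟩ := hw
  have e2 : w 2 = 1 - w 0 - w 1 := by linarith
  simp [shrink, sOf, PmOf, AOf, cOf, e2]
  ring

theorem FW_ge (a s : ℝ) : 5000 * a ≤ 5000 * a + 137 * a ^ 2 + 259 * (a * s) + 144 * s ^ 2 := by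
  nlinarith [sq_nonneg (274 * a + 259 * s), sq_nonneg s]

theorem FW_scale {τ : ℝ} (t0 : 0 ≤ τ) (t1 : τ ≤ 1) (a s : ℝ) :
    5000 * (τ ^ 2 * a) + 137 * (τ ^ 2 * a) ^ 2 + 259 * (τ ^ 2 * a * (τ ^ 3 * s))
        + 144 * (τ ^ 3 * s) ^ 2
      ≤ τ ^ 2 * (5000 * a + 137 * a ^ 2 + 259 * (a * s) + 144 * s ^ 2) := by
  have disc : 0 ≤ 78912 * ((1 + τ) ^ 2 * (1 + τ ^ 2)) - 67081 * (1 + τ + τ ^ 2) ^ 2 := by
    nlinarith [sq_nonneg (τ - 1), sq_nonneg (τ ^ 2 - 1), mul_nonneg t0 (sq_nonneg (τ - 1)),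
      mul_nonneg t0 t0, sq_nonneg τ]
  have h4 : 0 ≤ 4 * 137 * (1 + τ) * (137 * a ^ 2 * (1 + τ) + 259 * (a * s) * (1 + τ + τ ^ 2)
      + 144 * s ^ 2 * ((1 + τ) * (1 + τ ^ 2))) := by
    nlinarith [sq_nonneg (274 * (1 + τ) * a + 259 * (1 + τ + τ ^ 2) * s),
      mul_nonneg disc (sq_nonneg s)]
  have key : 0 ≤ 137 * a ^ 2 * (1 + τ) + 259 * (a * s) * (1 + τ + τ ^ 2)
      + 144 * s ^ 2 * ((1 + τ) * (1 + τ ^ 2)) :=
    (mul_nonneg_iff_of_pos_left (by positivity)).1 h4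
  nlinarith [mul_nonneg (mul_nonneg (sq_nonneg τ) (sub_nonneg.2 t1)) key]

theorem value_bounds_wide {u : Fin 3 → ℝ} (hu : OnSimplex u) :
    0 ≤ AOf u ∧ AOf u ≤ 1 ∧ |FW u| ≤ 50000 ∧ |psiV u| ≤ 50000 := by
  obtain ⟨a0, a1, -, -, -⟩ := bounds hu
  have h3 := pow_le_one₀ (n := 3) (gm_nonneg hu.1) (gm_le_one hu)
  have h3' := pow_nonneg (gm_nonneg hu.1) 3
  rw [gm_cube hu.1] at h3 h3'
  have s1 : |sOf u| ≤ 3 := by
    rw [abs_le, sOf]
    constructor <;> linarith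
  have q1 : |AOf u * sOf u| ≤ 3 := by
    rw [abs_mul, abs_of_nonneg a0]
    exact le_trans (mul_le_of_le_one_left (abs_nonneg _) a1) s1
  have q2 := pow_le_one₀ (n := 2) a0 a1
  have q3 := pow_le_one₀ (n := 3) a0 a1
  have q2' := pow_nonneg a0 2
  have q3' := pow_nonneg a0 3
  have q4 : sOf u ^ 2 ≤ 9 := by
    have := pow_le_pow_left₀ (abs_nonneg _) s1 2
    rw [sq_abs] at this
    linarith
  have q4' := sq_nonneg (sOf u)
  rw [abs_le] at s1 q1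
  refine ⟨a0, a1, ?_, ?_⟩
  · rw [abs_le, FW]; constructor <;> linarith
  · rw [abs_le, psiV]; constructor <;> linarith

/-- The criterion holds at every edge parameter in `[-41/142, 0]`. -/
theorem cpotW {lam : ℝ} (h0 : -(41 / 142) ≤ lam) (h1 : lam ≤ 0) :
    CPot 3 lam FW psiV (fun v => lam ^ 2 * AOf v) (fun v => 4 * lam ^ 2 * AOf v)
      7500 (9 / 80 * lam ^ 2) 50000 := by
  have hl2 : lam ^ 2 ≤ 1 / 8 := by nlinarith
  obtain ⟨τ, t0, t1, hτ⟩ : ∃ τ : ℝ, 0 ≤ τ ∧ τ ≤ 1 ∧ lam = -41 / 142 * τ :=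
    ⟨-(142 / 41) * lam, by linarith, by linarith, by ring⟩
  have hunif : AOf (fun _ : Fin 3 => (1 : ℝ) / 3) = 0 ∧ sOf (fun _ : Fin 3 => (1 : ℝ) / 3) = 0 := by
    constructor <;> simp only [sOf, PmOf, AOf, cOf] <;> norm_num
  have hss : ∀ w : Fin 3 → ℝ,
      shrink (-41 / 142) (shrink τ w) = shrink (-41 / 142 * τ) w := by
    intro w
    funext i
    simp [shrink]
    ring
  have oneF : ∀ u v : Fin 3 → ℝ, OnSimplex u → OnSimplex v → tSum FW u (shrink lam v)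
      ≤ FW u + lam ^ 2 * FW v - lam ^ 2 * (AOf v * (psiV u + 1 / 20 * AOf u)) := by
    intro u v hu hv
    obtain ⟨hs, hA⟩ := shrink_simplex hv t0 t1
    have h := pointwise_FW hu hs
    rw [hss, ← hτ, hA] at h
    have e : (1681 : ℝ) / 20164 * τ ^ 2 = lam ^ 2 := by rw [hτ]; ring
    have hF : FW (shrink τ v) ≤ τ ^ 2 * FW v := by
      simp only [FW, hA, sOf_shrink τ hv]
      exact FW_scale t0 t1 _ _
    rw [← e]
    nlinarith
  have oneψ : ∀ u v : Fin 3 → ℝ, OnSimplex u → OnSimplex v →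
      psiV u * (1 - 4 * lam ^ 2 * AOf v) ≤ tSum psiV u (shrink lam v) := by
    intro u v hu hv
    obtain ⟨hs, hA⟩ := shrink_simplex hv t0 t1
    have h := pointwise_psiV hu hs
    rw [hss, ← hτ, hA] at h
    have e : (6724 : ℝ) / 20164 * (τ ^ 2 * AOf v) = 4 * lam ^ 2 * AOf v := by rw [hτ]; ring
    rwa [e] at h
  refine
    { apos := by norm_num
      cnn := by positivity
      bddF := fun u a b => (value_bounds_wide (onSimplex_of a b)).2.2.1
      bddψ := fun u a b => (value_bounds_wide (onSimplex_of a b)).2.2.2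
      bddg := fun u a b => ?_
      bddh := fun u a b => ?_
      uniformF := by simp only [FW, Nat.cast_ofNat, hunif.1, hunif.2]; norm_num
      uniformψ := by simp only [psiV, Nat.cast_ofNat, hunif.1, hunif.2]; norm_num
      lower := fun u a b => ?_
      pairF := fun u v a b a' b' => ?_
      pairψ := fun u v a b a' b' => ?_ }
  · obtain ⟨e0, e1, -⟩ := value_bounds_wide (onSimplex_of a b)
    refine ⟨mul_nonneg (sq_nonneg _) e0, ?_⟩
    have := mul_le_one₀ (show lam ^ 2 ≤ 1 by linarith) e0 e1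
    linarith
  · obtain ⟨e0, e1, -⟩ := value_bounds_wide (onSimplex_of a b)
    refine ⟨by positivity, ?_⟩
    exact mul_le_one₀ (by linarith) e0 e1
  · have hu := onSimplex_of a b
    have := FW_ge (AOf u) (sOf u)
    rw [A_eq_sqDev hu.2] at this
    rw [FW, A_eq_sqDev hu.2]
    linarith
  · have hu := onSimplex_of a b
    have hv := onSimplex_of a' b'
    have p1 := oneF u v hu hv
    have p2 := oneF u (flipTri v) hu (flip_onSimplex hv)
    obtain ⟨-, e2, -, -⟩ := flip_inv v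
    have e3 : sOf (flipTri v) = sOf v := by simp [sOf, PmOf, AOf, cOf, flipTri]; ring
    rw [show FW (flipTri v) = FW v by simp only [FW, e2, e3], e2, ← flip_shrink] at p2
    rw [sum_perm_three, show Nat.factorial 3 = 6 from rfl]
    have eu := A_eq_sqDev hu.2
    have ev := A_eq_sqDev hv.2
    push_cast
    simp only [eu, ev] at p1 p2 ⊢
    linarith
  · have hu := onSimplex_of a b
    have hv := onSimplex_of a' b'
    have p1 := oneψ u v hu hv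
    have p2 := oneψ u (flipTri v) hu (flip_onSimplex hv)
    obtain ⟨-, e2, -, -⟩ := flip_inv v
    rw [e2, ← flip_shrink] at p2
    rw [sum_perm_three, show Nat.factorial 3 = 6 from rfl]
    push_cast
    linarith

/-- Nonreconstruction for three states and `lam ∈ [-41/142, 0]`, any offspring law. -/
theorem tendsto_adv_wide {w : ℕ → ℝ} {d lam : ℝ} (hw : IsLaw w d) (h0 : -(41 / 142) ≤ lam)
    (h1 : lam ≤ 0) (hd : d * lam ^ 2 < 1 ∨ (d * lam ^ 2 ≤ 1 ∧ 0 < branchProb w)) :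
    Tendsto (adv 3 w lam) atTop (𝓝 0) := by
  refine (cpotW h0 h1).tendsto_adv (by norm_num) hw
    (adm_of_range (by norm_num) (by norm_num; linarith) (by linarith)) ?_
  rcases hd with h | ⟨h, hb⟩
  · exact Or.inl h
  rcases eq_or_ne lam 0 with hz | hz
  · left; rw [hz]; norm_num
  · exact Or.inr ⟨h, by positivity, hb⟩

theorem range_of_ks_wide {d lam : ℝ} (hd : 12 ≤ d) (h1 : lam ≤ 0) (h : d * lam ^ 2 ≤ 1) :
    -(41 / 142) ≤ lam := by
  nlinarith [mul_le_mul_of_nonneg_right hd (sq_nonneg lam)]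

/-- `d`-ary trees with `d ≥ 12`: nonreconstruction whenever `d * lam ^ 2 ≤ 1`, `lam ≤ 0`. -/
theorem regular_wide {d : ℕ} (hd : 12 ≤ d) {lam : ℝ} (h1 : lam ≤ 0)
    (h : (d : ℝ) * lam ^ 2 ≤ 1) : Tendsto (adv 3 (regLaw d) lam) atTop (𝓝 0) :=
  tendsto_adv_wide (isLaw_regLaw d) (range_of_ks_wide (by exact_mod_cast hd) h1 h) h1
    (Or.inr ⟨h, by rw [branchProb_regLaw (by omega)]; exact one_pos⟩)

/-- Poisson trees with `d ≥ 12`: nonreconstruction whenever `d * lam ^ 2 ≤ 1`, `lam ≤ 0`. -/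
theorem poisson_wide {d : ℝ} (hd : 12 ≤ d) {lam : ℝ} (h1 : lam ≤ 0)
    (h : d * lam ^ 2 ≤ 1) : Tendsto (adv 3 (poissonLaw d) lam) atTop (𝓝 0) :=
  tendsto_adv_wide (isLaw_poissonLaw (by linarith)) (range_of_ks_wide hd h1 h) h1
    (Or.inr ⟨h, branchProb_poissonLaw_pos (by linarith)⟩)

end Vale.Agent.P154.Anti.Wide
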