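import Vale.Agent.P154.Anti.Pot

/-!
# Excluding a limit of the moments

If the moments of some test functions along the depth converge to `θ`, and potentials satisfy
a pointwise step inequality in which multipliers of `g_j - θ_j` are allowed, with a positive
gain `δ`, then the total of a potential decreases by a fixed amount at each generation, which
is impossible. So no certificate exists at the limit.
-/

namespace Vale.Agent.P154.Anti

open Finset Filter Topology Vale.Agent.P154.Tree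

variable {q : ℕ} {ι κ : Type} {J : Type} [Fintype J] {w : ℕ → ℝ} {d lam : ℝ}
  {g : J → (Fin q → ℝ) → ℝ} {θ : J → ℝ}

/-- A step certificate at the moments `θ`: `A` of a product against `B` of the first factor and
`C` of the second, with multipliers `ν` and gain `δ`, all bounded by `K`. -/
structure StepCert (q : ℕ) (lam : ℝ) (g : J → (Fin q → ℝ) → ℝ) (θ : J → ℝ)
    (A B C : (Fin q → ℝ) → ℝ) (δ : ℝ) : Prop where
  pair : ∃ (ν : J → (Fin q → ℝ) → ℝ) (K : ℝ),
    (∀ u : Fin q → ℝ, (∀ i, 0 ≤ u i) → ∑ i, u i = 1 →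
      |A u| ≤ K ∧ |B u| ≤ K ∧ |C u| ≤ K ∧ ∀ j, |ν j u| ≤ K ∧ |g j u| ≤ K) ∧
    ∀ u v : Fin q → ℝ, (∀ i, 0 ≤ u i) → ∑ i, u i = 1 → (∀ i, 0 ≤ v i) → ∑ i, v i = 1 →
      ∑ s : Equiv.Perm (Fin q), homExt A (fun i => u i * shrink lam v (s i))
        ≤ (q.factorial : ℝ) / q * (B u + C v + ∑ j, ν j u * (g j v - θ j) - δ)

theorem abs_total_le {X : ι → Fin q → ℝ} (hX : IsChan X) {f : (Fin q → ℝ) → ℝ} {K : ℝ}
    (hf : ∀ u : Fin q → ℝ, (∀ i, 0 ≤ u i) → ∑ i, u i = 1 → |f u| ≤ K) :
    |total (homExt f) X| ≤ K * q := by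
  have hs := (hX.summable (massBdd_homExt hf)).hasSum
  have hpt : ∀ o, |homExt f (X o)| ≤ K * ∑ i, X o i := fun o => by
    rcases eq_or_ne (∑ i, X o i) 0 with hz | hz
    · simp [homExt, hz]
    obtain ⟨u0, u1⟩ := exists_unit (hX.nonneg o) hz
    simp only [homExt, abs_mul, abs_of_nonneg (hX.mass_nonneg o)]
    rw [mul_comm K]
    exact mul_le_mul_of_nonneg_left (hf _ u0 u1) (hX.mass_nonneg o)
  exact abs_le.2 ⟨neg_le.1 (hasSum_le (fun o => (neg_le_abs _).trans (hpt o)) hs.neg
    (hX.hasSum_mass.mul_left K)),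
    hasSum_le (fun o => (le_abs_self _).trans (hpt o)) hs (hX.hasSum_mass.mul_left K)⟩

theorem total_homExt_add {X : ι → Fin q → ℝ} (hX : IsChan X) {f h : (Fin q → ℝ) → ℝ} {K L : ℝ}
    (hf : ∀ u : Fin q → ℝ, (∀ i, 0 ≤ u i) → ∑ i, u i = 1 → |f u| ≤ K)
    (hh : ∀ u : Fin q → ℝ, (∀ i, 0 ≤ u i) → ∑ i, u i = 1 → |h u| ≤ L) :
    total (homExt fun u => f u + h u) X = total (homExt f) X + total (homExt h) X := by
  simp only [total]
  rw [← (hX.summable (massBdd_homExt hf)).tsum_add (hX.summable (massBdd_homExt hh))]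
  exact tsum_congr fun o => by simp only [homExt]; ring

namespace StepCert

variable {A B C : (Fin q → ℝ) → ℝ} {δ : ℝ}

/-- The step inequality between totals. -/
theorem total_le (H : StepCert q lam g θ A B C δ) (hq : q ≠ 0) (hl : Adm q lam) :
    ∃ K, 0 ≤ K ∧ ∀ (ι κ : Type) (X : ι → Fin q → ℝ) (Y : κ → Fin q → ℝ),
      IsChan X → IsChan Y → IsSymm Y →
      total (homExt A) (mulChan X (Tree.edge lam Y))
        ≤ total (homExt B) X + total (homExt C) Y
          + K * ∑ j, |total (homExt (g j)) Y - q * θ j| - q * δ := by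
  classical
  obtain ⟨ν, K, hb, hp⟩ := H.pair
  refine ⟨|K|, abs_nonneg K, fun ι κ X Y hX hY hYs => ?_⟩
  have hq' : (q : ℝ) ≠ 0 := by exact_mod_cast hq
  have hm : (0 : ℝ) ≤ 1 / q := by positivity
  let r := Fintype.card J
  let e := Fintype.equivFin J
  let f : Fin (3 + r) → (Fin q → ℝ) → ℝ :=
    Fin.append ![B, fun _ => 1, fun _ => 1] fun l => ν (e.symm l)
  let h : Fin (3 + r) → (Fin q → ℝ) → ℝ :=
    Fin.append ![fun _ => 1 / (q : ℝ) * 1, fun v => 1 / (q : ℝ) * C v,
      fun _ => -(δ / q) * 1]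
      fun l v => 1 / (q : ℝ) * (g (e.symm l) v + (-θ (e.symm l)) * 1)
  have hf : ∀ l, ∀ u : Fin q → ℝ, (∀ i, 0 ≤ u i) → ∑ i, u i = 1 → |f l u| ≤ max K 1 := by
    intro l u u0 u1
    obtain ⟨-, h2, -, h4⟩ := hb u u0 u1
    refine Fin.addCases (fun i => ?_) (fun i => ?_) l
    · simp only [f, Fin.append_left]
      fin_cases i
      · exact h2.trans (le_max_left _ _)
      · simp
      · simp
    · simp only [f, Fin.append_right]
      exact (h4 _).1.trans (le_max_left _ _)
  have hh : ∀ l, ∀ u : Fin q → ℝ, (∀ i, 0 ≤ u i) → ∑ i, u i = 1 →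
      |h l u| ≤ 1 / q + 1 / q * |K| + |δ / q| + 1 / q * ∑ j, |θ j| := by
    intro l u u0 u1
    obtain ⟨-, -, h3, h4⟩ := hb u u0 u1
    have e1 : 0 ≤ 1 / (q : ℝ) * |K| := mul_nonneg hm (abs_nonneg K)
    have e2 := abs_nonneg (δ / (q : ℝ))
    have e3 : 0 ≤ 1 / (q : ℝ) * ∑ j, |θ j| :=
      mul_nonneg hm (sum_nonneg fun j _ => abs_nonneg _)
    refine Fin.addCases (fun i => ?_) (fun i => ?_) l
    · simp only [h, Fin.append_left]
      fin_cases i
      · show |1 / (q : ℝ) * 1| ≤ _
        rw [mul_one, abs_of_nonneg hm]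
        linarith
      · show |1 / (q : ℝ) * C u| ≤ _
        rw [abs_mul, abs_of_nonneg hm]
        have := mul_le_mul_of_nonneg_left (h3.trans (le_abs_self K)) hm
        linarith
      · show |-(δ / (q : ℝ)) * 1| ≤ _
        rw [mul_one, abs_neg]
        linarith
    · simp only [h, Fin.append_right, mul_one, abs_mul, abs_of_nonneg hm]
      have a1 : |g (e.symm i) u + -θ (e.symm i)| ≤ |K| + ∑ j, |θ j| := by
        refine (abs_add_le _ _).trans (add_le_add ((h4 _).2.trans (le_abs_self K)) ?_)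
        rw [abs_neg]
        exact single_le_sum (f := fun j => |θ j|) (fun j _ => abs_nonneg _) (mem_univ _)
      have := mul_le_mul_of_nonneg_left a1 hm
      linarith
  have key := total_mulEdge_le_simplex hX hY hYs hl (fun u u0 u1 => (hb u u0 u1).1) f h hf hh
    fun u v u0 u1 v0 v1 => by
      refine (hp u v u0 u1 v0 v1).trans_eq ?_
      simp only [f, h, Fin.sum_univ_add, Fin.append_left, Fin.append_right, Fin.sum_univ_three,
        Matrix.cons_val_zero, Matrix.cons_val_one, Matrix.cons_val]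
      have hsum : ∑ l, ν (e.symm l) u * (1 / (q : ℝ) * (g (e.symm l) v + -θ (e.symm l) * 1))
          = 1 / (q : ℝ) * ∑ j, ν j u * (g j v - θ j) := by
        rw [← e.symm.sum_comp (fun j => ν j u * (g j v - θ j)), mul_sum]
        exact sum_congr rfl fun l _ => by ring
      rw [hsum]
      ring
  simp only [f, h, Fin.sum_univ_add, Fin.append_left, Fin.append_right, Fin.sum_univ_three,
    Matrix.cons_val_zero, Matrix.cons_val_one, Matrix.cons_val, total_homExt_mul,
    total_homExt_one hX, total_homExt_one hY] at key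
  refine key.trans (le_of_eq_of_le (?_ : _ = total (homExt B) X + total (homExt C) Y
    + ∑ l, total (homExt (ν (e.symm l))) X *
      (1 / (q : ℝ) * (total (homExt (g (e.symm l))) Y - q * θ (e.symm l))) - q * δ) ?_)
  · have hg : ∀ l, total (homExt fun v => g (e.symm l) v + -θ (e.symm l) * 1) Y
        = total (homExt (g (e.symm l))) Y - q * θ (e.symm l) := fun l => by
      rw [total_homExt_add hY (K := K) (L := |θ (e.symm l)|)
        (fun u u0 u1 => ((hb u u0 u1).2.2.2 _).2) (fun u _ _ => by simp),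
        total_homExt_mul, total_homExt_one hY]
      ring
    simp only [hg]
    field_simp
    ring
  · rw [e.symm.sum_comp (fun j => total (homExt (ν j)) X *
      (1 / (q : ℝ) * (total (homExt (g j)) Y - q * θ j))), mul_sum]
    refine sub_le_sub_right (add_le_add le_rfl (sum_le_sum fun j _ => ?_)) _
    refine (le_abs_self _).trans ?_
    rw [abs_mul, abs_mul, abs_of_nonneg hm]
    have h1 : |total (homExt (ν j)) X| ≤ |K| * q :=
      abs_total_le hX fun u u0 u1 => (((hb u u0 u1).2.2.2 j).1).trans (le_abs_self K)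
    refine (mul_le_mul_of_nonneg_right h1 (by positivity)).trans_eq ?_
    field_simp

end StepCert

/-- A bounded sequence cannot lose a fixed amount at each step. -/
theorem no_drift {z ε : ℕ → ℝ} {η M : ℝ} (hη : 0 < η) (hz : ∀ n, -M ≤ z n)
    (hε : Tendsto ε atTop (𝓝 0)) (hstep : ∀ n, z (n + 1) ≤ z n - η + ε n) : False := by
  obtain ⟨N, hN⟩ := eventually_atTop.1 ((tendsto_order.1 hε).2 (η / 2) (by linarith))
  have hk : ∀ k : ℕ, z (N + k) ≤ z N - k * (η / 2) := by
    intro k
    induction k with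
    | zero => simp
    | succ k ih =>
      have h1 := hstep (N + k)
      have h2 := hN (N + k) (by omega)
      push_cast
      rw [← add_assoc]
      linarith
  obtain ⟨k, hk'⟩ := exists_nat_gt ((z N + M) / (η / 2))
  rw [div_lt_iff₀ (by linarith)] at hk'
  linarith [hk k, hz (N + k)]

theorem err_tendsto {Y : ℕ → J → ℝ} {L : J → ℝ} {K : ℝ}
    (h : ∀ j, Tendsto (fun n => Y n j) atTop (𝓝 (L j))) :
    Tendsto (fun n => K * ∑ j, |Y n j - L j|) atTop (𝓝 0) := by
  have h' : ∀ j, Tendsto (fun n => |Y n j - L j|) atTop (𝓝 0) := fun j => by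
    simpa using ((h j).sub_const (L j)).abs
  simpa using (tendsto_finsetSum univ fun j _ => h' j).const_mul K

/-- The products at a vertex, along a chain of potentials. -/
theorem chain_piChan {F : ℕ → (Fin q → ℝ) → ℝ} {C : (Fin q → ℝ) → ℝ} {δ : ℕ → ℝ} {m : ℕ}
    (hs : ∀ t < m, StepCert q lam g θ (F (t + 1)) (F t) C (δ t)) (hq : q ≠ 0)
    (hl : Adm q lam) :
    ∃ K, ∀ (ι : Type) (Y : ι → Fin q → ℝ), IsChan Y → IsSymm Y →
      total (homExt (F m)) (piChan m (Tree.edge lam Y))
        ≤ q * F 0 (fun _ => 1 / (q : ℝ)) + m * total (homExt C) Y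
          + K * ∑ j, |total (homExt (g j)) Y - q * θ j| - q * ∑ t ∈ range m, δ t := by
  induction m with
  | zero =>
    refine ⟨0, fun ι Y hY _ => le_of_eq ?_⟩
    rw [total_piChan_zero]
    simp [homExt]
  | succ m ih =>
    obtain ⟨K, hK⟩ := ih fun t ht => hs t (by omega)
    obtain ⟨L, -, hL⟩ := (hs m (by omega)).total_le hq hl
    refine ⟨K + L, fun ι Y hY hYs => ?_⟩
    rw [piChan_succ, total_reindex]
    refine (hL _ _ _ Y (isChan_piChan (hY.edge' hl) m) hY hYs).trans ?_
    have := hK ι Y hY hYs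
    rw [sum_range_succ]
    push_cast
    linarith

/-- Regular trees: no chain certificate with positive total gain exists at the limit of the
moments. -/
theorem exclude_regular {m : ℕ} {F : ℕ → (Fin q → ℝ) → ℝ} {C : (Fin q → ℝ) → ℝ} {δ : ℕ → ℝ}
    (hs : ∀ t < m, StepCert q lam g θ (F (t + 1)) (F t) C (δ t)) (hm : 0 < m)
    (hC : ∀ u : Fin q → ℝ, (∀ i, 0 ≤ u i) → ∑ i, u i = 1 → (m : ℝ) * C u ≤ F m u)
    (hgain : F 0 (fun _ => 1 / (q : ℝ)) < ∑ t ∈ range m, δ t)
    (hq : 0 < q) (hl : Adm q lam)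
    (hθ : ∀ j, Tendsto (fun n => total (homExt (g j)) (lik q (regLaw m) lam n))
      atTop (𝓝 (q * θ j))) : False := by
  have hw := isLaw_regLaw m
  have hq' : (0 : ℝ) < q := by exact_mod_cast hq
  obtain ⟨m', rfl⟩ : ∃ m', m = m' + 1 := ⟨m - 1, by omega⟩
  obtain ⟨ν, M, hM, -⟩ := (hs m' (by omega)).pair
  obtain ⟨K, hK⟩ := chain_piChan hs hq.ne' hl
  set Y := fun n => lik q (regLaw (m' + 1)) lam n
  have hY : ∀ n, IsChan (Y n) := fun n => isChan_lik hw hl n
  refine no_drift (z := fun n => ((m' + 1 : ℕ) : ℝ) * total (homExt C) (Y n))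
    (η := q * (∑ t ∈ range (m' + 1), δ t - F 0 (fun _ => 1 / (q : ℝ))))
    (M := ((m' + 1 : ℕ) : ℝ) * (M * q)) (mul_pos hq' (sub_pos.2 hgain))
    (fun n => ?_) (err_tendsto (K := K) hθ) fun n => ?_
  · rw [← mul_neg]
    exact mul_le_mul_of_nonneg_left
      (abs_le.1 (abs_total_le (hY n) fun u u0 u1 => (hM u u0 u1).2.2.1)).1 (Nat.cast_nonneg _)
  · have hA : ∀ u : Fin q → ℝ, (∀ i, 0 ≤ u i) → ∑ i, u i = 1 → |F (m' + 1) u| ≤ M :=
      fun u u0 u1 => (hM u u0 u1).1
    have hT := total_succ hw hl (massBdd_homExt hA) n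
    have hval : total (homExt (F (m' + 1))) (Y (n + 1))
        = total (homExt (F (m' + 1))) (piChan (m' + 1) (Tree.edge lam (Y n))) := by
      refine hT.unique ?_
      convert hasSum_ite_eq (m' + 1)
        (total (homExt (F (m' + 1))) (piChan (m' + 1) (Tree.edge lam (Y n)))) using 1
      funext k
      rcases eq_or_ne k (m' + 1) with rfl | hk
      · simp [regLaw, Y]
      · simp [regLaw, hk]
    have hle : ((m' + 1 : ℕ) : ℝ) * total (homExt C) (Y (n + 1))
        ≤ total (homExt (F (m' + 1))) (Y (n + 1)) := by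
      rw [← total_homExt_mul]
      refine hasSum_le (fun o => ?_)
        ((hY (n + 1)).summable (massBdd_homExt (K := ((m' + 1 : ℕ) : ℝ) * M) fun u u0 u1 => by
          rw [abs_mul, Nat.abs_cast]
          exact mul_le_mul_of_nonneg_left (hM u u0 u1).2.2.1 (Nat.cast_nonneg _))).hasSum
        ((hY (n + 1)).summable (massBdd_homExt hA)).hasSum
      rcases eq_or_ne (∑ i, Y (n + 1) o i) 0 with hz | hz
      · simp [homExt, hz]
      obtain ⟨u0, u1⟩ := exists_unit ((hY (n + 1)).nonneg o) hz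
      exact mul_le_mul_of_nonneg_left (hC _ u0 u1) ((hY (n + 1)).mass_nonneg o)
    have := hK _ (Y n) (hY n) (isSymm_lik _ _ _)
    simp only [Y] at *
    linarith

end Vale.Agent.P154.Anti
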