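import Vale.Agent.P154.Anti.Exclude

/-!
# Excluding a limit of the moments on Galton–Watson trees

Two step inequalities, for `F` and for `F + E`, are mixed along the number of children with
the weights `η T (k + 1)` and `tail k - η T (k + 1)`, where `T` is the expected residual number
of children, and telescope to one inequality for a generation.
-/

namespace Vale.Agent.P154.Anti

open Finset Filter Topology Vale.Agent.P154.Tree

variable {q : ℕ} {J : Type} [Fintype J] {w : ℕ → ℝ} {d lam : ℝ}
  {g : J → (Fin q → ℝ) → ℝ} {θ : J → ℝ}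

/-- The probability of more than `k` children. -/
noncomputable def lawTail (w : ℕ → ℝ) (k : ℕ) : ℝ := 1 - ∑ j ∈ range (k + 1), w j

/-- The expected number of children beyond the first `k`. -/
noncomputable def residual (w : ℕ → ℝ) (d : ℝ) (k : ℕ) : ℝ := d - ∑ j ∈ range k, lawTail w j

theorem sum_lawTail (w : ℕ → ℝ) : ∀ K : ℕ, ∑ j ∈ range K, lawTail w j
      = ∑ k ∈ range (K + 1), (k : ℝ) * w k + K * lawTail w K
  | 0 => by simp
  | K + 1 => by
    rw [sum_range_succ, sum_lawTail w K, sum_range_succ _ (K + 1)]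
    have : lawTail w (K + 1) = lawTail w K - w (K + 1) := by
      simp only [lawTail, sum_range_succ _ (K + 1)]
      ring
    rw [this]
    push_cast
    ring

theorem lawTail_nonneg (hw : IsLaw w d) (k : ℕ) : 0 ≤ lawTail w k :=
  sub_nonneg.2 (sum_le_hasSum _ (fun i _ => hw.nonneg i) hw.hasSum)

theorem mul_lawTail_le (hw : IsLaw w d) (K : ℕ) :
    (K : ℝ) * lawTail w K ≤ d - ∑ k ∈ range (K + 1), (k : ℝ) * w k := by
  have h1 := (hasSum_nat_add_iff' (K + 1)).2 hw.hasSum
  have h2 := (hasSum_nat_add_iff' (K + 1)).2 hw.mean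
  refine hasSum_le (fun i => ?_) (h1.mul_left (K : ℝ)) h2
  refine mul_le_mul_of_nonneg_right ?_ (hw.nonneg _)
  push_cast
  linarith [(Nat.cast_nonneg i : (0 : ℝ) ≤ i)]

theorem residual_nonneg (hw : IsLaw w d) (k : ℕ) : 0 ≤ residual w d k := by
  rw [residual, sum_lawTail]
  linarith [mul_lawTail_le hw k]

theorem residual_succ (w : ℕ → ℝ) (d : ℝ) (k : ℕ) :
    residual w d (k + 1) + lawTail w k = residual w d k := by
  simp only [residual, sum_range_succ]
  ring

theorem residual_le (hw : IsLaw w d) (k : ℕ) :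
    residual w d k ≤ d - ∑ j ∈ range (k + 1), (j : ℝ) * w j := by
  rw [residual, sum_lawTail]
  have := mul_nonneg (Nat.cast_nonneg (α := ℝ) k) (lawTail_nonneg hw k)
  linarith

theorem residual_poisson {d : ℝ} (hd : 0 ≤ d) (k : ℕ) :
    residual (poissonLaw d) d (k + 1) ≤ d * lawTail (poissonLaw d) k := by
  refine (residual_le (isLaw_poissonLaw hd) (k + 1)).trans_eq ?_
  rw [lawTail, mul_sub, mul_one, mul_sum, sum_range_succ' _ (k + 1)]
  simp only [Nat.cast_zero, zero_mul, add_zero]
  refine congrArg _ (sum_congr rfl fun j _ => ?_)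
  unfold poissonLaw
  rw [Nat.factorial_succ]
  push_cast
  field_simp
  ring

theorem residual_regular (m k : ℕ) :
    residual (regLaw m) m (k + 1) ≤ (m : ℝ) * lawTail (regLaw m) k := by
  have h := residual_le (isLaw_regLaw m) (k + 1)
  rcases le_or_gt m k with hk | hk
  · refine (h.trans ?_).trans (mul_nonneg (Nat.cast_nonneg m) (lawTail_nonneg (isLaw_regLaw m) k))
    rw [sum_eq_single m (fun j _ hj => by simp [regLaw, hj])
      (fun hm => absurd (mem_range.2 (by omega)) hm)]
    simp [regLaw]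
  · have e : lawTail (regLaw m) k = 1 := by
      rw [lawTail, sum_eq_zero fun j hj => by
        simp [regLaw, show j ≠ m by have := mem_range.1 hj; omega], sub_zero]
    rw [e, mul_one]
    exact h.trans (sub_le_self _ (sum_nonneg fun j _ =>
      mul_nonneg (Nat.cast_nonneg j) ((isLaw_regLaw m).nonneg j)))

/-- Summation by parts along the number of children. -/
theorem mix_le (hw : IsLaw w d) {a b : ℕ → ℝ} {η c M A : ℝ} (hη : 0 ≤ η)
    (hres : ∀ k, η * residual w d (k + 1) ≤ lawTail w k)
    (ha : ∀ k, |a k| ≤ M) (hb : ∀ k, |b k| ≤ M) (hb0 : b 0 = 0)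
    (h0 : ∀ k, a (k + 1) ≤ a k + η * b k + c)
    (h1 : ∀ k, a (k + 1) + b (k + 1) ≤ a k + (1 + η) * b k + c)
    (hA : HasSum (fun k => w k * a k) A) : A ≤ a 0 + d * c := by
  set S : ℕ → ℝ := fun K => ∑ k ∈ range (K + 1), w k * a k + lawTail w K * a K
    + η * residual w d K * b K with hS
  have hle : ∀ K, S K ≤ a 0 + c * ∑ j ∈ range K, lawTail w j := by
    intro K
    induction K with
    | zero =>
      simp [hS, lawTail, hb0]
      linarith
    | succ K ih =>
      set p := lawTail w K
      set T := η * residual w d (K + 1)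
      have hT0 : 0 ≤ T := mul_nonneg hη (residual_nonneg hw _)
      have e0 := mul_nonneg (sub_nonneg.2 (hres K))
        (sub_nonneg.2 (h0 K))
      have e1 := mul_nonneg hT0 (sub_nonneg.2 (h1 K))
      have hp : lawTail w (K + 1) = p - w (K + 1) := by
        simp only [p, lawTail, sum_range_succ _ (K + 1)]
        ring
      have hR : residual w d K = residual w d (K + 1) + p := (residual_succ w d K).symm
      simp only [hS, sum_range_succ _ (K + 1), sum_range_succ (fun j => lawTail w j) K, hp] at ih ⊢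
      rw [hR] at ih
      simp only [T, p] at e0 e1 ⊢
      linarith
  have hsum : Tendsto (fun K => ∑ k ∈ range (K + 1), w k * a k) atTop (𝓝 A) :=
    hA.tendsto_sum_nat.comp (tendsto_add_atTop_nat 1)
  have hp : Tendsto (fun K => lawTail w K) atTop (𝓝 0) := by
    simpa [lawTail] using ((hw.hasSum.tendsto_sum_nat.comp (tendsto_add_atTop_nat 1)).const_sub 1)
  have hT : Tendsto (fun K => residual w d K) atTop (𝓝 0) :=
    squeeze_zero (residual_nonneg hw) (residual_le hw)
      (by simpa using ((hw.mean.tendsto_sum_nat.comp (tendsto_add_atTop_nat 1)).const_sub d))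
  have hz : ∀ {u v : ℕ → ℝ}, Tendsto u atTop (𝓝 0) → (∀ k, |v k| ≤ M) →
      Tendsto (fun K => u K * v K) atTop (𝓝 0) := fun {u v} hu hv =>
    squeeze_zero_norm (a := fun K => |u K| * M) (fun K => by
      rw [Real.norm_eq_abs, abs_mul]
      exact mul_le_mul_of_nonneg_left (hv K) (abs_nonneg _))
      (by simpa using hu.abs.mul_const M)
  have hlim : Tendsto S atTop (𝓝 A) := by
    simpa [hS] using (hsum.add (hz hp ha)).add
      (hz (u := fun K => η * residual w d K) (by simpa using hT.const_mul η) hb)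
  have hlim' : Tendsto (fun K => a 0 + c * ∑ j ∈ range K, lawTail w j) atTop
      (𝓝 (a 0 + c * d)) := by
    refine (Tendsto.const_mul c ?_).const_add _
    simpa [residual] using hT.const_sub d
  rw [mul_comm d c]
  exact le_of_tendsto_of_tendsto' hlim hlim' hle

/-- Galton–Watson trees: no two-level certificate with positive gain exists at the limit of the
moments. For the Poisson and regular laws of mean `d` the condition on `η` is `η * d ≤ 1`. -/
theorem exclude_law {F E C : (Fin q → ℝ) → ℝ} {η δ δ' : ℝ}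
    (h0 : StepCert q lam g θ F (fun u => F u + η * E u) C δ)
    (h1 : StepCert q lam g θ (fun u => F u + E u) (fun u => F u + (1 + η) * E u) C δ')
    (hη : 0 ≤ η) (hres : ∀ k, η * residual w d (k + 1) ≤ lawTail w k)
    (hC : ∀ u : Fin q → ℝ, (∀ i, 0 ≤ u i) → ∑ i, u i = 1 → d * C u ≤ F u)
    (hE : E (fun _ => 1 / (q : ℝ)) = 0)
    (hgain : F (fun _ => 1 / (q : ℝ)) < d * min δ δ')
    (hq : 0 < q) (hw : IsLaw w d) (hl : Adm q lam)
    (hθ : ∀ j, Tendsto (fun n => total (homExt (g j)) (lik q w lam n))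
      atTop (𝓝 (q * θ j))) : False := by
  have hq' : (0 : ℝ) < q := by exact_mod_cast hq
  have hd0 : 0 ≤ d := hw.mean.nonneg fun k => mul_nonneg (Nat.cast_nonneg k) (hw.nonneg k)
  obtain ⟨ν0, M, hM, -⟩ := h0.pair
  obtain ⟨ν1, N, hN, -⟩ := h1.pair
  obtain ⟨K0, hK0, hL0⟩ := h0.total_le hq.ne' hl
  obtain ⟨K1, hK1, hL1⟩ := h1.total_le hq.ne' hl
  have hFb : ∀ u : Fin q → ℝ, (∀ i, 0 ≤ u i) → ∑ i, u i = 1 → |F u| ≤ M + N :=
    fun u u0 u1 => (hM u u0 u1).1.trans
      (le_add_of_nonneg_right ((abs_nonneg _).trans (hN u u0 u1).1))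
  have hEb : ∀ u : Fin q → ℝ, (∀ i, 0 ≤ u i) → ∑ i, u i = 1 → |E u| ≤ M + N := fun u u0 u1 => by
    have e1 := abs_le.1 (hM u u0 u1).1
    have e2 := abs_le.1 (hN u u0 u1).1
    rw [abs_le]
    constructor <;> linarith
  have hCb : ∀ u : Fin q → ℝ, (∀ i, 0 ≤ u i) → ∑ i, u i = 1 → |C u| ≤ M :=
    fun u u0 u1 => (hM u u0 u1).2.2.1
  set Y := fun n => lik q w lam n
  have hY : ∀ n, IsChan (Y n) := fun n => isChan_lik hw hl n
  set err : ℕ → ℝ := fun n => ∑ j, |total (homExt (g j)) (Y n) - q * θ j| with herr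
  have herr0 : ∀ n, 0 ≤ err n := fun n => sum_nonneg fun j _ => abs_nonneg _
  refine no_drift (z := fun n => d * total (homExt C) (Y n))
    (η := q * (d * min δ δ' - F (fun _ => 1 / (q : ℝ)))) (M := d * (M * q))
    (ε := fun n => d * (K0 + K1) * err n)
    (mul_pos hq' (sub_pos.2 hgain)) (fun n => ?_) (err_tendsto hθ) fun n => ?_
  · rw [← mul_neg]
    exact mul_le_mul_of_nonneg_left (abs_le.1 (abs_total_le (hY n) hCb)).1 hd0
  have hE' := (hY n).edge' hl
  set a : ℕ → ℝ := fun k => total (homExt F) (piChan k (Tree.edge lam (Y n)))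
  set b : ℕ → ℝ := fun k => total (homExt E) (piChan k (Tree.edge lam (Y n)))
  have hab : ∀ (r : ℝ) k, total (homExt fun u => F u + r * E u)
      (piChan k (Tree.edge lam (Y n))) = a k + r * b k := fun r k => by
    rw [total_homExt_add (isChan_piChan hE' k) hFb (L := |r| * (M + N)) fun u u0 u1 => by
      rw [abs_mul]; exact mul_le_mul_of_nonneg_left (hEb u u0 u1) (abs_nonneg r),
      total_homExt_mul]
  have hab1 : ∀ k, total (homExt fun u => F u + E u) (piChan k (Tree.edge lam (Y n)))
      = a k + b k := fun k => by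
    rw [total_homExt_add (isChan_piChan hE' k) hFb hEb]
  set c := total (homExt C) (Y n) + (K0 + K1) * err n - q * min δ δ' with hc
  have hs0 : ∀ k, a (k + 1) ≤ a k + η * b k + c := fun k => by
    have := hL0 _ _ _ (Y n) (isChan_piChan hE' k) (hY n) (isSymm_lik w lam n)
    rw [← hab]
    simp only [a, piChan_succ, total_reindex, hc]
    refine this.trans ?_
    have e1 := mul_nonneg hK1 (herr0 n)
    have e2 := mul_le_mul_of_nonneg_left (min_le_left δ δ') hq'.le
    simp only [herr] at e1 ⊢
    linarith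
  have hs1 : ∀ k, a (k + 1) + b (k + 1) ≤ a k + (1 + η) * b k + c := fun k => by
    have := hL1 _ _ _ (Y n) (isChan_piChan hE' k) (hY n) (isSymm_lik w lam n)
    rw [← hab, ← hab1]
    simp only [piChan_succ, total_reindex, hc]
    refine this.trans ?_
    have e1 := mul_nonneg hK0 (herr0 n)
    have e2 := mul_le_mul_of_nonneg_left (min_le_right δ δ') hq'.le
    simp only [herr] at e1 ⊢
    linarith
  have hu : ∀ f : (Fin q → ℝ) → ℝ, total (homExt f) (piChan 0 (Tree.edge lam (Y n)))
      = q * f (fun _ => 1 / (q : ℝ)) := fun f => by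
    rw [total_piChan_zero]; simp [homExt]
  have hmix := mix_le hw hη hres (M := (M + N) * q)
    (fun k => abs_total_le (isChan_piChan hE' k) hFb)
    (fun k => abs_total_le (isChan_piChan hE' k) hEb)
    (by simp only [hu, hE, mul_zero]) hs0 hs1 (total_succ hw hl (massBdd_homExt hFb) n)
  have hle : d * total (homExt C) (Y (n + 1)) ≤ total (homExt F) (Y (n + 1)) := by
    rw [← total_homExt_mul]
    refine hasSum_le (fun o => ?_)
      ((hY (n + 1)).summable (massBdd_homExt (K := d * M) fun u u0 u1 => by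
        rw [abs_mul, abs_of_nonneg hd0]
        exact mul_le_mul_of_nonneg_left (hCb u u0 u1) hd0)).hasSum
      ((hY (n + 1)).summable (massBdd_homExt hFb)).hasSum
    rcases eq_or_ne (∑ i, Y (n + 1) o i) 0 with hz | hz
    · simp [homExt, hz]
    obtain ⟨u0, u1⟩ := exists_unit ((hY (n + 1)).nonneg o) hz
    exact mul_le_mul_of_nonneg_left (hC _ u0 u1) ((hY (n + 1)).mass_nonneg o)
  simp only [hu, hc, Y] at hmix hle ⊢
  linarith

end Vale.Agent.P154.Anti
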