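import Vale.Agent.P154.Q3.Exprs

/-!
# The two polynomials of the antiferromagnetic certificate

The edge parameter is `-33/140`. With `W = x' + y' + z'`, the vector `shH W ·` is `420` times
the shrunk second triple.
-/

namespace Vale.Agent.P154.Anti

open Vale.Agent.P154.Q3

section Hom

variable {R : Type} [Add R] [Mul R] [Sub R] (k : ℤ → R)

/-- The shrunk coordinate. -/
def shH (W x : R) : R := k 173 * W - k 99 * x
/-- The cube of a product. -/
def cube2 (a b : R) : R := (a * b) * ((a * b) * (a * b))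
/-- The potential, homogenised to degree four. -/
def potH (U A : R) : R := k 1000 * (A * (U * U)) + k 48 * (A * A)
/-- The class functional, homogenised to degree four. -/
def psiH (U A s : R) : R :=
  k 664 * (A * (U * U)) + k 1080 * (s * U) - k 2652 * (A * A)

variable (U Au su W Aw S₀ A₀ s₀ S₁ A₁ s₁ S₂ A₂ s₂ : R)

/-- The subadditivity polynomial. -/
def gaH : R :=
  k 420 * ((S₀ * (S₀ * S₀)) * ((S₁ * (S₁ * S₁)) * (S₂ * (S₂ * S₂)))
      * (k 19600 * (potH k U Au * ((W * W) * (W * W))) + k 1089 * (potH k W Aw * ((U * U) * (U * U)))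
        - k 1089 * ((psiH k U Au su + k 2 * (Au * (U * U))) * (Aw * (W * W)))))
    - k 19600 * ((U * (U * U)) * (W * (W * W))
      * (potH k S₀ A₀ * cube2 S₁ S₂ + potH k S₁ A₁ * cube2 S₂ S₀
        + potH k S₂ A₂ * cube2 S₀ S₁))
/-- The closure polynomial. -/
def paH : R :=
  k 19600 * ((U * (U * U)) * (W * (W * W))
      * (psiH k S₀ A₀ s₀ * cube2 S₁ S₂ + psiH k S₁ A₁ s₁ * cube2 S₂ S₀
        + psiH k S₂ A₂ s₂ * cube2 S₀ S₁))
    - k 420 * ((S₀ * (S₀ * S₀)) * ((S₁ * (S₁ * S₁)) * (S₂ * (S₂ * S₂)))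
      * (psiH k U Au su * ((W * W) * (k 19600 * (W * W) - k 8712 * Aw))))

/-- `gaH` on a pair of triples. -/
def gaTriple (x y z x' y' z' : R) : R :=
  let W := sumT x' y' z'
  let a := shH k W x'
  let b := shH k W y'
  let c := shH k W z'
  gaH k (sumT x y z) (devT k x y z) (cubT k x y z) W (devT k x' y' z')
    (sumT (x * a) (y * b) (z * c)) (devT k (x * a) (y * b) (z * c))
    (sumT (x * b) (y * c) (z * a)) (devT k (x * b) (y * c) (z * a))
    (sumT (x * c) (y * a) (z * b)) (devT k (x * c) (y * a) (z * b))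

/-- `paH` on a pair of triples. -/
def paTriple (x y z x' y' z' : R) : R :=
  let W := sumT x' y' z'
  let a := shH k W x'
  let b := shH k W y'
  let c := shH k W z'
  paH k (sumT x y z) (devT k x y z) (cubT k x y z) W (devT k x' y' z')
    (sumT (x * a) (y * b) (z * c)) (devT k (x * a) (y * b) (z * c))
    (cubT k (x * a) (y * b) (z * c))
    (sumT (x * b) (y * c) (z * a)) (devT k (x * b) (y * c) (z * a))
    (cubT k (x * b) (y * c) (z * a))
    (sumT (x * c) (y * a) (z * b)) (devT k (x * c) (y * a) (z * b))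
    (cubT k (x * c) (y * a) (z * b))

end Hom

end Vale.Agent.P154.Anti
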