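import Vale.Agent.P154.Anti.WideRange
import Vale.Agent.P154.Anti.Thin
import Vale.Agent.P154.Q3.Thresholds
import Vale.Agent.P154.Small.Range
import Vale.Agent.P154.Tree.Kesten

/-!
# The three-state threshold from the critical curve

For three states it is enough to know nonreconstruction at the critical antiferromagnetic
parameters with mean offspring number between `4` and `12`.
-/

namespace Vale.Agent.P154.Anti.Final

open Filter Topology Vale.Agent.P154.Tree

theorem iff_of {w : ℕ → ℝ} {lam x : ℝ}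
    (low : x ≤ 1 → Tendsto (adv 3 w lam) atTop (𝓝 0))
    (up : 1 < x → 0 < liminf (adv 3 w lam) atTop ∧ ¬ Tendsto (adv 3 w lam) atTop (𝓝 0)) :
    (0 < liminf (adv 3 w lam) atTop ↔ 1 < x) ∧
      (Tendsto (adv 3 w lam) atTop (𝓝 0) ↔ x ≤ 1) := by
  refine ⟨⟨fun h => ?_, fun h => (up h).1⟩, ⟨fun h => ?_, low⟩⟩
  · by_contra hn
    rw [(low (not_lt.1 hn)).liminf_eq] at h
    exact lt_irrefl _ h
  · by_contra hn
    exact (up (not_le.1 hn)).2 h

/-- The negative critical parameter. -/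
noncomputable def critLam (d : ℝ) : ℝ := -(1 / Real.sqrt d)

theorem critLam_spec {d : ℝ} (hd : 4 ≤ d) :
    critLam d < 0 ∧ -(1 / 2) ≤ critLam d ∧ d * critLam d ^ 2 = 1 := by
  have h2 : 2 ≤ Real.sqrt d := Real.le_sqrt_of_sq_le (by linarith)
  refine ⟨neg_lt_zero.2 (by positivity), ?_, ?_⟩
  · exact neg_le_neg (one_div_le_one_div_of_le (by norm_num) h2)
  · rw [critLam, neg_sq, div_pow, one_pow, Real.sq_sqrt (by linarith)]
    field_simp

theorem abs_le_critLam {d lam : ℝ} (hd : 4 ≤ d) (h : d * lam ^ 2 ≤ 1) :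
    |lam| ≤ |critLam d| := by
  obtain ⟨-, -, e⟩ := critLam_spec hd
  exact sq_le_sq.1 (le_of_mul_le_mul_left (h.trans e.ge) (by linarith))

variable
  (hR : ∀ d : ℕ, 4 ≤ d → d ≤ 11 → ∀ lam : ℝ, lam < 0 → (d : ℝ) * lam ^ 2 = 1 →
    Tendsto (adv 3 (regLaw d) lam) atTop (𝓝 0))
  (hP : ∀ d lam : ℝ, -(1 / 2) ≤ lam → lam ≤ -(41 / 142) → d * lam ^ 2 = 1 →
    Tendsto (adv 3 (poissonLaw d) lam) atTop (𝓝 0))

include hR in
/-- Regular trees, antiferromagnetic side. -/
theorem regular_neg {d : ℕ} {lam : ℝ} (h0 : -(1 / 2) ≤ lam) (h1 : lam ≤ 0)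
    (h : (d : ℝ) * lam ^ 2 ≤ 1) : Tendsto (adv 3 (regLaw d) lam) atTop (𝓝 0) := by
  rcases le_or_gt d 3 with hd | hd
  · exact Small.regular_small hd h0 h1
  rcases le_or_gt 12 d with hd' | hd'
  · exact Wide.regular_wide hd' h1 h
  have hd4 : (4 : ℝ) ≤ d := by exact_mod_cast hd
  obtain ⟨a, b, e⟩ := critLam_spec hd4
  exact tendsto_adv_of_abs_le (isLaw_regLaw d)
    (adm_of_range (by norm_num) (by norm_num; linarith) (by linarith))
    (mul_nonneg_of_nonpos_of_nonpos h1 a.le) (abs_le_critLam hd4 h)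
    (hR d hd (by omega) _ a e)

include hP in
/-- Poisson trees, antiferromagnetic side. -/
theorem poisson_neg {d lam : ℝ} (hd0 : 0 ≤ d) (h0 : -(1 / 2) ≤ lam) (h1 : lam ≤ 0)
    (h : d * lam ^ 2 ≤ 1) : Tendsto (adv 3 (poissonLaw d) lam) atTop (𝓝 0) := by
  rcases le_or_gt 12 d with hd' | hd'
  · exact Wide.poisson_wide hd' h1 h
  rcases le_or_gt 4 d with hd4 | hd4
  · obtain ⟨a, b, e⟩ := critLam_spec hd4
    refine tendsto_adv_of_abs_le (isLaw_poissonLaw hd0)
      (adm_of_range (by norm_num) (by norm_num; linarith) (by linarith))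
      (mul_nonneg_of_nonpos_of_nonpos h1 a.le) (abs_le_critLam hd4 h) ?_
    rcases le_or_gt (critLam d) (-(41 / 142)) with hc | hc
    · exact hP d _ b hc e
    · exact Wide.tendsto_adv_wide (isLaw_poissonLaw hd0) hc.le a.le
        (Or.inr ⟨e.le, branchProb_poissonLaw_pos (by linarith)⟩)
  · have hh : Tendsto (adv 3 (poissonLaw 4) (-(1 / 2))) atTop (𝓝 0) :=
      hP 4 _ le_rfl (by norm_num) (by norm_num)
    have hl : Adm 3 (-(1 / 2) : ℝ) :=
      adm_of_range (by norm_num) (by norm_num) (by norm_num)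
    refine tendsto_adv_of_abs_le (isLaw_poissonLaw hd0) hl
      (mul_nonneg_of_nonpos_of_nonpos h1 (by norm_num)) ?_
      (tendsto_adv_poisson_of_le hl hd0 hd4.le hh)
    rw [abs_of_nonpos h1, abs_of_nonpos (by norm_num : (-(1 / 2) : ℝ) ≤ 0)]
    linarith

include hR hP in
/-- The full three-state threshold, both models, every admissible parameter. -/
theorem three_states_iff :
    (∀ (d : ℕ) (lam : ℝ), 2 ≤ d → -(1 / 2) ≤ lam → lam ≤ 1 →
      ((0 < liminf (adv 3 (regLaw d) lam) atTop ↔ 1 < (d : ℝ) * lam ^ 2) ∧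
        (Tendsto (adv 3 (regLaw d) lam) atTop (𝓝 0) ↔ (d : ℝ) * lam ^ 2 ≤ 1))) ∧
    (∀ (d lam : ℝ), 0 ≤ d → -(1 / 2) ≤ lam → lam ≤ 1 →
      ((0 < liminf (adv 3 (poissonLaw d) lam) atTop ↔ 1 < d * lam ^ 2) ∧
        (Tendsto (adv 3 (poissonLaw d) lam) atTop (𝓝 0) ↔ d * lam ^ 2 ≤ 1))) := by
  refine ⟨fun d lam hd h0 h1 => ?_, fun d lam hd h0 h1 => ?_⟩
  · have hl : Adm 3 lam := adm_of_range (by norm_num) (by norm_num; linarith) h1
    refine iff_of (fun h => ?_)
      (fun h => reconstruction_regLaw (q := 3) (by norm_num) d hl h)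
    rcases le_total 0 lam with hs | hs
    · exact Q3.regular_three hd hs h1 h
    · exact regular_neg hR h0 hs h
  · have hl : Adm 3 lam := adm_of_range (by norm_num) (by norm_num; linarith) h1
    refine iff_of (fun h => ?_)
      (fun h => reconstruction_poissonLaw (q := 3) (by norm_num) hd hl h)
    rcases le_total 0 lam with hs | hs
    · exact Q3.poisson_three hd hs h1 h
    · exact poisson_neg hP hd h0 hs h

end Vale.Agent.P154.Anti.Final
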