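import Vale.Agent.P154.Anti.Final
import Vale.Agent.P154.Q4.Assemble
import Vale.Agent.P154.Q4.PPointwise

/-!
# Three and four states together
-/

namespace Vale.Agent.P154.Anti.Final

open Filter Topology Vale.Agent.P154.Tree

/-- The predicted reconstruction set for three and four states, given the critical curve of the
three-state antiferromagnetic model with mean offspring number between `4` and `12`. -/
theorem potts_thresholds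
    (hR : ∀ d : ℕ, 4 ≤ d → d ≤ 11 → ∀ lam : ℝ, lam < 0 → (d : ℝ) * lam ^ 2 = 1 →
      Tendsto (adv 3 (regLaw d) lam) atTop (𝓝 0))
    (hP : ∀ d lam : ℝ, -(1 / 2) ≤ lam → lam ≤ -(41 / 142) → d * lam ^ 2 = 1 →
      Tendsto (adv 3 (poissonLaw d) lam) atTop (𝓝 0)) :
    ((∀ (d : ℕ) (lam : ℝ), 2 ≤ d → -(1 / 2) ≤ lam → lam ≤ 1 →
      ((0 < liminf (adv 3 (regLaw d) lam) atTop ↔ 1 < (d : ℝ) * lam ^ 2) ∧
        (Tendsto (adv 3 (regLaw d) lam) atTop (𝓝 0) ↔ (d : ℝ) * lam ^ 2 ≤ 1))) ∧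
    (∀ (d lam : ℝ), 0 ≤ d → -(1 / 2) ≤ lam → lam ≤ 1 →
      ((0 < liminf (adv 3 (poissonLaw d) lam) atTop ↔ 1 < d * lam ^ 2) ∧
        (Tendsto (adv 3 (poissonLaw d) lam) atTop (𝓝 0) ↔ d * lam ^ 2 ≤ 1)))) ∧
    ((∀ (d : ℕ) (lam : ℝ), 2 ≤ d → 0 ≤ lam → lam ≤ 1 →
      ((0 < liminf (adv 4 (regLaw d) lam) atTop ↔ 1 < (d : ℝ) * lam ^ 2) ∧
        (Tendsto (adv 4 (regLaw d) lam) atTop (𝓝 0) ↔ (d : ℝ) * lam ^ 2 ≤ 1))) ∧
    (∀ (d lam : ℝ), 0 ≤ d → 0 ≤ lam → lam ≤ 1 →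
      ((0 < liminf (adv 4 (poissonLaw d) lam) atTop ↔ 1 < d * lam ^ 2) ∧
        (Tendsto (adv 4 (poissonLaw d) lam) atTop (𝓝 0) ↔ d * lam ^ 2 ≤ 1)))) :=
  ⟨three_states_iff hR hP,
    Q4.four_states_of_wgtK (L := Q4.wgtL) (fun _ a b => Q4.wgtL_bd a b) Q4.pairPhi_wgtL⟩

end Vale.Agent.P154.Anti.Final
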