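import Vale.Agent.P154.Anti.GeoBox
import Mathlib.Analysis.Calculus.Deriv.MeanValue
import Mathlib.Analysis.SpecialFunctions.Pow.Deriv

/-!
# Cubic bounds for powers near one

For `α ∈ [0,1]` the cubic Taylor polynomial is an upper bound of `(1+e)^α`, and a lower bound up
to an explicit multiple of `e^4` away from `-1`.
-/

namespace Vale.Agent.P154.Anti

open Finset Set

/-- The cubic Taylor polynomial of `(1+e)^α`. -/
noncomputable def t3 (α e : ℝ) : ℝ :=
  1 + α * e + α * (α - 1) / 2 * e ^ 2 + α * (α - 1) * (α - 2) / 6 * e ^ 3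

theorem nonneg_of_deriv2 {f f' f'' : ℝ → ℝ} {η : ℝ} (hη : 0 < η) (h0 : f 0 = 0) (h1 : f' 0 = 0)
    (hf : ∀ e, -η < e → HasDerivAt f (f' e) e) (hf' : ∀ e, -η < e → HasDerivAt f' (f'' e) e)
    (hnn : ∀ e, -η < e → 0 ≤ f'' e) {e : ℝ} (he : -η < e) : 0 ≤ f e := by
  have m : MonotoneOn f' (Ioi (-η)) := monotoneOn_of_hasDerivWithinAt_nonneg (convex_Ioi _)
    (fun x hx => (hf' x hx).continuousAt.continuousWithinAt)
    (fun x hx => (hf' x (interior_subset hx)).hasDerivWithinAt)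
    fun x hx => hnn x (interior_subset hx)
  rcases le_total 0 e with h | h
  · have hm : MonotoneOn f (Icc 0 e) := monotoneOn_of_hasDerivWithinAt_nonneg (convex_Icc _ _)
      (fun x hx => (hf x (by linarith [hx.1])).continuousAt.continuousWithinAt)
      (fun x hx => (hf x (by linarith [(interior_subset hx).1])).hasDerivWithinAt)
      fun x hx => h1.symm.trans_le (m (show -η < (0 : ℝ) by linarith)
        (show -η < x by linarith [(interior_subset hx).1]) (interior_subset hx).1)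
    simpa [h0] using hm (left_mem_Icc.2 h) (right_mem_Icc.2 h) h
  · have hm : AntitoneOn f (Icc e 0) := antitoneOn_of_hasDerivWithinAt_nonpos (convex_Icc _ _)
      (fun x hx => (hf x (by linarith [hx.1])).continuousAt.continuousWithinAt)
      (fun x hx => (hf x (by linarith [(interior_subset hx).1])).hasDerivWithinAt)
      fun x hx => (m (show -η < x by linarith [(interior_subset hx).1])
        (show -η < (0 : ℝ) by linarith) (interior_subset hx).2).trans_eq h1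
    simpa [h0] using hm (left_mem_Icc.2 h) (right_mem_Icc.2 h) h

theorem hasDerivAt_pow1 {p e : ℝ} (he : -1 < e) :
    HasDerivAt (fun y => (1 + y) ^ p) (p * (1 + e) ^ (p - 1)) e := by
  simpa using ((hasDerivAt_id e).const_add 1).rpow_const (p := p)
    (Or.inl (show (1 : ℝ) + e ≠ 0 by linarith))

theorem hasDerivAt_t3 (α e : ℝ) : HasDerivAt (t3 α)
    (α + α * (α - 1) * e + α * (α - 1) * (α - 2) / 2 * e ^ 2) e := by
  have := (((hasDerivAt_const e (1 : ℝ)).add ((hasDerivAt_id e).const_mul α)).add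
    ((hasDerivAt_pow 2 e).const_mul (α * (α - 1) / 2))).add
    ((hasDerivAt_pow 3 e).const_mul (α * (α - 1) * (α - 2) / 6))
  refine (this.congr_of_eventuallyEq (Filter.Eventually.of_forall fun y => ?_)).congr_deriv ?_
  · simp [t3]
  · push_cast; ring

theorem hasDerivAt_dt3 (α e : ℝ) :
    HasDerivAt (fun y => α + α * (α - 1) * y + α * (α - 1) * (α - 2) / 2 * y ^ 2)
      (α * (α - 1) * (1 + (α - 2) * e)) e := by
  have := ((hasDerivAt_const e α).add ((hasDerivAt_id e).const_mul (α * (α - 1)))).add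
    ((hasDerivAt_pow 2 e).const_mul (α * (α - 1) * (α - 2) / 2))
  refine (this.congr_of_eventuallyEq (Filter.Eventually.of_forall fun y => ?_)).congr_deriv ?_
  · simp
  · push_cast; ring

/-- Bernoulli's inequality for a negative exponent. -/
theorem one_add_mul_le_rpow_neg {p e : ℝ} (hp : p ≤ 0) (he : -1 < e) :
    1 + p * e ≤ (1 + e) ^ p := by
  rw [Real.rpow_def_of_pos (by linarith)]
  nlinarith [Real.add_one_le_exp (Real.log (1 + e) * p),
    Real.log_le_sub_one_of_pos (show (0 : ℝ) < 1 + e by linarith)]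

theorem rpow_le_t3 {α e : ℝ} (h0 : 0 ≤ α) (h1 : α ≤ 1) (he : -1 < e) : (1 + e) ^ α ≤ t3 α e := by
  refine sub_nonneg.1 (nonneg_of_deriv2 (f := fun y => t3 α y - (1 + y) ^ α)
    (f' := fun y => α + α * (α - 1) * y + α * (α - 1) * (α - 2) / 2 * y ^ 2
      - α * (1 + y) ^ (α - 1))
    (f'' := fun y => α * (α - 1) * (1 + (α - 2) * y) - α * ((α - 1) * (1 + y) ^ (α - 1 - 1)))
    one_pos (by simp [t3]) (by simp) (fun y hy => (hasDerivAt_t3 α y).sub (hasDerivAt_pow1 hy))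
    (fun y hy => (hasDerivAt_dt3 α y).sub ((hasDerivAt_pow1 hy).const_mul α))
    (fun y hy => ?_) he)
  rw [show α - 1 - 1 = α - 2 by ring]
  nlinarith [mul_nonneg (mul_nonneg h0 (sub_nonneg.2 h1))
    (sub_nonneg.2 (one_add_mul_le_rpow_neg (show α - 2 ≤ 0 by linarith) hy))]

/-- The constant of the quartic remainder on `e ≥ -η`. -/
noncomputable def k4 (α η : ℝ) : ℝ :=
  α * (1 - α) * (α / (1 - η) + (1 - α) * (3 - 2 * η) / (1 - η) ^ 2) / 12

theorem rpow_quad_le {α η e : ℝ} (h0 : 0 ≤ α) (h1 : α ≤ 1) (hη : η < 1) (he : -η < e) :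
    (1 + e) ^ (α - 2) - 1 - (α - 2) * e
      ≤ (α / (1 - η) + (1 - α) * (3 - 2 * η) / (1 - η) ^ 2) * e ^ 2 := by
  have hb : 0 < 1 - η := by linarith
  have hx : 0 < 1 + e := by linarith
  have hxy : 1 - η ≤ 1 + e := by linarith
  have g := Real.geom_mean_le_arith_mean2_weighted h0 (sub_nonneg.2 h1)
    (inv_nonneg.2 hx.le) (inv_nonneg.2 (sq_nonneg (1 + e))) (by ring)
  have eq : ((1 + e)⁻¹) ^ α * (((1 + e) ^ 2)⁻¹) ^ (1 - α) = (1 + e) ^ (α - 2) := by
    rw [Real.inv_rpow hx.le, Real.inv_rpow (sq_nonneg _), ← Real.rpow_neg hx.le,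
      ← Real.rpow_natCast (1 + e) 2, ← Real.rpow_mul hx.le, ← Real.rpow_neg hx.le,
      ← Real.rpow_add hx]
    congr 1; push_cast; ring
  rw [eq] at g
  have a1 : (1 + e)⁻¹ - 1 + e ≤ e ^ 2 / (1 - η) := by
    rw [show (1 + e)⁻¹ - 1 + e = e ^ 2 / (1 + e) by field_simp; ring]
    exact div_le_div_of_nonneg_left (sq_nonneg e) hb hxy
  have a2 : ((1 + e) ^ 2)⁻¹ - 1 + 2 * e ≤ (3 - 2 * η) / (1 - η) ^ 2 * e ^ 2 := by
    rw [show ((1 + e) ^ 2)⁻¹ - 1 + 2 * e = (3 + 2 * e) / (1 + e) ^ 2 * e ^ 2 by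
      field_simp; ring]
    refine mul_le_mul_of_nonneg_right ?_ (sq_nonneg e)
    rw [div_le_div_iff₀ (by positivity) (by positivity)]
    nlinarith [mul_nonneg (sub_nonneg.2 hxy) hb.le, mul_nonneg (sub_nonneg.2 hxy) hx.le,
      mul_nonneg (sub_nonneg.2 hxy) (mul_nonneg hb.le hx.le)]
  rw [add_mul]
  linear_combination g + mul_le_mul_of_nonneg_left a1 h0
    + mul_le_mul_of_nonneg_left a2 (sub_nonneg.2 h1)

theorem t3_sub_le_rpow {α η e : ℝ} (h0 : 0 ≤ α) (h1 : α ≤ 1) (hη0 : 0 < η) (hη : η < 1)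
    (he : -η < e) : t3 α e - k4 α η * e ^ 4 ≤ (1 + e) ^ α := by
  refine sub_nonneg.1 (nonneg_of_deriv2 (f := fun y => (1 + y) ^ α - (t3 α y - k4 α η * y ^ 4))
    (f' := fun y => α * (1 + y) ^ (α - 1) - (α + α * (α - 1) * y
      + α * (α - 1) * (α - 2) / 2 * y ^ 2 - k4 α η * (4 * y ^ 3)))
    (f'' := fun y => α * ((α - 1) * (1 + y) ^ (α - 1 - 1)) - (α * (α - 1) * (1 + (α - 2) * y)
      - k4 α η * (4 * (3 * y ^ 2))))
    hη0 (by simp [t3]) (by simp)
    (fun y hy => ?_) (fun y hy => ?_) (fun y hy => ?_) he)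
  · refine (hasDerivAt_pow1 (by linarith)).sub ((hasDerivAt_t3 α y).sub ?_)
    simpa using (hasDerivAt_pow 4 y).const_mul (k4 α η)
  · refine ((hasDerivAt_pow1 (by linarith)).const_mul α).sub ((hasDerivAt_dt3 α y).sub ?_)
    simpa using ((hasDerivAt_pow 3 y).const_mul 4).const_mul (k4 α η)
  rw [show α - 1 - 1 = α - 2 by ring, k4]
  have := mul_le_mul_of_nonneg_left (rpow_quad_le h0 h1 hη hy) (mul_nonneg h0 (sub_nonneg.2 h1))
  linear_combination this

/-- Product form of the upper bound. -/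
theorem ex_le_t3 {q : ℕ} {a : Fin q → ℝ} (ha : ∀ i, 0 ≤ a i) (ha1 : ∀ i, a i ≤ 1)
    {e : Fin q → ℝ} (he : ∀ i, -1 < e i) :
    (ex a fun i => 1 + e i) ≤ ∏ i, t3 (a i) (e i) :=
  prod_le_prod (fun i _ => Real.rpow_nonneg (by linarith [he i]) _)
    fun i _ => rpow_le_t3 (ha i) (ha1 i) (he i)

/-- Product form of the lower bound. -/
theorem t3_le_ex {q : ℕ} {a : Fin q → ℝ} (ha : ∀ i, 0 ≤ a i) (ha1 : ∀ i, a i ≤ 1) {η : ℝ}
    (hη0 : 0 < η) (hη : η < 1) {e : Fin q → ℝ} (he : ∀ i, -η < e i)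
    (hpos : ∀ i, 0 ≤ t3 (a i) (e i) - k4 (a i) η * e i ^ 4) :
    ∏ i, (t3 (a i) (e i) - k4 (a i) η * e i ^ 4) ≤ ex a fun i => 1 + e i :=
  prod_le_prod (fun i _ => hpos i) fun i _ => t3_sub_le_rpow (ha i) (ha1 i) hη0 hη (he i)

end Vale.Agent.P154.Anti
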