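import Vale.Agent.P154.Anti.LamConvex

/-!
# Taylor polynomials of geometric means to any order

With `r` a bound on the deviations, the coefficient of order `k` is at most `r ^ k` in absolute
value, and the polynomial of degree `n` is within `(1 + r) * r ^ (n + 1) / (1 - r) ^ 2` of the
geometric mean.
-/

namespace Vale.Agent.P154.Anti

open Finset Set Vale.Agent.P154.Tree

variable {q : ℕ} {a e : Fin q → ℝ} {r : ℝ}

/-- The moments with alternating signs. -/
noncomputable def gmom (a e : Fin q → ℝ) (k : ℕ) : ℝ := (-1) ^ k * ∑ i, a i * e i ^ (k + 1)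

/-- The Taylor coefficients of `t ↦ ex a (1 + e t)`. -/
noncomputable def gcoef (a e : Fin q → ℝ) : ℕ → ℝ
  | 0 => 1
  | n + 1 => (∑ k : Fin (n + 1), gcoef a e (n - k.1) * gmom a e k.1) / (n + 1)
decreasing_by omega

theorem gcoef_succ (n : ℕ) :
    ((n : ℝ) + 1) * gcoef a e (n + 1) = ∑ k ∈ range (n + 1), gcoef a e (n - k) * gmom a e k := by
  rw [gcoef, Fin.sum_univ_eq_sum_range (fun k => gcoef a e (n - k) * gmom a e k) (n + 1)]
  field_simp

section bound

variable (ha : ∀ i, 0 ≤ a i) (ha1 : ∑ i, a i = 1) (he : ∀ i, |e i| ≤ r)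
include ha ha1 he

theorem abs_gmom_le (k : ℕ) : |gmom a e k| ≤ r ^ (k + 1) := by
  rw [gmom, abs_mul, abs_pow, abs_neg, abs_one, one_pow, one_mul]
  refine (abs_sum_le_sum_abs _ _).trans ?_
  calc ∑ i, |a i * e i ^ (k + 1)| ≤ ∑ i, a i * r ^ (k + 1) := sum_le_sum fun i _ => by
        rw [abs_mul, abs_of_nonneg (ha i), abs_pow]
        exact mul_le_mul_of_nonneg_left (pow_le_pow_left₀ (abs_nonneg _) (he i) _) (ha i)
    _ = r ^ (k + 1) := by rw [← sum_mul, ha1, one_mul]

theorem abs_gcoef_le (hr : 0 ≤ r) : ∀ n : ℕ, |gcoef a e n| ≤ r ^ n := by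
  intro n
  induction n using Nat.strong_induction_on with
  | _ n ih =>
    rcases n with _ | n
    · simp [gcoef]
    · have h : |((n : ℝ) + 1) * gcoef a e (n + 1)| ≤ ((n : ℝ) + 1) * r ^ (n + 1) := by
        rw [gcoef_succ]
        refine (abs_sum_le_sum_abs _ _).trans ?_
        calc ∑ k ∈ range (n + 1), |gcoef a e (n - k) * gmom a e k|
            ≤ ∑ k ∈ range (n + 1), r ^ (n + 1) := sum_le_sum fun k hk => by
              rw [abs_mul]
              refine (mul_le_mul (ih (n - k) (by omega)) (abs_gmom_le ha ha1 he k)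
                (abs_nonneg _) (pow_nonneg hr _)).trans_eq ?_
              rw [← pow_add]
              congr 1
              have := mem_range.1 hk
              omega
          _ = ((n : ℝ) + 1) * r ^ (n + 1) := by simp
      rw [abs_mul, abs_of_pos (by positivity : (0 : ℝ) < (n : ℝ) + 1)] at h
      exact le_of_mul_le_mul_left h (by positivity)

end bound

/-- The Taylor polynomial of `ex a (1 + e)` of degree `n`. -/
noncomputable def gTaylor (a e : Fin q → ℝ) (n : ℕ) : ℝ := ∑ k ∈ range (n + 1), gcoef a e k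

/-- The logarithmic derivative along the line. -/
noncomputable def gq (a e : Fin q → ℝ) (t : ℝ) : ℝ := ∑ i, a i * (e i / (1 + e i * t))

/-- Its tail after `j` terms. -/
noncomputable def gR (a e : Fin q → ℝ) (j : ℕ) (t : ℝ) : ℝ :=
  gq a e t - ∑ i ∈ range j, gmom a e i * t ^ i

/-- The polynomial in the line parameter. -/
noncomputable def gP (a e : Fin q → ℝ) (n : ℕ) (t : ℝ) : ℝ :=
  ∑ k ∈ range (n + 1), gcoef a e k * t ^ k

/-- Its derivative. -/
noncomputable def gP' (a e : Fin q → ℝ) (n : ℕ) (t : ℝ) : ℝ :=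
  ∑ k ∈ range n, ((k : ℝ) + 1) * gcoef a e (k + 1) * t ^ k

theorem hasDerivAt_gP (n : ℕ) (t : ℝ) : HasDerivAt (gP a e n) (gP' a e n t) t := by
  induction n with
  | zero =>
    have : gP a e 0 = fun _ => (1 : ℝ) := by funext s; simp [gP, gcoef]
    rw [this]
    simpa [gP'] using hasDerivAt_const t (1 : ℝ)
  | succ n ih =>
    have e1 : gP a e (n + 1) = fun s => gP a e n s + gcoef a e (n + 1) * s ^ (n + 1) := by
      funext s; rw [gP, sum_range_succ, gP]
    rw [e1]
    refine (ih.add ((hasDerivAt_pow (n + 1) t).const_mul (gcoef a e (n + 1)))).congr_deriv ?_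
    rw [gP', gP', sum_range_succ _ n, Nat.add_sub_cancel]
    push_cast
    ring

theorem deficit_eq (n : ℕ) (t : ℝ) : gP' a e n t - gq a e t * gP a e n t
    = -∑ k ∈ range (n + 1), gcoef a e k * t ^ k * gR a e (n - k) t := by
  induction n with
  | zero => simp [gP', gP, gR, gcoef]
  | succ n ih =>
    have hrec : ∑ k ∈ range (n + 1), gcoef a e k * t ^ k * gR a e (n + 1 - k) t
        = (∑ k ∈ range (n + 1), gcoef a e k * t ^ k * gR a e (n - k) t)
          - t ^ n * (((n : ℝ) + 1) * gcoef a e (n + 1)) := by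
      rw [gcoef_succ, ← sum_range_reflect (fun k => gcoef a e (n - k) * gmom a e k) (n + 1),
        mul_sum, ← sum_sub_distrib]
      refine sum_congr rfl fun k hk => ?_
      have hk' : k ≤ n := Nat.lt_succ_iff.1 (mem_range.1 hk)
      rw [Nat.succ_sub hk', Nat.add_sub_cancel, Nat.sub_sub_self hk', gR, gR, sum_range_succ,
        show t ^ n = t ^ k * t ^ (n - k) by rw [← pow_add, Nat.add_sub_cancel' hk']]
      ring
    rw [sum_range_succ, hrec, Nat.sub_self, gP', gP, sum_range_succ _ n,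
      sum_range_succ _ (n + 1), ← gP', ← gP]
    simp only [gR, Finset.range_zero, sum_empty, sub_zero]
    simp only [gR] at ih
    linear_combination ih

section main

variable (ha : ∀ i, 0 ≤ a i) (ha1 : ∑ i, a i = 1) (he : ∀ i, |e i| ≤ r) (hr1 : r < 1)
include ha ha1 he hr1

omit ha ha1 in
theorem one_add_ge {t : ℝ} (ht : t ∈ Icc (0 : ℝ) 1) (i : Fin q) : 1 - r ≤ 1 + e i * t := by
  nlinarith [abs_le.1 (he i), ht.1, ht.2]

theorem abs_gR_le (hr : 0 ≤ r) {t : ℝ} (ht : t ∈ Icc (0 : ℝ) 1) (j : ℕ) :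
    |gR a e j t| ≤ r ^ (j + 1) * t ^ j / (1 - r) := by
  have e1 : ∀ i, a i * (e i / (1 + e i * t)) - ∑ l ∈ range j,
      (-1) ^ l * (a i * e i ^ (l + 1)) * t ^ l
      = a i * ((-1) ^ j * e i ^ (j + 1) * t ^ j / (1 + e i * t)) := by
    intro i
    have hpos : 0 < 1 + e i * t := by linarith [one_add_ge he hr1 ht i]
    induction j with
    | zero => simp
    | succ j ih =>
      rw [sum_range_succ, ← sub_sub, ih]
      field_simp
      ring
  have e2 : gR a e j t = ∑ i, a i * ((-1) ^ j * e i ^ (j + 1) * t ^ j / (1 + e i * t)) := by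
    rw [gR, gq, show ∑ l ∈ range j, gmom a e l * t ^ l
      = ∑ i, ∑ l ∈ range j, (-1) ^ l * (a i * e i ^ (l + 1)) * t ^ l by
        rw [sum_comm]; exact sum_congr rfl fun l _ => by rw [gmom, mul_sum, sum_mul],
      ← sum_sub_distrib]
    exact sum_congr rfl fun i _ => e1 i
  rw [e2]
  refine (abs_sum_le_sum_abs _ _).trans ?_
  calc ∑ i, |a i * ((-1) ^ j * e i ^ (j + 1) * t ^ j / (1 + e i * t))|
      ≤ ∑ i, a i * (r ^ (j + 1) * t ^ j / (1 - r)) := sum_le_sum fun i _ => by
        have h := one_add_ge he hr1 ht i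
        rw [abs_mul, abs_of_nonneg (ha i), abs_div, abs_mul, abs_mul, abs_pow, abs_pow, abs_pow,
          abs_neg, abs_one, one_pow, one_mul, abs_of_nonneg ht.1,
          abs_of_pos (show 0 < 1 + e i * t by linarith)]
        refine mul_le_mul_of_nonneg_left ?_ (ha i)
        exact div_le_div₀ (mul_nonneg (pow_nonneg hr _) (pow_nonneg ht.1 _))
          (mul_le_mul_of_nonneg_right (pow_le_pow_left₀ (abs_nonneg _) (he i) _)
            (pow_nonneg ht.1 _)) (by linarith) h
    _ = r ^ (j + 1) * t ^ j / (1 - r) := by rw [← sum_mul, ha1, one_mul]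

/-- The Taylor polynomial of degree `n` with its remainder. -/
theorem abs_ex_sub_gTaylor_le (hr : 0 ≤ r) (n : ℕ) :
    |(ex a fun i => 1 + e i) - gTaylor a e n| ≤ (1 + r) * r ^ (n + 1) / (1 - r) ^ 2 := by
  have h1r : 0 < 1 - r := by linarith
  set g := lineEx a (fun _ => (1 : ℝ)) e with hg
  have hgv : ∀ s, g s = ex a fun i => 1 + e i * s := fun s => rfl
  have hge : ∀ t ∈ Icc (0 : ℝ) 1, 1 - r ≤ g t := fun t ht => by
    calc 1 - r = ∏ i, (1 - r) ^ a i := by
          rw [← Real.rpow_sum_of_pos h1r, ha1, Real.rpow_one]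
      _ ≤ g t := prod_le_prod (fun i _ => Real.rpow_nonneg h1r.le _)
          fun i _ => Real.rpow_le_rpow h1r.le (one_add_ge he hr1 ht i) (ha i)
  have hgd : ∀ t ∈ Icc (0 : ℝ) 1, HasDerivAt g (g t * gq a e t) t := fun t ht => by
    refine (hasDerivAt_lineEx (a := a) (b := fun _ => (1 : ℝ)) (k := e)
      fun i => by linarith [one_add_ge he hr1 ht i]).congr_deriv ?_
    simp [hg, gq, lineP]
  set B := r ^ (n + 1) / (1 - r) ^ 2 with hB
  have hF : ∀ t ∈ Icc (0 : ℝ) 1, HasDerivAt (fun s => gP a e n s / g s)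
      ((gP' a e n t - gq a e t * gP a e n t) / g t) t := fun t ht => by
    have hp : 0 < g t := by linarith [hge t ht]
    refine ((hasDerivAt_gP n t).div (hgd t ht) hp.ne').congr_deriv ?_
    field_simp
  have hD : ∀ t ∈ Icc (0 : ℝ) 1,
      |(gP' a e n t - gq a e t * gP a e n t) / g t| ≤ B * (((n : ℝ) + 1) * t ^ n) := fun t ht => by
    have hp : 0 < g t := by linarith [hge t ht]
    rw [abs_div, abs_of_pos hp, div_le_iff₀ hp, deficit_eq, abs_neg]
    have hs : |∑ k ∈ range (n + 1), gcoef a e k * t ^ k * gR a e (n - k) t|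
        ≤ ((n : ℝ) + 1) * (r ^ (n + 1) * t ^ n / (1 - r)) := by
      refine (abs_sum_le_sum_abs _ _).trans ?_
      calc _ ≤ ∑ k ∈ range (n + 1), r ^ (n + 1) * t ^ n / (1 - r) := sum_le_sum fun k hk => by
            have hk' : k ≤ n := Nat.lt_succ_iff.1 (mem_range.1 hk)
            rw [abs_mul, abs_mul, abs_pow, abs_of_nonneg ht.1]
            refine (mul_le_mul (mul_le_mul_of_nonneg_right (abs_gcoef_le ha ha1 he hr k)
              (pow_nonneg ht.1 _)) (abs_gR_le ha ha1 he hr1 hr ht (n - k)) (abs_nonneg _)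
              (mul_nonneg (pow_nonneg hr _) (pow_nonneg ht.1 _))).trans_eq ?_
            obtain ⟨m, rfl⟩ := Nat.exists_eq_add_of_le hk'
            rw [Nat.add_sub_cancel_left]
            ring
        _ = _ := by simp
    refine hs.trans ?_
    rw [hB]
    calc ((n : ℝ) + 1) * (r ^ (n + 1) * t ^ n / (1 - r))
        = r ^ (n + 1) / (1 - r) ^ 2 * (((n : ℝ) + 1) * t ^ n) * (1 - r) := by field_simp
      _ ≤ _ := mul_le_mul_of_nonneg_left (hge t ht) (mul_nonneg (div_nonneg (pow_nonneg hr _)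
          (sq_nonneg _)) (mul_nonneg (by positivity) (pow_nonneg ht.1 _)))
  have mono : ∀ σ : ℝ, σ = 1 ∨ σ = -1 → σ * (gP a e n 1 / g 1 - 1) ≤ B := fun σ hσ => by
    have hd : ∀ t ∈ Icc (0 : ℝ) 1, HasDerivAt
        (fun s => σ * (gP a e n s / g s) - B * s ^ (n + 1))
        (σ * ((gP' a e n t - gq a e t * gP a e n t) / g t) - B * (((n : ℝ) + 1) * t ^ n)) t :=
      fun t ht => (((hF t ht).const_mul σ).sub
        ((hasDerivAt_pow (n + 1) t).const_mul B)).congr_deriv (by push_cast; simp)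
    have m : AntitoneOn (fun s => σ * (gP a e n s / g s) - B * s ^ (n + 1)) (Icc (0 : ℝ) 1) := by
      refine antitoneOn_of_hasDerivWithinAt_nonpos (convex_Icc _ _)
        (fun t ht => (hd t ht).continuousAt.continuousWithinAt)
        (fun t ht => (hd t (interior_subset ht)).hasDerivWithinAt) fun t ht => ?_
      have := abs_le.1 (hD t (interior_subset ht))
      rcases hσ with h | h <;> subst h <;> linarith
    have h := m (left_mem_Icc.2 zero_le_one) (right_mem_Icc.2 zero_le_one) zero_le_one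
    have g0 : g 0 = 1 := by simp [hgv, ex]
    have P0 : gP a e n 0 = 1 := by
      rw [gP, sum_eq_single 0 (fun k _ hk => by simp [hk]) (by simp)]
      simp [gcoef]
    simp [g0, P0] at h
    rw [mul_sub, mul_one]
    linarith
  have g1 : g 1 = ex a fun i => 1 + e i := by simp [hgv]
  have hp1 : 0 < g 1 := by linarith [hge 1 (right_mem_Icc.2 zero_le_one)]
  have hle : g 1 ≤ 1 + r := by
    rw [g1]
    refine (ex_le ha ha1 fun i => by linarith [(abs_le.1 (he i)).1]).trans ?_
    calc ∑ i, a i * (1 + e i) ≤ ∑ i, a i * (1 + r) :=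
          sum_le_sum fun i _ => mul_le_mul_of_nonneg_left (by linarith [(abs_le.1 (he i)).2]) (ha i)
      _ = 1 + r := by rw [← sum_mul, ha1, one_mul]
  have hP : gP a e n 1 = gTaylor a e n := by simp [gP, gTaylor]
  rw [← g1, ← hP]
  have habs : |gP a e n 1 / g 1 - 1| ≤ B := by
    rw [abs_le]
    constructor
    · linarith [mono (-1) (Or.inr rfl)]
    · linarith [mono 1 (Or.inl rfl)]
  calc |g 1 - gP a e n 1| = g 1 * |gP a e n 1 / g 1 - 1| := by
        rw [← abs_of_pos hp1, ← abs_mul, abs_of_pos hp1, abs_sub_comm]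
        congr 1
        field_simp
    _ ≤ (1 + r) * B := mul_le_mul hle habs (abs_nonneg _) (by linarith)
    _ = _ := by rw [hB]; ring

end main

end Vale.Agent.P154.Anti
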