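import Vale.Agent.P154.Mono
import Mathlib.Algebra.MvPolynomial.Eval

/-!
# Degradation in the depth and convergence of the posterior moments

The observation at depth `n + 1` is a degradation of the observation at depth `n`. Hence the total
of `homExt f` is antitone in the depth for `f` with supporting planes on the simplex, and it
converges for every `f` with a second order expansion on the simplex, in particular for every
polynomial.
-/

namespace Vale.Agent.P154.Anti

open Finset Filter Topology Vale.Agent.P154.Tree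

variable {q : ℕ} {ι κ : Type} {w : ℕ → ℝ} {d lam : ℝ}

/-- Joining degradations over the number of children. -/
theorem deg_sigma {α β : Type} (w : ℕ → ℝ) (X : (k : ℕ) → (Fin k → α) → Fin q → ℝ)
    (Y : (k : ℕ) → (Fin k → β) → Fin q → ℝ) (h : ∀ k, Deg (X k) (Y k)) :
    Deg (fun o : Σ k, (Fin k → α) => fun i => w o.1 * X o.1 o.2 i)
      (fun p : Σ k, (Fin k → β) => fun i => w p.1 * Y p.1 p.2 i) := by
  choose K h0 h1 h2 using h
  let L : (Σ k, (Fin k → β)) → (Σ k, (Fin k → α)) → ℝ := fun p =>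
    Function.extend (Sigma.mk p.1) (fun f => K p.1 p.2 f) 0
  have hL : ∀ (k : ℕ) (g : Fin k → β) (f : Fin k → α), L ⟨k, g⟩ ⟨k, f⟩ = K k g f :=
    fun k g f => (sigma_mk_injective (i := k)).extend_apply (K k g)
      (0 : (Σ k, (Fin k → α)) → ℝ) f
  have hL0 : ∀ (k : ℕ) (g : Fin k → β) (o : Σ k, (Fin k → α)), o.1 ≠ k → L ⟨k, g⟩ o = 0 :=
    fun k g o ho => Function.extend_apply' _ _ _ fun ⟨f, hf⟩ => ho (by rw [← hf])
  refine ⟨L, ?_, ?_, ?_⟩
  · rintro ⟨k, g⟩ ⟨k', f⟩
    rcases eq_or_ne k' k with rfl | hk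
    · rw [hL]; exact h0 _ _ _
    · rw [hL0 k g ⟨k', f⟩ hk]
  · rintro ⟨k, g⟩
    refine (sigma_mk_injective.hasSum_iff (f := L ⟨k, g⟩)
      (g := @Sigma.mk ℕ (fun k => Fin k → α) k) fun o ho => ?_).1 ?_
    · obtain ⟨k', f⟩ := o
      refine hL0 k g ⟨k', f⟩ fun h => ho ?_
      subst h
      exact ⟨f, rfl⟩
    · exact (h1 k g).congr_fun fun f => hL k g f
  · rintro ⟨k, f⟩ i
    refine (sigma_mk_injective.hasSum_iff
      (f := fun p : (Σ k, (Fin k → β)) => L p ⟨k, f⟩ * (w p.1 * Y p.1 p.2 i))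
      (g := @Sigma.mk ℕ (fun k => Fin k → β) k) fun p hp => ?_).1 ?_
    · obtain ⟨k', g⟩ := p
      have hne : k ≠ k' := fun h => hp (by subst h; exact ⟨g, rfl⟩)
      rw [hL0 k' g ⟨k, f⟩ hne, zero_mul]
    · refine ((h2 k f i).mul_left (w k)).congr_fun fun g => ?_
      show L ⟨k, g⟩ ⟨k, f⟩ * (w k * Y k g i) = w k * (K k g f * Y k g i)
      rw [hL]
      ring

/-- The observation at depth `n + 1` is a degradation of the one at depth `n`. -/
theorem deg_depth (hq : q ≠ 0) (hw : IsLaw w d) (hl : Adm q lam) :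
    ∀ n, Deg (lik q w lam (n + 1)) (lik q w lam n)
  | 0 => by
    refine ⟨fun p o => lik q w lam 1 o p, fun p o => (isChan_lik hw hl 1).nonneg o p,
      fun p => (isChan_lik hw hl 1).hasSum p, fun o i => ?_⟩
    have h : (fun p : Fin q => lik q w lam 1 o p * lik q w lam 0 p i)
        = fun p => if p = i then lik q w lam 1 o i else 0 := by
      funext p
      show lik q w lam 1 o p * (if p = i then (1 : ℝ) else 0) = _
      split_ifs with hp
      · rw [hp, mul_one]
      · rw [mul_zero]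
    show HasSum (fun p : Fin q => lik q w lam 1 o p * lik q w lam 0 p i) _
    rw [h]
    exact hasSum_ite_eq i _
  | n + 1 => by
    have hE := Deg.edge (deg_depth hq hw hl n) hq (isChan_lik hw hl (n + 1))
      (isChan_lik hw hl n) hl zero_le_one le_rfl
    rw [one_mul] at hE
    exact deg_sigma w (fun k => piChan k (Tree.edge lam (lik q w lam (n + 1))))
      (fun k => piChan k (Tree.edge lam (lik q w lam n)))
      fun k => hE.piChan ((isChan_lik hw hl n).edge' hl).nonneg k

/-- `f` has a supporting plane at every point of the simplex. -/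
def Supp (q : ℕ) (f : (Fin q → ℝ) → ℝ) : Prop :=
  ∀ a : Fin q → ℝ, (∀ i, 0 ≤ a i) → ∑ i, a i = 1 →
    ∃ L : Fin q → ℝ, ∀ u : Fin q → ℝ, (∀ i, 0 ≤ u i) → ∑ i, u i = 1 →
      f a + ∑ i, L i * (u i - a i) ≤ f u

/-- Jensen's inequality along a degradation. -/
theorem total_le_of_deg {f : (Fin q → ℝ) → ℝ} {Kb : ℝ}
    (hb : ∀ u : Fin q → ℝ, (∀ i, 0 ≤ u i) → ∑ i, u i = 1 → |f u| ≤ Kb) (hs : Supp q f)
    {X : ι → Fin q → ℝ} {Y : κ → Fin q → ℝ} (h : Deg X Y) (hX : IsChan X) (hY : IsChan Y) :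
    total (homExt f) X ≤ total (homExt f) Y := by
  obtain ⟨K, h0, h1, h2⟩ := h
  set G : κ → ℝ := fun p => homExt f (Y p) with hG
  have hGb : ∀ p, |G p| ≤ |Kb| * ∑ i, Y p i := fun p => by
    rcases eq_or_ne (∑ i, Y p i) 0 with hz | hz
    · simp [hG, homExt, hz]
    obtain ⟨u0, u1⟩ := exists_unit (hY.nonneg p) hz
    simp only [hG, homExt, abs_mul, abs_of_nonneg (hY.mass_nonneg p)]
    rw [mul_comm]
    exact mul_le_mul_of_nonneg_right ((hb _ u0 u1).trans (le_abs_self _)) (hY.mass_nonneg p)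
  have hs2 : Summable fun x : κ × ι => K x.1 x.2 * G x.1 := by
    have hmaj : Summable fun x : κ × ι => K x.1 x.2 * (|Kb| * ∑ i, Y x.1 i) := by
      refine (summable_prod_of_nonneg fun x =>
        mul_nonneg (h0 _ _) (mul_nonneg (abs_nonneg _) (hY.mass_nonneg _))).2
        ⟨fun p => ((h1 p).mul_right (|Kb| * ∑ i, Y p i)).summable, ?_⟩
      refine (hY.hasSum_mass.summable.mul_left |Kb|).congr fun p => ?_
      have := ((h1 p).mul_right (|Kb| * ∑ i, Y p i)).tsum_eq
      rw [one_mul] at this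
      exact this.symm
    refine Summable.of_norm_bounded hmaj fun x => ?_
    rw [Real.norm_eq_abs, abs_mul, abs_of_nonneg (h0 _ _)]
    exact mul_le_mul_of_nonneg_left (hGb _) (h0 _ _)
  have hf : ∀ p, HasSum (fun o => K p o * G p) (G p) := fun p => by
    simpa using (h1 p).mul_right (G p)
  have hprod : HasSum (fun x : κ × ι => K x.1 x.2 * G x.1) (∑' p, G p) := by
    have := hs2.hasSum.prod_fiberwise hf
    rw [this.tsum_eq]
    exact hs2.hasSum
  have hcol : ∀ o, Summable fun p => K p o * G p := fun o =>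
    hs2.comp_injective (i := fun p => (p, o)) fun a b hab => congrArg Prod.fst hab
  have hswap : HasSum (fun o => ∑' p, K p o * G p) (∑' p, G p) :=
    ((Equiv.prodComm ι κ).hasSum_iff.2 hprod).prod_fiberwise fun o => (hcol o).hasSum
  refine hasSum_le (fun o => ?_) (hX.summable (massBdd_homExt hb)).hasSum hswap
  have hmass : HasSum (fun p => K p o * ∑ i, Y p i) (∑ i, X o i) :=
    (hasSum_sum (s := (univ : Finset (Fin q))) fun i _ => h2 o i).congr_fun fun p => mul_sum ..
  rcases eq_or_ne (∑ i, X o i) 0 with hz | hz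
  · have h3 := (hasSum_zero_iff_of_nonneg fun p =>
      mul_nonneg (h0 p o) (hY.mass_nonneg p)).1 (hz ▸ hmass)
    have h4 : ∀ p, K p o * G p = 0 := fun p => by
      rcases mul_eq_zero.1 (congrFun h3 p) with hk | hm
      · rw [hk, zero_mul]
      · simp [hG, homExt, hm]
    simp [h4, homExt, hz]
  · obtain ⟨a0, a1⟩ := exists_unit (hX.nonneg o) hz
    obtain ⟨L, hL⟩ := hs _ a0 a1
    set a : Fin q → ℝ := fun i => X o i / ∑ j, X o j with ha
    have hlow : ∀ p, K p o * ((∑ i, Y p i) * f a + ∑ i, L i * (Y p i - (∑ j, Y p j) * a i))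
        ≤ K p o * G p := fun p => by
      refine mul_le_mul_of_nonneg_left ?_ (h0 p o)
      rcases eq_or_ne (∑ i, Y p i) 0 with hy | hy
      · have hy' : ∀ i, Y p i = 0 := fun i =>
          (sum_eq_zero_iff_of_nonneg fun j _ => hY.nonneg p j).1 hy i (mem_univ i)
        simp [hG, homExt, hy, hy']
      obtain ⟨u0, u1⟩ := exists_unit (hY.nonneg p) hy
      have hu := mul_le_mul_of_nonneg_left (hL _ u0 u1) (hY.mass_nonneg p)
      rw [mul_add, mul_sum] at hu
      have e : ∀ i, (∑ j, Y p j) * (L i * (Y p i / (∑ j, Y p j) - a i))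
          = L i * (Y p i - (∑ j, Y p j) * a i) := fun i => by
        field_simp
      simp only [hG, homExt]
      refine le_of_eq_of_le ?_ hu
      congr 1
      exact sum_congr rfl fun i _ => (e i).symm
    have hsum : HasSum
        (fun p => K p o * ((∑ i, Y p i) * f a + ∑ i, L i * (Y p i - (∑ j, Y p j) * a i)))
        ((∑ i, X o i) * f a + ∑ i, L i * (X o i - (∑ j, X o j) * a i)) := by
      have := (hmass.mul_right (f a)).add (hasSum_sum (s := (univ : Finset (Fin q))) fun i _ =>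
        ((h2 o i).sub (hmass.mul_right (a i))).mul_left (L i))
      refine this.congr_fun fun p => ?_
      rw [mul_add, mul_assoc, mul_sum]
      congr 1
      exact sum_congr rfl fun i _ => by ring
    have hzero : ∑ i, L i * (X o i - (∑ j, X o j) * a i) = 0 := sum_eq_zero fun i _ => by
      simp only [ha]
      field_simp
      ring
    rw [hzero, add_zero] at hsum
    have := hasSum_le hlow hsum (hcol o).hasSum
    simp only [homExt]
    exact this

/-- Two-sided second order approximation on the simplex. -/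
def Quad (q : ℕ) (f : (Fin q → ℝ) → ℝ) : Prop :=
  ∃ M : ℝ, 0 ≤ M ∧ (∀ u : Fin q → ℝ, (∀ i, 0 ≤ u i) → ∑ i, u i = 1 → |f u| ≤ M) ∧
    ∀ a : Fin q → ℝ, (∀ i, 0 ≤ a i) → ∑ i, a i = 1 →
      ∃ L : Fin q → ℝ, (∀ i, |L i| ≤ M) ∧ ∀ u : Fin q → ℝ, (∀ i, 0 ≤ u i) → ∑ i, u i = 1 →
        |f u - f a - ∑ i, L i * (u i - a i)| ≤ M * ∑ i, (u i - a i) ^ 2

theorem le_one_of_simplex {u : Fin q → ℝ} (h0 : ∀ i, 0 ≤ u i) (h1 : ∑ i, u i = 1) (i : Fin q) :
    u i ≤ 1 := h1 ▸ single_le_sum (fun j _ => h0 j) (mem_univ i)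

theorem quad_const (c : ℝ) : Quad q (fun _ => c) :=
  ⟨|c|, abs_nonneg c, fun _ _ _ => le_rfl, fun a _ _ => ⟨0, fun i => by simp, fun u _ _ => by
    simp only [Pi.zero_apply, zero_mul, sum_const_zero, sub_self, abs_zero]
    exact mul_nonneg (abs_nonneg c) (sum_nonneg fun i _ => sq_nonneg _)⟩⟩

theorem quad_coord (j : Fin q) : Quad q (fun u => u j) := by
  classical
  refine ⟨1, zero_le_one, fun u h0 h1 => ?_, fun a _ _ => ⟨fun i => if i = j then 1 else 0,
    fun i => by dsimp only; split_ifs <;> norm_num, fun u _ _ => ?_⟩⟩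
  · rw [abs_of_nonneg (h0 j)]
    exact le_one_of_simplex h0 h1 j
  · simp only [ite_mul, one_mul, zero_mul, sum_ite_eq', mem_univ, if_true, sub_self, abs_zero]
    exact sum_nonneg fun i _ => sq_nonneg _

theorem quad_add {f g : (Fin q → ℝ) → ℝ} (hf : Quad q f) (hg : Quad q g) :
    Quad q (fun u => f u + g u) := by
  obtain ⟨M, hM, hfb, hfq⟩ := hf
  obtain ⟨N, hN, hgb, hgq⟩ := hg
  refine ⟨M + N, add_nonneg hM hN, fun u h0 h1 => ?_, fun a a0 a1 => ?_⟩
  · exact (abs_add_le _ _).trans (add_le_add (hfb u h0 h1) (hgb u h0 h1))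
  · obtain ⟨L, hL, hLq⟩ := hfq a a0 a1
    obtain ⟨L', hL', hLq'⟩ := hgq a a0 a1
    refine ⟨L + L', fun i => (abs_add_le _ _).trans (add_le_add (hL i) (hL' i)), fun u h0 h1 => ?_⟩
    have e : f u + g u - (f a + g a) - ∑ i, (L + L') i * (u i - a i)
        = (f u - f a - ∑ i, L i * (u i - a i)) + (g u - g a - ∑ i, L' i * (u i - a i)) := by
      simp only [Pi.add_apply, add_mul, sum_add_distrib]
      ring
    rw [e, add_mul]
    exact (abs_add_le _ _).trans (add_le_add (hLq u h0 h1) (hLq' u h0 h1))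

theorem quad_mul {f g : (Fin q → ℝ) → ℝ} (hf : Quad q f) (hg : Quad q g) :
    Quad q (fun u => f u * g u) := by
  obtain ⟨M, hM, hfb, hfq⟩ := hf
  obtain ⟨N, hN, hgb, hgq⟩ := hg
  let D : ℝ := (q : ℝ) * (M + 2 * M) * (N + 2 * N) + 4 * (M * N)
  refine ⟨D, by positivity, fun u h0 h1 => ?_, fun a a0 a1 => ?_⟩
  · rw [abs_mul]
    refine (mul_le_mul (hfb u h0 h1) (hgb u h0 h1) (abs_nonneg _) hM).trans ?_
    have : 0 ≤ (q : ℝ) * (M + 2 * M) * (N + 2 * N) := by positivity
    nlinarith [mul_nonneg hM hN]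
  · obtain ⟨L, hL, hLq⟩ := hfq a a0 a1
    obtain ⟨L', hL', hLq'⟩ := hgq a a0 a1
    refine ⟨fun i => f a * L' i + g a * L i, fun i => ?_, fun u h0 h1 => ?_⟩
    · refine (abs_add_le _ _).trans ?_
      rw [abs_mul, abs_mul]
      have h3 := mul_le_mul (hfb a a0 a1) (hL' i) (abs_nonneg _) hM
      have h4 := mul_le_mul (hgb a a0 a1) (hL i) (abs_nonneg _) hN
      have : 0 ≤ (q : ℝ) * (M + 2 * M) * (N + 2 * N) := by positivity
      nlinarith [mul_nonneg hM hN]
    · set s := ∑ i, (u i - a i) ^ 2 with hs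
      set l := ∑ i, L i * (u i - a i) with hl
      set l' := ∑ i, L' i * (u i - a i) with hl'
      have hs0 : 0 ≤ s := sum_nonneg fun i _ => sq_nonneg _
      have hsq : ∀ {C : ℝ} (c : Fin q → ℝ), (∀ i, |c i| ≤ C) →
          (∑ i, c i * (u i - a i)) ^ 2 ≤ (q : ℝ) * C ^ 2 * s := by
        intro C c hc
        refine (sum_mul_sq_le_sq_mul_sq _ _ _).trans (mul_le_mul_of_nonneg_right ?_ hs0)
        calc ∑ i, c i ^ 2 ≤ ∑ _i : Fin q, C ^ 2 := sum_le_sum fun i _ =>
              sq_le_sq' (abs_le.1 (hc i)).1 (abs_le.1 (hc i)).2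
          _ = (q : ℝ) * C ^ 2 := by simp
      have hll : |l * l'| ≤ (q : ℝ) * M * N * s := by
        have h3 := hsq L hL
        have h4 := hsq L' hL'
        have h5 : (l * l') ^ 2 ≤ ((q : ℝ) * M * N * s) ^ 2 := by
          calc (l * l') ^ 2 = l ^ 2 * l' ^ 2 := by ring
            _ ≤ ((q : ℝ) * M ^ 2 * s) * ((q : ℝ) * N ^ 2 * s) :=
                mul_le_mul h3 h4 (sq_nonneg _) (by positivity)
            _ = _ := by ring
        exact abs_le_of_sq_le_sq h5 (by positivity)
      set rf := f u - f a - l with hrf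
      set rg := g u - g a - l' with hrg
      have e : f u * g u - f a * g a - ∑ i, (f a * L' i + g a * L i) * (u i - a i)
          = f u * rg + g a * rf + (f u - f a) * l' := by
        simp only [add_mul, sum_add_distrib, mul_assoc, ← mul_sum, ← hl, ← hl', hrf, hrg]
        ring
      have e2 : (f u - f a) * l' = rf * l' + l * l' := by rw [hrf]; ring
      have hl'b : |l'| ≤ 2 * N := by
        calc |l'| ≤ ∑ i, |L' i * (u i - a i)| := abs_sum_le_sum_abs _ _
          _ ≤ ∑ i, N * (u i + a i) := sum_le_sum fun i _ => by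
              rw [abs_mul]
              refine mul_le_mul (hL' i) ?_ (abs_nonneg _) hN
              rw [abs_le]
              constructor <;> linarith [h0 i, a0 i]
          _ = 2 * N := by rw [← mul_sum, sum_add_distrib, h1, a1]; ring
      rw [e, e2]
      refine (abs_add_le _ _).trans ?_
      have t1 : |f u * rg + g a * rf| ≤ M * (N * s) + N * (M * s) := by
        refine (abs_add_le _ _).trans ?_
        rw [abs_mul, abs_mul]
        exact add_le_add (mul_le_mul (hfb u h0 h1) (hLq' u h0 h1) (abs_nonneg _) hM)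
          (mul_le_mul (hgb a a0 a1) (hLq u h0 h1) (abs_nonneg _) hN)
      have t2 : |rf * l' + l * l'| ≤ M * s * (2 * N) + (q : ℝ) * M * N * s := by
        refine (abs_add_le _ _).trans ?_
        rw [abs_mul]
        exact add_le_add (mul_le_mul (hLq u h0 h1) hl'b (abs_nonneg _) (by positivity)) hll
      have : 0 ≤ (q : ℝ) * M * N * s := by positivity
      have : 0 ≤ M * N * s := by positivity
      nlinarith

/-- Polynomials are quadratically approximable on the simplex. -/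
theorem quad_eval (P : MvPolynomial (Fin q) ℝ) : Quad q (fun u => MvPolynomial.eval u P) := by
  induction P using MvPolynomial.induction_on with
  | C a => simpa using quad_const a
  | add f g hf hg => simpa using quad_add hf hg
  | mul_X f i hf => simpa using quad_mul hf (quad_coord i)

theorem supp_sqDev : Supp q sqDev := by
  intro a _ _
  refine ⟨fun i => 2 * (a i - 1 / q), fun u _ _ => ?_⟩
  simp only [sqDev, ← sum_add_distrib]
  exact sum_le_sum fun i _ => by nlinarith [sq_nonneg (u i - a i)]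

theorem supp_of_quad {f : (Fin q → ℝ) → ℝ} (hf : Quad q f) :
    ∃ M : ℝ, 0 ≤ M ∧ Supp q (fun u => f u + M * sqDev u) ∧
      ∀ u : Fin q → ℝ, (∀ i, 0 ≤ u i) → ∑ i, u i = 1 → |f u| ≤ M := by
  obtain ⟨M, hM, hb, hq⟩ := hf
  refine ⟨M, hM, fun a a0 a1 => ?_, hb⟩
  obtain ⟨L, -, hL⟩ := hq a a0 a1
  refine ⟨fun i => L i + 2 * M * (a i - 1 / q), fun u u0 u1 => ?_⟩
  have h1 := (abs_le.1 (hL u u0 u1)).1
  have h2 : sqDev u = sqDev a + ∑ i, 2 * (a i - 1 / q) * (u i - a i)
      + ∑ i, (u i - a i) ^ 2 := by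
    simp only [sqDev, ← sum_add_distrib]
    exact sum_congr rfl fun i _ => by ring
  simp only [add_mul, sum_add_distrib, h2, mul_add]
  have h3 : ∑ i, 2 * M * (a i - 1 / q) * (u i - a i)
      = M * ∑ i, 2 * (a i - 1 / q) * (u i - a i) := by
    rw [mul_sum]
    exact sum_congr rfl fun i _ => by ring
  rw [h3]
  linarith

theorem abs_sqDev_le {u : Fin q → ℝ} (h0 : ∀ i, 0 ≤ u i) (h1 : ∑ i, u i = 1) :
    |sqDev u| ≤ 1 := by
  rw [abs_of_nonneg (show 0 ≤ sqDev u from sum_nonneg fun i _ => sq_nonneg _)]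
  exact sqDev_le_one h0 h1

theorem neg_le_total {f : (Fin q → ℝ) → ℝ} {Kb : ℝ}
    (hb : ∀ u : Fin q → ℝ, (∀ i, 0 ≤ u i) → ∑ i, u i = 1 → |f u| ≤ Kb)
    {X : ι → Fin q → ℝ} (hX : IsChan X) : -(|Kb| * q) ≤ total (homExt f) X := by
  refine hasSum_le (f := fun o => -(|Kb| * ∑ i, X o i)) (fun o => ?_)
    (hX.hasSum_mass.mul_left |Kb|).neg (hX.summable (massBdd_homExt hb)).hasSum
  rcases eq_or_ne (∑ i, X o i) 0 with hz | hz
  · simp [homExt, hz]
  obtain ⟨u0, u1⟩ := exists_unit (hX.nonneg o) hz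
  have := (abs_le.1 ((hb _ u0 u1).trans (le_abs_self Kb))).1
  simp only [homExt]
  nlinarith [hX.mass_nonneg o]

/-- The total of a function with supporting planes is antitone in the depth. -/
theorem antitone_total_supp (hq : q ≠ 0) (hw : IsLaw w d) (hl : Adm q lam)
    {f : (Fin q → ℝ) → ℝ} {Kb : ℝ}
    (hb : ∀ u : Fin q → ℝ, (∀ i, 0 ≤ u i) → ∑ i, u i = 1 → |f u| ≤ Kb) (hs : Supp q f) :
    Antitone fun n => total (homExt f) (lik q w lam n) :=
  antitone_nat_of_succ_le fun n =>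
    total_le_of_deg hb hs (deg_depth hq hw hl n) (isChan_lik hw hl (n + 1)) (isChan_lik hw hl n)

theorem exists_limit_supp (hq : q ≠ 0) (hw : IsLaw w d) (hl : Adm q lam)
    {f : (Fin q → ℝ) → ℝ} {Kb : ℝ}
    (hb : ∀ u : Fin q → ℝ, (∀ i, 0 ≤ u i) → ∑ i, u i = 1 → |f u| ≤ Kb) (hs : Supp q f) :
    ∃ θ : ℝ, Tendsto (fun n => total (homExt f) (lik q w lam n)) atTop (𝓝 θ) :=
  ⟨_, tendsto_atTop_ciInf (antitone_total_supp hq hw hl hb hs)
    ⟨-(|Kb| * q), by rintro _ ⟨n, rfl⟩; exact neg_le_total hb (isChan_lik hw hl n)⟩⟩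

theorem antitone_total_SS (hq : q ≠ 0) (hw : IsLaw w d) (hl : Adm q lam) :
    Antitone fun n => total SS (lik q w lam n) :=
  antitone_total_supp hq hw hl (fun _ h0 h1 => abs_sqDev_le h0 h1) supp_sqDev

/-- Every quadratically approximable moment of the posterior converges in the depth. -/
theorem exists_limit_quad (hq : q ≠ 0) (hw : IsLaw w d) (hl : Adm q lam)
    {f : (Fin q → ℝ) → ℝ} (hf : Quad q f) :
    ∃ θ : ℝ, Tendsto (fun n => total (homExt f) (lik q w lam n)) atTop (𝓝 θ) := by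
  obtain ⟨M, hM, hs, hb⟩ := supp_of_quad hf
  have hb2 : ∀ u : Fin q → ℝ, (∀ i, 0 ≤ u i) → ∑ i, u i = 1 →
      |f u + M * sqDev u| ≤ M + M := fun u h0 h1 => by
    refine (abs_add_le _ _).trans (add_le_add (hb u h0 h1) ?_)
    rw [abs_mul, abs_of_nonneg hM]
    exact mul_le_of_le_one_right hM (abs_sqDev_le h0 h1)
  obtain ⟨a, ha⟩ := exists_limit_supp hq hw hl hb2 hs
  obtain ⟨b, hbt⟩ := exists_limit_supp hq hw hl (fun _ h0 h1 => abs_sqDev_le h0 h1)
    (supp_sqDev (q := q))
  refine ⟨a - M * b, (ha.sub (hbt.const_mul M)).congr fun n => ?_⟩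
  have hX := isChan_lik hw hl (q := q) n
  simp only [total]
  rw [← tsum_mul_left, ← Summable.tsum_sub (hX.summable (massBdd_homExt hb2))
    ((hX.summable (massBdd_homExt fun _ h0 h1 => abs_sqDev_le h0 h1)).mul_left M)]
  exact tsum_congr fun o => by simp only [homExt]; ring

/-- Every polynomial moment of the posterior converges in the depth. -/
theorem exists_limit_eval (hq : q ≠ 0) (hw : IsLaw w d) (hl : Adm q lam)
    (P : MvPolynomial (Fin q) ℝ) :
    ∃ θ : ℝ, Tendsto (fun n => total (homExt fun u => MvPolynomial.eval u P) (lik q w lam n))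
      atTop (𝓝 θ) :=
  exists_limit_quad hq hw hl (quad_eval P)

end Vale.Agent.P154.Anti
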