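import Vale.Agent.P154.Anti.Limit
import Mathlib.Analysis.MeanInequalities

/-!
# The multiplicative criterion for nonreconstruction

For exponents `a` in the simplex the sum over the observations of `∏ i, (X o i) ^ a i` is exactly
multiplicative on products of channels, so its one step recursion is closed. A linear combination
of these recursions dominating the square of the chi-square information gives nonreconstruction.
-/

namespace Vale.Agent.P154.Anti

open Finset Filter Topology Vale.Agent.P154.Tree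

variable {q : ℕ} {ι κ : Type} {w : ℕ → ℝ} {d lam : ℝ} {a : Fin q → ℝ}

/-- `∏ i, x i ^ a i`. -/
noncomputable def ex (a : Fin q → ℝ) (x : Fin q → ℝ) : ℝ := ∏ i, x i ^ a i

/-- The Hellinger transform of a channel at the exponents `a`. -/
noncomputable def Ma (a : Fin q → ℝ) (X : ι → Fin q → ℝ) : ℝ := total (ex a) X

theorem ex_nonneg (a : Fin q → ℝ) {x : Fin q → ℝ} (hx : ∀ i, 0 ≤ x i) : 0 ≤ ex a x :=
  prod_nonneg fun i _ => Real.rpow_nonneg (hx i) _

variable (ha : ∀ i, 0 ≤ a i) (ha1 : ∑ i, a i = 1)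
include ha ha1

theorem ex_le {x : Fin q → ℝ} (hx : ∀ i, 0 ≤ x i) : ex a x ≤ ∑ i, a i * x i :=
  Real.geom_mean_le_arith_mean_weighted univ a x (fun i _ => ha i) ha1 fun i _ => hx i

theorem summable_ex {X : ι → Fin q → ℝ} (hX : IsChan X) : Summable fun o => ex a (X o) :=
  Summable.of_nonneg_of_le (fun o => ex_nonneg a (hX.nonneg o))
    (fun o => ex_le ha ha1 (hX.nonneg o))
    (hasSum_sum (s := (univ : Finset (Fin q))) fun i _ => (hX.hasSum i).mul_left (a i)).summable

theorem hasSum_Ma {X : ι → Fin q → ℝ} (hX : IsChan X) : HasSum (fun o => ex a (X o)) (Ma a X) :=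
  (summable_ex ha ha1 hX).hasSum

theorem Ma_le_one {X : ι → Fin q → ℝ} (hX : IsChan X) : Ma a X ≤ 1 := by
  have h := hasSum_le (fun o => ex_le ha ha1 (hX.nonneg o)) (hasSum_Ma ha ha1 hX)
    (hasSum_sum (s := (univ : Finset (Fin q))) fun i _ => (hX.hasSum i).mul_left (a i))
  simpa [ha1] using h

omit ha ha1 in
theorem Ma_nonneg {X : ι → Fin q → ℝ} (hX : IsChan X) : 0 ≤ Ma a X :=
  tsum_nonneg fun o => ex_nonneg a (hX.nonneg o)

theorem Ma_mul {X : ι → Fin q → ℝ} {Y : κ → Fin q → ℝ} (hX : IsChan X) (hY : IsChan Y) :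
    Ma a (mulChan X Y) = Ma a X * Ma a Y := by
  have e : ∀ p : ι × κ, ex a (mulChan X Y p) = ex a (X p.1) * ex a (Y p.2) := fun p => by
    simp only [ex, mulChan, ← prod_mul_distrib]
    exact prod_congr rfl fun i _ => Real.mul_rpow (hX.nonneg _ i) (hY.nonneg _ i)
  have hs : Summable fun p : ι × κ => ex a (X p.1) * ex a (Y p.2) :=
    Summable.mul_of_nonneg (f := fun o => ex a (X o)) (g := fun o => ex a (Y o))
      (summable_ex ha ha1 hX) (summable_ex ha ha1 hY)
      (fun o => ex_nonneg a (hX.nonneg o)) fun o => ex_nonneg a (hY.nonneg o)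
  exact ((HasSum.mul (f := fun o => ex a (X o)) (g := fun o => ex a (Y o)) (hasSum_Ma ha ha1 hX)
    (hasSum_Ma ha ha1 hY) hs).congr_fun e).tsum_eq

theorem Ma_piChan {Y : ι → Fin q → ℝ} (hY : IsChan Y) (k : ℕ) :
    Ma a (piChan k Y) = Ma a Y ^ k := by
  induction k with
  | zero => rw [Ma, total_piChan_zero, pow_zero]; simp [ex, Real.one_rpow]
  | succ k ih =>
    rw [piChan_succ, Ma, total_reindex (F := ex a) (snocEquiv ι k) (mulChan (piChan k Y) Y),
      pow_succ, ← ih]
    exact Ma_mul ha ha1 (isChan_piChan hY k) hY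

omit ha in
theorem ex_smul {c : ℝ} (hc : 0 ≤ c) {x : Fin q → ℝ} (hx : ∀ i, 0 ≤ x i) :
    ex a (fun i => c * x i) = c * ex a x := by
  have hq : (univ : Finset (Fin q)).Nonempty := by
    rcases q with _ | q
    · simp at ha1
    · exact univ_nonempty
  simp only [ex, Real.mul_rpow hc (hx _), prod_mul_distrib]
  congr 1
  rcases eq_or_lt_of_le hc with h | h
  · subst h
    obtain ⟨i, -, hi⟩ := exists_ne_zero_of_sum_ne_zero (ha1.trans_ne one_ne_zero)
    exact prod_eq_zero (mem_univ i) (Real.zero_rpow hi)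
  · rw [← Real.rpow_sum_of_pos h, ha1, Real.rpow_one]

theorem hasSum_Ma_succ (hw : IsLaw w d) (hl : Adm q lam) (n : ℕ) :
    HasSum (fun k => w k * Ma a (Tree.edge lam (lik q w lam n)) ^ k)
      (Ma a (lik q w lam (n + 1))) := by
  have hE := (isChan_lik (q := q) hw hl n).edge' hl
  refine HasSum.sigma (hasSum_Ma ha ha1 (isChan_lik hw hl (n + 1))) fun k => ?_
  have h := (hasSum_Ma ha ha1 (isChan_piChan hE k)).mul_left (w k)
  rw [Ma_piChan ha ha1 hE k] at h
  exact h.congr_fun fun g => ex_smul ha1 (hw.nonneg k) fun i => (isChan_piChan hE k).nonneg g i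

omit ha ha1

/-- `1 - y` composed with the generating function of the offspring law: the recursion of
`1 - Ma a`. -/
noncomputable def gen (w : ℕ → ℝ) (y : ℝ) : ℝ := 1 - ∑' k, w k * (1 - y) ^ k

theorem gen_regLaw (d : ℕ) (y : ℝ) : gen (regLaw d) y = 1 - (1 - y) ^ d := by
  rw [gen, tsum_eq_single d fun k hk => by simp [regLaw, hk]]
  simp [regLaw]

theorem gen_poissonLaw (d y : ℝ) : gen (poissonLaw d) y = 1 - Real.exp (-(d * y)) := by
  have hser : HasSum (fun k : ℕ => (d * (1 - y)) ^ k / k.factorial) (Real.exp (d * (1 - y))) := by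
    rw [Real.exp_eq_exp_ℝ]
    exact NormedSpace.expSeries_div_hasSum_exp _
  have h := hser.mul_left (Real.exp (-d))
  rw [← Real.exp_add, show -d + d * (1 - y) = -(d * y) by ring] at h
  rw [gen, (h.congr_fun fun k => by simp only [poissonLaw, mul_pow]; ring :
    HasSum (fun k => poissonLaw d k * (1 - y) ^ k) _).tsum_eq]

theorem one_sub_Ma_succ (hw : IsLaw w d) (hl : Adm q lam) (ha : ∀ i, 0 ≤ a i)
    (ha1 : ∑ i, a i = 1) (n : ℕ) :
    1 - Ma a (lik q w lam (n + 1)) = gen w (1 - Ma a (Tree.edge lam (lik q w lam n))) := by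
  rw [gen, sub_sub_cancel, (hasSum_Ma_succ ha ha1 hw hl n).tsum_eq]

theorem tendsto_adv_of_total_SS (hw : IsLaw w d) (hl : Adm q lam)
    (h : Tendsto (fun n => total SS (lik q w lam n)) atTop (𝓝 0)) :
    Tendsto (adv q w lam) atTop (𝓝 0) := by
  refine tendsto_order.2 ⟨fun b hb => Eventually.of_forall fun n =>
    lt_of_lt_of_le hb (adv_nonneg q w lam n), fun b hb => ?_⟩
  rcases Nat.eq_zero_or_pos q with hq | hq
  · refine Eventually.of_forall fun n => lt_of_le_of_lt (le_of_eq ?_) hb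
    subst hq
    simp [adv]
  have hq' : (0 : ℝ) < q := by exact_mod_cast hq
  obtain ⟨ε, hε, hεb⟩ : ∃ ε > 0, (1 / (2 * (q : ℝ)) * (q * ε / 2 * q)) < b / 2 := by
    refine ⟨b / (q + 1), by positivity, ?_⟩
    field_simp
    nlinarith
  have hev := (tendsto_order.1 ((h.const_mul (1 / (2 * (q : ℝ)) * (1 / (2 * ε)))))).2 (b / 2)
    (by simp only [mul_zero]; positivity)
  filter_upwards [hev] with n hn
  calc adv q w lam n ≤ _ := adv_le hw hl hε n
    _ < b := by nlinarith

/-- Nonreconstruction from a combination of the multiplicative recursions dominating the square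
of the chi-square information on every symmetric channel. -/
theorem tendsto_adv_of_mult (hw : IsLaw w d) (hl : Adm q lam) {J : Type} [Fintype J]
    (A : J → Fin q → ℝ) (hA : ∀ j i, 0 ≤ A j i) (hA1 : ∀ j, ∑ i, A j i = 1) (c : J → ℝ) {t : ℝ}
    (ht : 0 < t)
    (H : ∀ (ι : Type) (Y : ι → Fin q → ℝ), IsChan Y → IsSymm Y →
      t * total SS Y ^ 2
        ≤ ∑ j, c j * ((1 - Ma (A j) Y) - gen w (1 - Ma (A j) (Tree.edge lam Y)))) :
    Tendsto (adv q w lam) atTop (𝓝 0) := by
  refine tendsto_adv_of_total_SS hw hl ?_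
  set x : ℕ → ℝ := fun n => total SS (lik q w lam n) with hx
  set Φ : ℕ → ℝ := fun n => ∑ j, c j * (1 - Ma (A j) (lik q w lam n)) with hΦ
  have hxn : ∀ n, 0 ≤ x n := fun n => total_SS_nonneg (isChan_lik hw hl n)
  have hstep : ∀ n, t * x n ^ 2 ≤ Φ n - Φ (n + 1) := fun n => by
    refine (H _ _ (isChan_lik hw hl n) (isSymm_lik w lam n)).trans_eq ?_
    simp only [hΦ, ← sum_sub_distrib, ← mul_sub]
    exact sum_congr rfl fun j _ => by rw [one_sub_Ma_succ hw hl (hA j) (hA1 j)]
  have hb : ∀ n, |Φ n| ≤ ∑ j, |c j| := fun n => by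
    refine (abs_sum_le_sum_abs _ _).trans (sum_le_sum fun j _ => ?_)
    have hC := isChan_lik (q := q) hw hl n
    rw [abs_mul]
    refine mul_le_of_le_one_right (abs_nonneg _) (abs_le.2 ⟨?_, ?_⟩)
    · linarith [Ma_le_one (hA j) (hA1 j) hC]
    · linarith [Ma_nonneg (a := A j) hC]
  have hs : Summable fun n => x n ^ 2 := by
    refine summable_of_sum_range_le (c := (2 * ∑ j, |c j|) / t) (fun n => sq_nonneg _) fun N => ?_
    rw [le_div_iff₀ ht, mul_comm, mul_sum]
    refine (sum_le_sum fun n _ => hstep n).trans ?_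
    rw [sum_range_sub']
    linarith [(abs_le.1 (hb 0)).2, (abs_le.1 (hb N)).1]
  have h := hs.tendsto_atTop_zero.sqrt
  rw [Real.sqrt_zero] at h
  exact h.congr fun n => Real.sqrt_sq (hxn n)

/-- The criterion for Poisson offspring. -/
theorem tendsto_adv_poisson_of_mult (hd : 0 ≤ d) (hl : Adm q lam) {J : Type} [Fintype J]
    (A : J → Fin q → ℝ) (hA : ∀ j i, 0 ≤ A j i) (hA1 : ∀ j, ∑ i, A j i = 1) (c : J → ℝ) {t : ℝ}
    (ht : 0 < t)
    (H : ∀ (ι : Type) (Y : ι → Fin q → ℝ), IsChan Y → IsSymm Y →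
      t * total SS Y ^ 2 ≤ ∑ j, c j * ((1 - Ma (A j) Y)
        - (1 - Real.exp (-(d * (1 - Ma (A j) (Tree.edge lam Y))))))) :
    Tendsto (adv q (poissonLaw d) lam) atTop (𝓝 0) :=
  tendsto_adv_of_mult (isLaw_poissonLaw hd) hl A hA hA1 c ht fun ι Y h1 h2 => by
    simpa only [gen_poissonLaw] using H ι Y h1 h2

/-- The criterion for the regular tree. -/
theorem tendsto_adv_regular_of_mult (d : ℕ) (hl : Adm q lam) {J : Type} [Fintype J]
    (A : J → Fin q → ℝ) (hA : ∀ j i, 0 ≤ A j i) (hA1 : ∀ j, ∑ i, A j i = 1) (c : J → ℝ) {t : ℝ}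
    (ht : 0 < t)
    (H : ∀ (ι : Type) (Y : ι → Fin q → ℝ), IsChan Y → IsSymm Y →
      t * total SS Y ^ 2 ≤ ∑ j, c j * ((1 - Ma (A j) Y)
        - (1 - (1 - (1 - Ma (A j) (Tree.edge lam Y))) ^ d))) :
    Tendsto (adv q (regLaw d) lam) atTop (𝓝 0) :=
  tendsto_adv_of_mult (isLaw_regLaw d) hl A hA hA1 c ht fun ι Y h1 h2 => by
    simpa only [gen_regLaw] using H ι Y h1 h2

end Vale.Agent.P154.Anti
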