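import Vale.Agent.P154.Anti.MultLin

/-!
# From affine bounds to the multiplicative criterion

On a set of channels where each recursion term has an affine lower bound, the criterion follows
from one pointwise inequality on the simplex.
-/

namespace Vale.Agent.P154.Anti

open Finset Vale.Agent.P154.Tree

variable {q : ℕ} {ι : Type} {w : ℕ → ℝ} {lam : ℝ} {J : Type} [Fintype J] {Y : ι → Fin q → ℝ}

/-- One cell of the certificate: affine bounds `α z + β ≤ -c * gen w z` at the means, an affine
bound `t x ^ 2 ≤ μ x + ν` at the chi-square mean, and one inequality on the simplex. -/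
theorem criterion_of_affine (hq : q ≠ 0) (hY : IsChan Y) (hl : Adm q lam) (A : J → Fin q → ℝ)
    (hA : ∀ j i, 0 ≤ A j i) (hA1 : ∀ j, ∑ i, A j i = 1) (c α β : J → ℝ) {t μ ν : ℝ}
    (hgen : ∀ j, α j * mean (fun u => phi (A j) (shrink lam u)) Y + β j
      ≤ -(c j * gen w (mean (fun u => phi (A j) (shrink lam u)) Y)))
    (hx : t * mean sqDev Y ^ 2 ≤ μ * mean sqDev Y + ν)
    (hpt : ∀ u : Fin q → ℝ, (∀ i, 0 ≤ u i) → ∑ i, u i = 1 →
      μ * sqDev u + ν ≤ (∑ j, (c j * phi (A j) u + α j * phi (A j) (shrink lam u))) + ∑ j, β j) :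
    t * mean sqDev Y ^ 2
      ≤ ∑ j, c j * (mean (phi (A j)) Y - gen w (mean (fun u => phi (A j) (shrink lam u)) Y)) := by
  have hφ : ∀ j, Bdd fun u => c j * phi (A j) u := fun j =>
    bdd_mul (bdd_const _) (bdd_phi (hA j) (hA1 j))
  have hψ : ∀ j, Bdd fun u => α j * phi (A j) (shrink lam u) := fun j =>
    bdd_mul (bdd_const _) (bdd_phi_shrink (hA j) (hA1 j) hl)
  have hS : Bdd (q := q) fun u => μ * sqDev u := bdd_mul (bdd_const _) bdd_sqDev
  have hsum := fun j => bdd_add (hφ j) (hψ j)
  have h := mean_le hY (bdd_add hS (bdd_const ν)) (bdd_add (bdd_sum univ hsum) (bdd_const _)) hpt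
  rw [mean_add hY hS (bdd_const ν), mean_add hY (bdd_sum univ hsum) (bdd_const _),
    mean_sum hY univ hsum, mean_const hY hq, mean_const hY hq, mean_const_mul,
    Finset.sum_congr rfl fun j _ => mean_add hY (hφ j) (hψ j), ← sum_add_distrib] at h
  refine hx.trans (h.trans (sum_le_sum fun j _ => ?_))
  rw [mean_const_mul, mean_const_mul, mul_sub]
  have := hgen j
  linarith

end Vale.Agent.P154.Anti
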