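import Vale.Agent.P154.Anti.MultLin
import Vale.Agent.P154.Anti.GeoBox
import Vale.Agent.P154.Anti.Limit

/-!
# Exclusion at the limit of the multiplicative recursions

Along the depth every `Ma a` increases, so the defects converge. Their limits satisfy the exact
recursion and every affine inequality that holds pointwise on the simplex. Hence it suffices to
show that these two facts force the limit of one edge defect to vanish.
-/

namespace Vale.Agent.P154.Anti

open Finset Filter Topology Vale.Agent.P154.Tree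

variable {q : ℕ} {ι κ : Type} {w : ℕ → ℝ} {d lam : ℝ} {a : Fin q → ℝ}

section monotone

variable (ha : ∀ i, 0 ≤ a i) (ha1 : ∑ i, a i = 1)
include ha ha1

theorem sum_ex_le_of_hasSum {x : κ → Fin q → ℝ} {X : Fin q → ℝ} (hx : ∀ p i, 0 ≤ x p i)
    (hX : ∀ i, HasSum (fun p => x p i) (X i)) (s : Finset κ) :
    ∑ p ∈ s, ex a (x p) ≤ ex a X := by
  have h := ex_ge_sum ha ha1 s (b := fun _ => (1 : ℝ)) (P := x) (fun _ _ => zero_le_one)
    fun p _ => hx p
  simp only [one_mul] at h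
  refine h.trans (prod_le_prod (fun i _ => Real.rpow_nonneg (sum_nonneg fun p _ => hx p i) _)
    fun i _ => Real.rpow_le_rpow (sum_nonneg fun p _ => hx p i) ?_ (ha i))
  exact sum_le_hasSum s (fun p _ => hx p i) (hX i)

/-- `Ma` grows along degradations. -/
theorem Ma_le_of_deg {X : ι → Fin q → ℝ} {Y : κ → Fin q → ℝ} (h : Deg X Y) (hX : IsChan X)
    (hY : IsChan Y) : Ma a Y ≤ Ma a X := by
  obtain ⟨K, h0, h1, h2⟩ := h
  set f : κ × ι → ℝ := fun z => K z.1 z.2 * ex a (Y z.1) with hfdef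
  have hfiber : ∀ p, HasSum (fun o => f (p, o)) (ex a (Y p)) := fun p => by
    simpa [hfdef] using (h1 p).mul_right (ex a (Y p))
  have hnn : ∀ z, 0 ≤ f z := fun z => mul_nonneg (h0 _ _) (ex_nonneg a (hY.nonneg _))
  have hs : Summable f := (summable_prod_of_nonneg hnn).2
    ⟨fun p => (hfiber p).summable,
      (summable_ex ha ha1 hY).congr fun p => (hfiber p).tsum_eq.symm⟩
  have htot : HasSum f (Ma a Y) := by
    have h' := hs.hasSum.prod_fiberwise hfiber
    have e : Ma a Y = ∑' z, f z := h'.unique (hasSum_Ma ha ha1 hY) |>.symm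
    rw [e]
    exact hs.hasSum
  have hcol : ∀ o, Summable fun p => f (p, o) := fun o =>
    hs.comp_injective (i := fun p => (p, o)) fun u v huv => congrArg Prod.fst huv
  have hswap : HasSum (fun o => ∑' p, f (p, o)) (Ma a Y) :=
    ((Equiv.prodComm ι κ).hasSum_iff.2 htot).prod_fiberwise fun o => (hcol o).hasSum
  refine hasSum_le (fun o => (hcol o).tsum_le_of_sum_le fun s => ?_) hswap (hasSum_Ma ha ha1 hX)
  calc ∑ p ∈ s, f (p, o) = ∑ p ∈ s, ex a (fun i => K p o * Y p i) :=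
        sum_congr rfl fun p _ => by simp only [hfdef]; rw [ex_smul ha1 (h0 p o) (hY.nonneg p)]
    _ ≤ ex a (X o) := sum_ex_le_of_hasSum ha ha1
        (fun p i => mul_nonneg (h0 p o) (hY.nonneg p i)) (h2 o) s

theorem monotone_Ma (hw : IsLaw w d) (hl : Adm q lam) :
    Monotone fun n => Ma a (lik q w lam n) :=
  monotone_nat_of_le_succ fun n => Ma_le_of_deg ha ha1 (deg_depth (q_pos ha1) hw hl n)
    (isChan_lik hw hl (n + 1)) (isChan_lik hw hl n)

theorem monotone_Ma_edge (hw : IsLaw w d) (hl : Adm q lam) :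
    Monotone fun n => Ma a (Tree.edge lam (lik q w lam n)) := by
  refine monotone_nat_of_le_succ fun n => ?_
  have h := Deg.edge (deg_depth (q_pos ha1) hw hl n) (q_pos ha1) (isChan_lik hw hl (n + 1))
    (isChan_lik hw hl n) hl zero_le_one le_rfl
  rw [one_mul] at h
  exact Ma_le_of_deg ha ha1 h ((isChan_lik hw hl (n + 1)).edge' hl)
    ((isChan_lik hw hl n).edge' hl)

/-- The defect of the posterior converges. -/
theorem exists_limit_phi (hw : IsLaw w d) (hl : Adm q lam) :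
    ∃ L : ℝ, Tendsto (fun n => mean (phi a) (lik q w lam n)) atTop (𝓝 L) := by
  have h := tendsto_atTop_ciSup (monotone_Ma ha ha1 hw hl)
    ⟨1, by rintro _ ⟨n, rfl⟩; exact Ma_le_one ha ha1 (isChan_lik hw hl n)⟩
  exact ⟨_, (h.const_sub 1).congr fun n =>
    one_sub_Ma ha ha1 (isChan_lik hw hl n) (isSymm_lik w lam n)⟩

/-- The defect after an edge converges, to a number in `[0, 1]`. -/
theorem exists_limit_phi_edge (hw : IsLaw w d) (hl : Adm q lam) :
    ∃ y : ℝ, 0 ≤ y ∧ y ≤ 1 ∧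
      Tendsto (fun n => mean (fun u => phi a (shrink lam u)) (lik q w lam n)) atTop (𝓝 y) := by
  have hE := fun n => (isChan_lik (q := q) hw hl n).edge' hl
  have h := tendsto_atTop_ciSup (monotone_Ma_edge ha ha1 hw hl)
    ⟨1, by rintro _ ⟨n, rfl⟩; exact Ma_le_one ha ha1 (hE n)⟩
  have h2 := (h.const_sub 1).congr fun n =>
    one_sub_Ma_edge ha ha1 hl (isChan_lik hw hl n) (isSymm_lik w lam n)
  have he : ∀ n, mean (fun u => phi a (shrink lam u)) (lik q w lam n) ∈ Set.Icc (0 : ℝ) 1 :=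
    fun n => by
      rw [← one_sub_Ma_edge ha ha1 hl (isChan_lik hw hl n) (isSymm_lik w lam n)]
      exact ⟨sub_nonneg.2 (Ma_le_one ha ha1 (hE n)), sub_le_self 1 (Ma_nonneg (a := a) (hE n))⟩
  exact ⟨_, ge_of_tendsto' h2 fun n => (he n).1, le_of_tendsto' h2 fun n => (he n).2, h2⟩

end monotone

variable {J : Type} [Fintype J] {A : J → Fin q → ℝ}

/-- An affine inequality on the simplex between the defects of `A` at a vector and at its
shrinking. -/
def PW (q : ℕ) (lam : ℝ) (A : J → Fin q → ℝ) (c b : J → ℝ) (k : ℝ) : Prop :=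
  ∀ u : Fin q → ℝ, (∀ i, 0 ≤ u i) → ∑ i, u i = 1 →
    0 ≤ (∑ j, (c j * phi (A j) u + b j * phi (A j) (shrink lam u))) + k

/-- Nonreconstruction when no nonzero limit is compatible with the exact recursion and the
pointwise inequalities. -/
theorem tendsto_adv_of_exclude (hq : q ≠ 0) (hw : IsLaw w d) (hl : Adm q lam) {g : ℝ → ℝ}
    (hg : ∀ y, gen w y = g y) (hgc : Continuous g) (hA : ∀ j i, 0 ≤ A j i)
    (hA1 : ∀ j, ∑ i, A j i = 1) (r : J) {K : ℝ}
    (hK : ∀ u : Fin q → ℝ, (∀ i, 0 ≤ u i) → ∑ i, u i = 1 →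
      sqDev u ≤ K * phi (A r) (shrink lam u))
    (H : ∀ L y : J → ℝ, (∀ j, L j = g (y j)) → (∀ j, 0 ≤ y j) → (∀ j, y j ≤ 1) →
      (∀ c b : J → ℝ, ∀ k : ℝ, PW q lam A c b k → 0 ≤ (∑ j, (c j * L j + b j * y j)) + k) →
      y r = 0) :
    Tendsto (adv q w lam) atTop (𝓝 0) := by
  choose L hL using fun j => exists_limit_phi (hA j) (hA1 j) hw hl
  choose y hy0 hy1 hy using fun j => exists_limit_phi_edge (hA j) (hA1 j) hw hl
  have hYc := fun n => isChan_lik (q := q) hw hl n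
  have hphi : ∀ j, Bdd fun u => phi (A j) u := fun j => bdd_phi (hA j) (hA1 j)
  have hpsi : ∀ j, Bdd fun u => phi (A j) (shrink lam u) := fun j =>
    bdd_phi_shrink (hA j) (hA1 j) hl
  have hrec : ∀ j, L j = g (y j) := fun j => by
    refine tendsto_nhds_unique ((hL j).comp (tendsto_add_atTop_nat 1))
      (((hgc.tendsto _).comp (hy j)).congr fun n => ?_)
    show g _ = mean (phi (A j)) (lik q w lam (n + 1))
    rw [← one_sub_Ma (hA j) (hA1 j) (hYc (n + 1)) (isSymm_lik w lam (n + 1)),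
      one_sub_Ma_succ hw hl (hA j) (hA1 j) n,
      one_sub_Ma_edge (hA j) (hA1 j) hl (hYc n) (isSymm_lik w lam n), hg]
  have hr : y r = 0 := H L y hrec hy0 hy1 fun c b k hpw => by
    have hsum : ∀ j, Bdd fun u => c j * phi (A j) u + b j * phi (A j) (shrink lam u) := fun j =>
      bdd_add (bdd_mul (bdd_const _) (hphi j)) (bdd_mul (bdd_const _) (hpsi j))
    refine ge_of_tendsto' ((tendsto_finsetSum _ fun j _ =>
      ((hL j).const_mul (c j)).add ((hy j).const_mul (b j))).add_const k) fun n => ?_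
    have h := mean_nonneg (hYc n) (bdd_add (bdd_sum univ hsum) (bdd_const k)) hpw
    rw [mean_add (hYc n) (bdd_sum univ hsum) (bdd_const k), mean_const (hYc n) hq,
      mean_sum (hYc n) univ hsum] at h
    refine h.trans_eq (congrArg (· + k) (sum_congr rfl fun j _ => ?_))
    rw [mean_add (hYc n) (bdd_mul (bdd_const _) (hphi j)) (bdd_mul (bdd_const _) (hpsi j)),
      mean_const_mul, mean_const_mul]
  have hS : Tendsto (fun n => mean sqDev (lik q w lam n)) atTop (𝓝 0) := by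
    refine squeeze_zero (fun n => mean_nonneg (hYc n) bdd_sqDev fun u _ _ =>
      sum_nonneg fun i _ => sq_nonneg _) (fun n => ?_)
      (by simpa [hr] using (hy r).const_mul K)
    refine (mean_le (hYc n) bdd_sqDev (bdd_mul (bdd_const K) (hpsi r)) hK).trans_eq ?_
    exact mean_const_mul _ _ _
  refine tendsto_adv_of_total_SS hw hl ?_
  have hq' : (q : ℝ) ≠ 0 := by exact_mod_cast hq
  refine ((hS.const_mul (q : ℝ)).congr fun n => ?_).trans (le_of_eq (by simp))
  rw [mean_sqDev]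
  field_simp

/-- Exclusion for Poisson offspring. -/
theorem tendsto_adv_poisson_of_exclude (hq : q ≠ 0) (hd : 0 ≤ d) (hl : Adm q lam)
    (hA : ∀ j i, 0 ≤ A j i) (hA1 : ∀ j, ∑ i, A j i = 1) (r : J) {K : ℝ}
    (hK : ∀ u : Fin q → ℝ, (∀ i, 0 ≤ u i) → ∑ i, u i = 1 →
      sqDev u ≤ K * phi (A r) (shrink lam u))
    (H : ∀ L y : J → ℝ, (∀ j, L j = 1 - Real.exp (-(d * y j))) → (∀ j, 0 ≤ y j) →
      (∀ j, y j ≤ 1) →
      (∀ c b : J → ℝ, ∀ k : ℝ, PW q lam A c b k → 0 ≤ (∑ j, (c j * L j + b j * y j)) + k) →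
      y r = 0) :
    Tendsto (adv q (poissonLaw d) lam) atTop (𝓝 0) :=
  tendsto_adv_of_exclude hq (isLaw_poissonLaw hd) hl (gen_poissonLaw d) (by fun_prop) hA hA1 r
    hK H

/-- Exclusion for the regular tree. -/
theorem tendsto_adv_regular_of_exclude (hq : q ≠ 0) (m : ℕ) (hl : Adm q lam)
    (hA : ∀ j i, 0 ≤ A j i) (hA1 : ∀ j, ∑ i, A j i = 1) (r : J) {K : ℝ}
    (hK : ∀ u : Fin q → ℝ, (∀ i, 0 ≤ u i) → ∑ i, u i = 1 →
      sqDev u ≤ K * phi (A r) (shrink lam u))
    (H : ∀ L y : J → ℝ, (∀ j, L j = 1 - (1 - y j) ^ m) → (∀ j, 0 ≤ y j) → (∀ j, y j ≤ 1) →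
      (∀ c b : J → ℝ, ∀ k : ℝ, PW q lam A c b k → 0 ≤ (∑ j, (c j * L j + b j * y j)) + k) →
      y r = 0) :
    Tendsto (adv q (regLaw m) lam) atTop (𝓝 0) :=
  tendsto_adv_of_exclude hq (isLaw_regLaw m) hl (gen_regLaw m) (by fun_prop) hA hA1 r hK H

end Vale.Agent.P154.Anti
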