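import Vale.Agent.P154.Anti.Mult

/-!
# The multiplicative criterion in terms of means over the posterior law

`mean f Y` is the expectation of `f` under the law of the posterior vector of the root. The defects
`1 - Ma a Y` and `1 - Ma a (edge lam Y)` of a symmetric channel are means of the symmetrised defect
`phi a` at the posterior and at its shrinking.
-/

namespace Vale.Agent.P154.Anti

open Finset Filter Topology Vale.Agent.P154.Tree

variable {q : ℕ} {ι : Type} {w : ℕ → ℝ} {d lam : ℝ} {a : Fin q → ℝ} {Y : ι → Fin q → ℝ}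

/-- The expectation of `f` under the law of the posterior. -/
noncomputable def mean (f : (Fin q → ℝ) → ℝ) (Y : ι → Fin q → ℝ) : ℝ := total (homExt f) Y / q

/-- Boundedness on the simplex. -/
def Bdd (f : (Fin q → ℝ) → ℝ) : Prop :=
  ∃ K : ℝ, ∀ u : Fin q → ℝ, (∀ i, 0 ≤ u i) → ∑ i, u i = 1 → |f u| ≤ K

theorem Bdd.summable {f : (Fin q → ℝ) → ℝ} (hf : Bdd f) (hY : IsChan Y) :
    Summable fun o => homExt f (Y o) := by
  obtain ⟨K, hK⟩ := hf
  exact hY.summable (massBdd_homExt hK)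

theorem bdd_const (c : ℝ) : Bdd (q := q) fun _ => c := ⟨|c|, fun _ _ _ => le_rfl⟩

theorem bdd_add {f g : (Fin q → ℝ) → ℝ} (hf : Bdd f) (hg : Bdd g) : Bdd fun u => f u + g u := by
  obtain ⟨K, hK⟩ := hf
  obtain ⟨L, hL⟩ := hg
  exact ⟨K + L, fun u h0 h1 => (abs_add_le _ _).trans (add_le_add (hK u h0 h1) (hL u h0 h1))⟩

theorem bdd_mul {f g : (Fin q → ℝ) → ℝ} (hf : Bdd f) (hg : Bdd g) : Bdd fun u => f u * g u := by
  obtain ⟨K, hK⟩ := hf
  obtain ⟨L, hL⟩ := hg
  refine ⟨K * L, fun u h0 h1 => ?_⟩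
  rw [abs_mul]
  exact mul_le_mul (hK u h0 h1) (hL u h0 h1) (abs_nonneg _) ((abs_nonneg _).trans (hK u h0 h1))

theorem bdd_sum {J : Type} (s : Finset J) {f : J → (Fin q → ℝ) → ℝ} (hf : ∀ j, Bdd (f j)) :
    Bdd fun u => ∑ j ∈ s, f j u := by
  classical
  induction s using Finset.induction_on with
  | empty => simpa using bdd_const (0 : ℝ)
  | insert j s hj ih => simpa [Finset.sum_insert hj] using bdd_add (hf j) ih

theorem bdd_sqDev : Bdd (q := q) sqDev := ⟨1, fun _ h0 h1 => abs_sqDev_le h0 h1⟩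

theorem mean_sqDev (Y : ι → Fin q → ℝ) : mean sqDev Y = total SS Y / q := rfl

theorem mean_const (hY : IsChan Y) (hq : q ≠ 0) (c : ℝ) : mean (fun _ => c) Y = c := by
  have hq' : (q : ℝ) ≠ 0 := by exact_mod_cast hq
  rw [mean, total, ((hY.hasSum_mass.mul_right c).congr_fun fun o => rfl :
    HasSum (fun o => homExt (fun _ => c) (Y o)) _).tsum_eq]
  field_simp

theorem mean_add (hY : IsChan Y) {f g : (Fin q → ℝ) → ℝ} (hf : Bdd f) (hg : Bdd g) :
    mean (fun u => f u + g u) Y = mean f Y + mean g Y := by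
  rw [mean, mean, mean, ← add_div, total, total, total,
    ← (hf.summable hY).tsum_add (hg.summable hY)]
  congr 1
  exact tsum_congr fun o => by simp only [homExt, mul_add]

theorem mean_const_mul (c : ℝ) (f : (Fin q → ℝ) → ℝ) (Y : ι → Fin q → ℝ) :
    mean (fun u => c * f u) Y = c * mean f Y := by
  rw [mean, mean, total, total, ← mul_div_assoc, ← tsum_mul_left]
  congr 1
  exact tsum_congr fun o => by simp only [homExt]; ring

theorem mean_sum (hY : IsChan Y) {J : Type} (s : Finset J) {f : J → (Fin q → ℝ) → ℝ}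
    (hf : ∀ j, Bdd (f j)) : mean (fun u => ∑ j ∈ s, f j u) Y = ∑ j ∈ s, mean (f j) Y := by
  classical
  induction s using Finset.induction_on with
  | empty => simp [mean, total, homExt]
  | insert j s hj ih =>
    simp only [Finset.sum_insert hj]
    rw [mean_add hY (hf j) (bdd_sum s hf), ih]

/-- Means are monotone in the function on the simplex. -/
theorem mean_le (hY : IsChan Y) {f g : (Fin q → ℝ) → ℝ} (hf : Bdd f) (hg : Bdd g)
    (h : ∀ u : Fin q → ℝ, (∀ i, 0 ≤ u i) → ∑ i, u i = 1 → f u ≤ g u) : mean f Y ≤ mean g Y := by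
  refine div_le_div_of_nonneg_right ?_ (Nat.cast_nonneg q)
  refine (hf.summable hY).tsum_le_tsum (fun o => ?_) (hg.summable hY)
  rcases eq_or_ne (∑ i, Y o i) 0 with hz | hz
  · simp [homExt, hz]
  obtain ⟨u0, u1⟩ := exists_unit (hY.nonneg o) hz
  exact mul_le_mul_of_nonneg_left (h _ u0 u1) (hY.mass_nonneg o)

theorem mean_nonneg (hY : IsChan Y) {f : (Fin q → ℝ) → ℝ} (hf : Bdd f)
    (h : ∀ u : Fin q → ℝ, (∀ i, 0 ≤ u i) → ∑ i, u i = 1 → 0 ≤ f u) : 0 ≤ mean f Y := by
  rcases eq_or_ne q 0 with hq | hq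
  · subst hq
    simp [mean]
  · rw [← mean_const hY hq 0]
    exact mean_le hY (bdd_const 0) hf h

/-- On a symmetric channel the mean of a function is that of its permuted versions. -/
theorem mean_comp_perm (hYs : IsSymm Y) (f : (Fin q → ℝ) → ℝ)
    (σ : Equiv.Perm (Fin q)) : mean (fun u => f (fun i => u (σ i))) Y = mean f Y := by
  obtain ⟨e, he⟩ := hYs σ
  rw [mean, mean, total, total]
  congr 1
  rw [← e.tsum_eq (fun o => homExt (fun u => f fun i => u (σ i)) (Y o))]
  refine tsum_congr fun o => ?_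
  have hs : ∑ j, Y (e o) j = ∑ j, Y o j := by
    rw [← Equiv.sum_comp σ (fun j => Y (e o) j)]
    exact sum_congr rfl fun j _ => he o j
  simp only [homExt, hs, he]

/-- The symmetrised defect of the Hellinger product. -/
noncomputable def phi (a : Fin q → ℝ) (u : Fin q → ℝ) : ℝ :=
  1 - (q : ℝ) / q.factorial * ∑ σ : Equiv.Perm (Fin q), ex a (fun i => u (σ i))

section phi

variable (ha : ∀ i, 0 ≤ a i) (ha1 : ∑ i, a i = 1)
include ha ha1

theorem ex_le_one {u : Fin q → ℝ} (h0 : ∀ i, 0 ≤ u i) (h1 : ∑ i, u i = 1) : ex a u ≤ 1 := by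
  refine (ex_le ha ha1 h0).trans ?_
  calc ∑ i, a i * u i ≤ ∑ i, a i * 1 :=
        sum_le_sum fun i _ => mul_le_mul_of_nonneg_left (le_one_of_simplex h0 h1 i) (ha i)
    _ = 1 := by simp [ha1]

theorem bdd_ex : Bdd (ex a) := ⟨1, fun u h0 h1 => by
  rw [abs_of_nonneg (ex_nonneg a h0)]; exact ex_le_one ha ha1 h0 h1⟩

theorem bdd_phi : Bdd (phi a) := by
  refine bdd_add (f := fun _ => (1 : ℝ)) (bdd_const 1)
    (g := fun u => -((q : ℝ) / q.factorial * ∑ σ : Equiv.Perm (Fin q), ex a (fun i => u (σ i)))) ?_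
    |>.imp fun K hK u h0 h1 => by simpa [phi, sub_eq_add_neg] using hK u h0 h1
  refine ⟨(q : ℝ) / q.factorial * q.factorial, fun u h0 h1 => ?_⟩
  rw [abs_neg, abs_mul, abs_of_nonneg (by positivity : (0 : ℝ) ≤ (q : ℝ) / q.factorial)]
  refine mul_le_mul_of_nonneg_left ((abs_sum_le_sum_abs _ _).trans ?_) (by positivity)
  have hb : ∀ σ : Equiv.Perm (Fin q), |ex a fun i => u (σ i)| ≤ (1 : ℝ) := fun σ => by
    rw [abs_of_nonneg (ex_nonneg a fun i => h0 (σ i))]
    exact ex_le_one ha ha1 (fun i => h0 (σ i)) (by rw [Equiv.sum_comp σ u, h1])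
  refine (sum_le_sum fun σ _ => hb σ).trans ?_
  simp [Fintype.card_perm]

omit ha in
theorem homExt_ex {x : Fin q → ℝ} (hx : ∀ i, 0 ≤ x i) : homExt (ex a) x = ex a x := by
  rcases eq_or_ne (∑ i, x i) 0 with hz | hz
  · have hx0 : ∀ i, x i = 0 := fun i =>
      (sum_eq_zero_iff_of_nonneg fun j _ => hx j).1 hz i (mem_univ i)
    have h := ex_smul ha1 (le_refl (0 : ℝ)) hx
    simp only [zero_mul] at h
    rw [show x = fun _ => 0 from funext hx0, h, homExt]
    simp
  · rw [homExt, ← ex_smul ha1 (sum_nonneg fun i _ => hx i)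
      fun i => div_nonneg (hx i) (sum_nonneg fun j _ => hx j)]
    congr 1
    funext i
    field_simp

omit ha in
theorem q_pos : q ≠ 0 := by rintro rfl; simp at ha1

/-- The defect of a symmetric channel as a mean. -/
theorem one_sub_Ma (hY : IsChan Y) (hYs : IsSymm Y) : 1 - Ma a Y = mean (phi a) Y := by
  have hq := q_pos ha1
  have hq' : (q : ℝ) ≠ 0 := by exact_mod_cast hq
  have hfac : (q.factorial : ℝ) ≠ 0 := by exact_mod_cast q.factorial_ne_zero
  have hperm : ∀ σ : Equiv.Perm (Fin q), Bdd fun u : Fin q → ℝ => ex a fun i => u (σ i) :=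
    fun σ => ⟨1, fun u h0 h1 => by
      rw [abs_of_nonneg (ex_nonneg a fun i => h0 (σ i))]
      exact ex_le_one ha ha1 (fun i => h0 (σ i)) (by rw [Equiv.sum_comp σ u, h1])⟩
  have hMa : mean (ex a) Y = Ma a Y / q := by
    rw [mean, Ma, total, total]
    congr 1
    exact tsum_congr fun o => homExt_ex ha1 (hY.nonneg o)
  have e : phi a = fun u => (fun _ => (1 : ℝ)) u
      + (-((q : ℝ) / q.factorial)) * ∑ σ : Equiv.Perm (Fin q), ex a (fun i => u (σ i)) := by
    funext u
    simp only [phi]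
    ring
  rw [e, mean_add hY (bdd_const 1) (bdd_mul (bdd_const _) (bdd_sum _ hperm)), mean_const hY hq,
    mean_const_mul, mean_sum hY _ hperm, Finset.sum_congr rfl fun σ _ => mean_comp_perm hYs (ex a) σ,
    sum_const, card_univ, Fintype.card_perm, Fintype.card_fin, hMa, nsmul_eq_mul]
  field_simp
  ring

/-- The defect after an edge as a mean. -/
theorem one_sub_Ma_edge (hl : Adm q lam) (hY : IsChan Y) (hYs : IsSymm Y) :
    1 - Ma a (Tree.edge lam Y) = mean (fun u => phi a (shrink lam u)) Y := by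
  rw [one_sub_Ma ha ha1 (hY.edge' hl) (hYs.edge' lam), mean, mean, total, total]
  congr 1
  exact tsum_congr fun o => homExt_edge (phi a) lam Y o

theorem bdd_phi_shrink (hl : Adm q lam) : Bdd fun u => phi a (shrink lam u) := by
  obtain ⟨K, hK⟩ := bdd_phi ha ha1
  refine ⟨K, fun u h0 h1 => hK _ (fun i => ?_) ?_⟩
  · have e : shrink lam u i = ∑ j, potts q lam i j * u j := by
      rw [show ∑ j, potts q lam i j * u j = Tree.edge lam (fun _ : Unit => u) () i from rfl,
        edge_apply, h1, mul_one]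
      rfl
    rw [e]
    exact sum_nonneg fun j _ => mul_nonneg (hl i j) (h0 j)
  · have hq' : (q : ℝ) ≠ 0 := by exact_mod_cast q_pos ha1
    simp only [shrink, sum_add_distrib, ← mul_sum, h1, sum_const, card_univ, Fintype.card_fin,
      nsmul_eq_mul]
    field_simp
    ring

end phi

/-- The multiplicative criterion on the means of a symmetric channel. -/
theorem tendsto_adv_of_means (hw : IsLaw w d) (hl : Adm q lam) {J : Type} [Fintype J]
    (A : J → Fin q → ℝ) (hA : ∀ j i, 0 ≤ A j i) (hA1 : ∀ j, ∑ i, A j i = 1) (c : J → ℝ) {t : ℝ}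
    (ht : 0 < t) (hq : q ≠ 0)
    (H : ∀ (ι : Type) (Y : ι → Fin q → ℝ), IsChan Y → IsSymm Y →
      t * mean sqDev Y ^ 2
        ≤ ∑ j, c j * (mean (phi (A j)) Y - gen w (mean (fun u => phi (A j) (shrink lam u)) Y))) :
    Tendsto (adv q w lam) atTop (𝓝 0) := by
  have hq' : (0 : ℝ) < q := by exact_mod_cast Nat.pos_of_ne_zero hq
  refine tendsto_adv_of_mult hw hl A hA hA1 c (div_pos ht (pow_pos hq' 2)) fun ι Y hY hYs => ?_
  calc t / (q : ℝ) ^ 2 * total SS Y ^ 2 = t * mean sqDev Y ^ 2 := by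
        rw [mean_sqDev]; field_simp
    _ ≤ _ := H ι Y hY hYs
    _ = _ := sum_congr rfl fun j _ => by
        rw [one_sub_Ma (hA j) (hA1 j) hY hYs, one_sub_Ma_edge (hA j) (hA1 j) hl hY hYs]

end Vale.Agent.P154.Anti
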