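import Vale.Agent.P154.Anti.BoxNode

/-!
# Node inequalities at a single rational parameter

Where the critical parameter is rational, for instance `-1 / 2` for the degree four, the node
inequality at that parameter with itself as first outer node is the pointwise inequality.
-/

namespace Vale.Agent.P154.Anti

open Finset Filter Topology Box Vale.Agent.P154.Tree

variable {n : ℕ}

/-- The node inequality at `e` with outer nodes `e`, `r` is the inequality at `e`. -/
theorem pw_of_node {A : Fin n → Fin 3 → ℝ} {c be : Fin n → ℝ} {k e r d : ℝ}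
    (h : NodePW 3 A c be k e e r) (hd : d * e ^ 2 = 1) : PW 3 e A c (fun j => be j * d) k := by
  intro u u0 u1
  refine (h u u0 u1).trans_eq (congrArg (· + k) (sum_congr rfl fun j _ => congrArg _ ?_))
  have he : e ≠ 0 := fun h0 => by simp [h0] at hd
  have hd' : d = 1 / e ^ 2 := by rw [eq_div_iff (pow_ne_zero 2 he)]; exact hd
  rw [nodeBound, psiN, hd']
  split_ifs <;> ring

/-- The check at a single parameter: each vector is read off one checked vector. -/
def pointCheck (C : Cfg) (E : Fin n → N3) (e : ℚ) : List (SVec n) → List WData → Bool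
  | [], _ => true
  | _ :: _, [] => false
  | v :: vs, w :: ws =>
    nodeOk C w.ia w.Ma (allTerms E v e e w.r) v.k && pointCheck C E e vs ws

/-- A checked point gives the inequalities on the critical curve there. -/
theorem pw_of_pointCheck {C : Cfg} (hT : Nonneg C)
    (hb : basisOk C = true) (E : Fin n → N3) (e : ℚ) {d : ℝ} (hd : d * (e : ℝ) ^ 2 = 1) :
    ∀ (V : List (SVec n)) (W : List WData), pointCheck C E e V W = true → ∀ v ∈ V,
      PW 3 (e : ℝ) (fun j => expo3 (E j)) (fun j => (v.c j : ℝ)) (fun j => (v.b j : ℝ) * d) v.k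
  | [], _, _ => fun v hv => absurd hv List.not_mem_nil
  | _ :: _, [], h => by simp [pointCheck] at h
  | v :: vs, w :: ws, h => by
    simp only [pointCheck, Bool.and_eq_true] at h
    intro v' hv'
    rcases List.mem_cons.1 hv' with rfl | hv'
    · exact pw_of_node (r := (w.r : ℝ))
        (fun u u0 u1 => (sum_allTerms E v' e e w.r u) ▸ nodeOk_sound hT hb h.1 u0 u1) hd
    · exact pw_of_pointCheck hT hb E e hd vs ws h.2 v' hv'

/-- The regular tree at a degree with rational critical parameter. -/
theorem tendsto_adv_regular_of_point {C : Cfg} (hT : Nonneg C)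
    (hb : basisOk C = true) {E : Fin n → N3} (hE : ∀ j, (E j).n0 + (E j).n1 + (E j).n2 = C.N)
    {r : Fin n} (hr0 : 1 ≤ (E r).n0) (hr1 : 1 ≤ (E r).n1) {e : ℚ} (he : -(1 / 2) ≤ e)
    (he0 : e < 0) {k : ℕ} (hk : (k : ℚ) * e ^ 2 = 1) {V : List (SVec n)} {W : List WData}
    (hV : pointCheck C E e V W = true) {x0 : ℚ} (t : STree n)
    (hck : sCheck (genR k) V r x0 t (fun _ => 0) (fun _ => (k : ℚ)) = true)
    (hsmall : SmallExcl (fun j => expo3 (E j)) (fun y => 1 - (1 - y) ^ k) r x0 e k)
    {mu : ℝ} (hmu : mu ≤ 0) (hks : (k : ℝ) * mu ^ 2 ≤ 1) :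
    Tendsto (adv 3 (regLaw k) mu) atTop (𝓝 0) := by
  have hN : C.N ≠ 0 := by have := hE r; omega
  have hA := fun j => expo3_simplex hN (hE j)
  have hke : (k : ℝ) * (e : ℝ) ^ 2 = 1 := by exact_mod_cast hk
  have he' : -(1 / 2) ≤ (e : ℝ) := by
    have : ((-(1 / 2) : ℚ) : ℝ) ≤ (e : ℝ) := by exact_mod_cast he
    push_cast at this
    exact this
  have he0' : (e : ℝ) < 0 := by exact_mod_cast he0
  have hk1 : 1 ≤ k := by
    rcases Nat.eq_zero_or_pos k with h | h
    · subst h; simp at hk
    · exact h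
  have hNpos : (0 : ℝ) < C.N := by exact_mod_cast Nat.pos_of_ne_zero hN
  have hge : ∀ i, 1 ≤ (E r).fn i → 1 / (C.N : ℝ) ≤ expo3 (E r) i := fun i hi => by
    rw [expo3_apply (hE r) i]
    exact div_le_div_of_nonneg_right (by exact_mod_cast hi) hNpos.le
  have hadm : Adm 3 (e : ℝ) := adm_three he' (by linarith)
  have hlim := tendsto_adv_regular_of_tree (q := 3) (m := k) (by norm_num) hk1 hadm
    (fun j => (hA j).1) (fun j => (hA j).2) V (pw_of_pointCheck hT hb E e hke V W hV)
    (fun u u0 u1 => sqDev_le_phi_shrink (hA r).1 (hA r).2 (one_div_pos.2 hNpos) (hge 0 hr0)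
      (hge 1 hr1) he' le_rfl he0' u0 u1) t hck hsmall
  refine tendsto_adv_of_abs_le (isLaw_regLaw k) hadm
    (mul_nonneg_of_nonpos_of_nonpos hmu he0'.le) ?_ hlim
  rw [← sq_le_sq]
  have : (0 : ℝ) < k := by exact_mod_cast hk1
  nlinarith

end Vale.Agent.P154.Anti
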