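import Vale.Agent.P154.Anti.BoxNode

/-!
# Pointwise inequalities at one parameter from paired integer vectors, by domination

The basis lists every exponent at the parameter `1` and then at the parameter `e`. An integer
vector below a positive multiple of a scalar inequality in each coefficient gives its pointwise
inequality, since the basis functions are nonnegative.
-/

namespace Vale.Agent.P154.Anti

open Finset Box Vale.Agent.P154.Tree

variable {n : ℕ}

/-- The basis with every exponent at `1` and then at `e`. -/
def twinBasis (E : Fin n → N3) (e : Side) : List Basis :=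
  (List.ofFn fun j => (⟨E j, ⟨1, 1⟩⟩ : Basis)) ++ List.ofFn fun j => (⟨E j, e⟩ : Basis)

/-- The multiple of a scalar inequality on the twin basis, where `d` is the degree. -/
def twinCoef (v : SVec n) (M d : ℚ) : List ℚ :=
  (List.ofFn fun j => M * v.c j) ++ List.ofFn fun j => M * (v.b j * d)

/-- Entrywise comparison of lists of equal length. -/
def allLe : List ℤ → List ℚ → Bool
  | [], [] => true
  | w :: ws, r :: rs => decide ((w : ℚ) ≤ r) && allLe ws rs
  | _, _ => false

/-- The checked vectors lie below the multiples of the scalar inequalities. -/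
def twinCheck (M d : ℚ) : List Box.Vec → List (SVec n) → Bool
  | _, [] => true
  | [], _ :: _ => false
  | w :: ws, v :: vs => decide (w.mu = 0) && decide ((w.k : ℚ) ≤ M * v.k)
      && allLe w.w (twinCoef v M d) && twinCheck M d ws vs

theorem wsum_le_of_allLe (u : Fin 3 → ℝ) : ∀ (ws : List ℤ) (rs : List ℚ) (Bs : List Basis),
    allLe ws rs = true → rs.length = Bs.length → (∀ B ∈ Bs, 0 ≤ B.val u) →
      wsum ws Bs u ≤ (List.zipWith (fun (r : ℚ) (B : Basis) => (r : ℝ) * B.val u) rs Bs).sum
  | [], [], [], _, _, _ => by simp [wsum]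
  | w :: ws, r :: rs, B :: Bs, h, hl, hB => by
    simp only [allLe, Bool.and_eq_true, decide_eq_true_eq] at h
    simp only [wsum, List.zipWith_cons_cons, List.sum_cons]
    refine add_le_add (mul_le_mul_of_nonneg_right ?_ (hB B List.mem_cons_self))
      (wsum_le_of_allLe u ws rs Bs h.2 (by simpa using hl)
        fun B' hB' => hB B' (List.mem_cons_of_mem _ hB'))
    exact_mod_cast h.1
  | [], _ :: _, _, h, _, _ => by simp [allLe] at h
  | _ :: _, [], _, h, _, _ => by simp [allLe] at h
  | [], [], _ :: _, _, hl, _ => by simp at hl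
  | _ :: _, _ :: _, [], _, hl, _ => by simp at hl

theorem zipWith_ofFn_sum (u : Fin 3 → ℝ) : ∀ {m : ℕ} (r : Fin m → ℚ) (B : Fin m → Basis),
    (List.zipWith (fun (r : ℚ) (B : Basis) => (r : ℝ) * B.val u) (List.ofFn r)
      (List.ofFn B)).sum = ∑ j, (r j : ℝ) * (B j).val u
  | 0, _, _ => by simp
  | m + 1, r, B => by
    rw [List.ofFn_succ, List.ofFn_succ, List.zipWith_cons_cons, List.sum_cons, Fin.sum_univ_succ,
      zipWith_ofFn_sum u (fun j => r j.succ) (fun j => B j.succ)]

theorem pw_of_twinCheck {C : Cfg} (hT : Nonneg C) (hok : basisOk C = true) (E : Fin n → N3)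
    (e : Side) {M d : ℚ} (hM : 0 < M) (hB : C.basis = twinBasis E e) {V : List (SVec n)}
    (h : twinCheck M d C.vecs V = true) :
    ∀ v ∈ V, PW 3 ((e.ln : ℝ) / e.ld) (fun j => expo3 (E j)) (fun j => (v.c j : ℝ))
      (fun j => (v.b j : ℝ) * (d : ℝ)) v.k := by
  suffices H : ∀ (ws : List Box.Vec) (vs : List (SVec n)), (∀ w ∈ ws, w ∈ C.vecs) →
      twinCheck M d ws vs = true → ∀ v ∈ vs, PW 3 ((e.ln : ℝ) / e.ld) (fun j => expo3 (E j))
        (fun j => (v.c j : ℝ)) (fun j => (v.b j : ℝ) * (d : ℝ)) v.k from
    fun v hv => H C.vecs V (fun _ hw => hw) h v hv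
  intro ws
  induction ws with
  | nil =>
    intro vs _ h v hv
    cases vs with
    | nil => simp at hv
    | cons => simp [twinCheck] at h
  | cons w ws ih =>
    intro vs hsub h v hv
    cases vs with
    | nil => simp at hv
    | cons v' vs =>
      simp only [twinCheck, Bool.and_eq_true, decide_eq_true_eq] at h
      obtain ⟨⟨⟨hmu, hk⟩, hw⟩, hrest⟩ := h
      rcases List.mem_cons.1 hv with rfl | hv
      swap
      · exact ih vs (fun x hx => hsub x (List.mem_cons_of_mem _ hx)) hrest v hv
      intro u u0 u1
      have hval := hT w (hsub w List.mem_cons_self) u u0 u1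
      have hsum := wsum_le_of_allLe u w.w (twinCoef v M d) C.basis hw
        (by rw [hB]; simp [twinCoef, twinBasis]) (fun B hB' => Basis.val_nonneg hok hB' u0 u1)
      have hb : ∀ j : Fin n, Basis.val ⟨E j, ⟨1, 1⟩⟩ u = phi (expo3 (E j)) u := fun j => by
        have hs : shrink (1 : ℝ) u = u := funext fun i => by simp [shrink]
        simp [Basis.val, Basis.expo, hs]
      have hM' : (0 : ℝ) < M := by exact_mod_cast hM
      have hk' : (w.k : ℝ) ≤ (M : ℝ) * v.k := by exact_mod_cast hk
      rw [hB, twinBasis, twinCoef, List.zipWith_append (by simp)] at hsum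
      simp only [List.sum_append, zipWith_ofFn_sum, hb, Rat.cast_mul] at hsum
      rw [Box.Vec.val, hmu] at hval
      rw [hB, twinBasis] at hval
      simp only [Int.cast_zero, zero_mul, add_zero] at hval
      refine nonneg_of_mul_nonneg_right (?_ : 0 ≤ (M : ℝ) * _) hM'
      simp only [mul_assoc] at hsum
      rw [← mul_sum, ← mul_sum, ← mul_add, ← sum_add_distrib] at hsum
      rw [mul_add]
      simp only [mul_assoc, Basis.val, Basis.expo] at hval hsum ⊢
      linarith

end Vale.Agent.P154.Anti
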