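import Vale.Agent.P154.Anti.MultExclude
import Vale.Agent.P154.Anti.Tangent

/-!
# The scalar side of the exclusion certificates

The limit defects `z` satisfy linear inequalities in `z` and `g z`, where `g` is concave and
increasing. A rational tree of boxes, linearised by tangents of `g` for positive coefficients
and chords for negative ones, shows that one of the variables is small.
-/

namespace Vale.Agent.P154.Anti

open Finset Vale.Agent.P154.Tree

/-- A generation function on `[0, D]` with rational affine upper bounds, indexed by a rational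
parameter, and rational lower bounds at rational points. -/
structure GenBound where
  fn : ℝ → ℝ
  D : ℚ
  up : ℚ → ℚ × ℚ
  upOk : ℚ → Bool
  low : ℚ → ℚ

/-- Correctness of the bounds. -/
structure GenBound.Valid (G : GenBound) : Prop where
  up_spec : ∀ p : ℚ, G.upOk p = true → ∀ z : ℝ, 0 ≤ z → z ≤ G.D →
    G.fn z ≤ ((G.up p).1 : ℝ) * z + (G.up p).2
  low_spec : ∀ x : ℚ, 0 ≤ x → x ≤ G.D → (G.low x : ℝ) ≤ G.fn x
  concave : ∀ a b z : ℝ, 0 ≤ a → a ≤ z → z ≤ b → b ≤ G.D →
    (b - z) * G.fn a + (z - a) * G.fn b ≤ (b - a) * G.fn z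

/-- The coefficients of `0 ≤ ∑ j, (c j * g (z j) + b j * z j) + k`. -/
structure SVec (n : ℕ) where
  c : Fin n → ℚ
  b : Fin n → ℚ
  k : ℚ

/-- The value of an inequality. -/
noncomputable def SVec.eval {n : ℕ} (v : SVec n) (g : ℝ → ℝ) (z : Fin n → ℝ) : ℝ :=
  (∑ j, ((v.c j : ℝ) * g (z j) + (v.b j : ℝ) * z j)) + v.k

/-- A certificate tree. -/
inductive STree (n : ℕ) : Type
  | small : STree n
  | leaf (i : ℕ) (p : List ℚ) : STree n
  | split (j : Fin n) (m : ℚ) (l r : STree n) : STree n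
  | tighten (i : ℕ) (p : List ℚ) (j : Fin n) (m : ℚ) (t : STree n) : STree n

variable {n : ℕ} (G : GenBound)

/-- An affine upper bound of `c * g z` on `[lo, hi]`. -/
def linUp (c p lo hi : ℚ) : ℚ × ℚ :=
  if 0 ≤ c then (c * (G.up p).1, c * (G.up p).2)
  else if lo < hi then
    (c * ((G.low hi - G.low lo) / (hi - lo)),
      c * (G.low lo - (G.low hi - G.low lo) / (hi - lo) * lo))
  else (0, c * G.low lo)

/-- The parameters of the tangents are admissible. -/
def paramOk (v : SVec n) (p : List ℚ) : Bool :=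
  decide (∀ j : Fin n, v.c j ≤ 0 ∨ G.upOk (p.getD j 0) = true)

/-- The slope of the linearisation at coordinate `j`. -/
def slope (v : SVec n) (p : List ℚ) (lo hi : Fin n → ℚ) (j : Fin n) : ℚ :=
  (linUp G (v.c j) (p.getD j 0) (lo j) (hi j)).1 + v.b j

/-- The greatest value of the linearisation at coordinate `j`. -/
def coordMax (v : SVec n) (p : List ℚ) (lo hi : Fin n → ℚ) (j : Fin n) : ℚ :=
  max (slope G v p lo hi j * lo j) (slope G v p lo hi j * hi j)
    + (linUp G (v.c j) (p.getD j 0) (lo j) (hi j)).2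

/-- The check of a tree: every box is empty or has a small coordinate `r`. -/
def sCheck (V : List (SVec n)) (r : Fin n) (x0 : ℚ) :
    STree n → (Fin n → ℚ) → (Fin n → ℚ) → Bool
  | .small, _, hi => decide (hi r ≤ x0)
  | .leaf i p, lo, hi =>
    match V[i]? with
    | none => false
    | some v => paramOk G v p && decide ((∑ j, coordMax G v p lo hi j) + v.k < 0)
  | .split j m a b, lo, hi =>
    sCheck V r x0 a lo (Function.update hi j (min (hi j) m)) &&
      sCheck V r x0 b (Function.update lo j (max (lo j) m)) hi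
  | .tighten i p j m t, lo, hi =>
    match V[i]? with
    | none => false
    | some v =>
      let e := slope G v p lo hi j
      let rest := (∑ l ∈ univ.erase j, coordMax G v p lo hi l)
        + (linUp G (v.c j) (p.getD j 0) (lo j) (hi j)).2 + v.k
      paramOk G v p && decide (e * m + rest ≤ 0) &&
        (if 0 < e then sCheck V r x0 t (Function.update lo j (max (lo j) m)) hi
         else if e < 0 then sCheck V r x0 t lo (Function.update hi j (min (hi j) m))
         else false)

variable {G}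

theorem linUp_spec (hG : G.Valid) {c p lo hi : ℚ} {z : ℝ} (hok : c ≤ 0 ∨ G.upOk p = true)
    (h0 : 0 ≤ lo) (h1 : (lo : ℝ) ≤ z) (h2 : z ≤ hi) (h3 : hi ≤ G.D) :
    (c : ℝ) * G.fn z ≤ ((linUp G c p lo hi).1 : ℝ) * z + (linUp G c p lo hi).2 := by
  have hz0 : (0 : ℝ) ≤ z := le_trans (by exact_mod_cast h0) h1
  have hzD : z ≤ G.D := h2.trans (by exact_mod_cast h3)
  have hlh : lo ≤ hi := by exact_mod_cast h1.trans h2
  unfold linUp
  split_ifs with hc hlt
  · rcases hok with hc' | hp
    · simp [le_antisymm hc' hc]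
    · have h := mul_le_mul_of_nonneg_left (hG.up_spec p hp z hz0 hzD)
        (show (0 : ℝ) ≤ c by exact_mod_cast hc)
      push_cast
      linarith
  · have hc' : (c : ℝ) ≤ 0 := by exact_mod_cast (le_of_not_ge hc)
    have ha : (0 : ℝ) ≤ lo := by exact_mod_cast h0
    have hb : (hi : ℝ) ≤ G.D := by exact_mod_cast h3
    have hd : (0 : ℝ) < (hi : ℝ) - lo := sub_pos.2 (by exact_mod_cast hlt)
    have l1 := mul_le_mul_of_nonneg_left (hG.low_spec lo h0 (hlh.trans h3)) (sub_nonneg.2 h2)
    have l2 := mul_le_mul_of_nonneg_left (hG.low_spec hi (h0.trans hlh) h3) (sub_nonneg.2 h1)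
    have hcv := hG.concave lo hi z ha h1 h2 hb
    have key : ((hi : ℝ) - z) * G.low lo + (z - lo) * G.low hi ≤ ((hi : ℝ) - lo) * G.fn z := by
      linarith
    have e : ((G.low hi : ℝ) - G.low lo) / ((hi : ℝ) - lo) * z
        + ((G.low lo : ℝ) - ((G.low hi : ℝ) - G.low lo) / ((hi : ℝ) - lo) * lo) ≤ G.fn z := by
      rw [show ((G.low hi : ℝ) - G.low lo) / ((hi : ℝ) - lo) * z
          + ((G.low lo : ℝ) - ((G.low hi : ℝ) - G.low lo) / ((hi : ℝ) - lo) * lo)
          = (((hi : ℝ) - z) * G.low lo + (z - lo) * G.low hi) / ((hi : ℝ) - lo) by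
        field_simp; ring, div_le_iff₀ hd]
      linarith
    have := mul_le_mul_of_nonpos_left e hc'
    push_cast
    linarith
  · have hz : z = lo := le_antisymm (h2.trans (by exact_mod_cast not_lt.1 hlt)) h1
    have := mul_le_mul_of_nonpos_left (hG.low_spec lo h0 (hlh.trans h3))
      (show (c : ℝ) ≤ 0 by exact_mod_cast le_of_not_ge hc)
    rw [hz]
    push_cast
    linarith

/-- Membership in a box inside `[0, D]`. -/
def InBox (G : GenBound) (lo hi : Fin n → ℚ) (z : Fin n → ℝ) : Prop :=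
  ∀ j, 0 ≤ lo j ∧ (lo j : ℝ) ≤ z j ∧ z j ≤ (hi j : ℝ) ∧ hi j ≤ G.D

theorem term_le (hG : G.Valid) {v : SVec n} {p : List ℚ} (hp : paramOk G v p = true)
    {lo hi : Fin n → ℚ} {z : Fin n → ℝ} (hz : InBox G lo hi z) (j : Fin n) :
    (v.c j : ℝ) * G.fn (z j) + (v.b j : ℝ) * z j ≤ (slope G v p lo hi j : ℝ) * z j
      + (linUp G (v.c j) (p.getD j 0) (lo j) (hi j)).2 := by
  obtain ⟨a0, a1, a2, a3⟩ := hz j
  simp only [paramOk, decide_eq_true_eq] at hp
  have hok := hp j
  have := linUp_spec hG hok a0 a1 a2 a3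
  simp only [slope]
  push_cast
  linarith

theorem term_le_max (hG : G.Valid) {v : SVec n} {p : List ℚ} (hp : paramOk G v p = true)
    {lo hi : Fin n → ℚ} {z : Fin n → ℝ} (hz : InBox G lo hi z) (j : Fin n) :
    (v.c j : ℝ) * G.fn (z j) + (v.b j : ℝ) * z j ≤ (coordMax G v p lo hi j : ℝ) := by
  refine (term_le hG hp hz j).trans ?_
  obtain ⟨-, a1, a2, -⟩ := hz j
  simp only [coordMax]
  push_cast
  gcongr
  rcases le_total 0 (slope G v p lo hi j : ℝ) with he | he
  · exact le_max_of_le_right (mul_le_mul_of_nonneg_left a2 he)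
  · exact le_max_of_le_left (mul_le_mul_of_nonpos_left a1 he)

theorem InBox.update_hi {lo hi : Fin n → ℚ} {z : Fin n → ℝ} (hz : InBox G lo hi z) {j : Fin n}
    {m : ℚ} (h : z j ≤ m) : InBox G lo (Function.update hi j (min (hi j) m)) z := fun l => by
  obtain ⟨a0, a1, a2, a3⟩ := hz l
  rcases eq_or_ne l j with rfl | hl
  · simp only [Function.update_self]
    exact ⟨a0, a1, by push_cast; exact le_min a2 h, (min_le_left _ _).trans a3⟩
  · simpa only [Function.update_of_ne hl] using ⟨a0, a1, a2, a3⟩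

theorem InBox.update_lo {lo hi : Fin n → ℚ} {z : Fin n → ℝ} (hz : InBox G lo hi z) {j : Fin n}
    {m : ℚ} (h : (m : ℝ) ≤ z j) : InBox G (Function.update lo j (max (lo j) m)) hi z := fun l => by
  obtain ⟨a0, a1, a2, a3⟩ := hz l
  rcases eq_or_ne l j with rfl | hl
  · simp only [Function.update_self]
    exact ⟨a0.trans (le_max_left _ _), by push_cast; exact max_le a1 h, a2, a3⟩
  · simpa only [Function.update_of_ne hl] using ⟨a0, a1, a2, a3⟩

/-- Soundness of the check. -/
theorem sCheck_sound (hG : G.Valid) {V : List (SVec n)} {r : Fin n} {x0 : ℚ} {z : Fin n → ℝ}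
    (hV : ∀ v ∈ V, 0 ≤ v.eval G.fn z) :
    ∀ (t : STree n) (lo hi : Fin n → ℚ), sCheck G V r x0 t lo hi = true →
      InBox G lo hi z → z r ≤ x0 := by
  intro t
  induction t with
  | small =>
    intro lo hi h hz
    simp only [sCheck, decide_eq_true_eq] at h
    exact (hz r).2.2.1.trans (by exact_mod_cast h)
  | leaf i p =>
    intro lo hi h hz
    simp only [sCheck] at h
    split at h
    · exact absurd h (by simp)
    · rename_i v hv
      simp only [Bool.and_eq_true, decide_eq_true_eq] at h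
      have h1 := hV v (List.mem_of_getElem? hv)
      have h2 : ((∑ j, coordMax G v p lo hi j : ℚ) : ℝ) + v.k < 0 := by exact_mod_cast h.2
      have h3 := sum_le_sum fun j (_ : j ∈ univ) => term_le_max hG h.1 hz j
      simp only [SVec.eval] at h1
      push_cast at h2
      linarith
  | split j m a b iha ihb =>
    intro lo hi h hz
    simp only [sCheck, Bool.and_eq_true] at h
    rcases le_total (z j) (m : ℝ) with hm | hm
    · exact iha _ _ h.1 (hz.update_hi hm)
    · exact ihb _ _ h.2 (hz.update_lo hm)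
  | tighten i p j m t ih =>
    intro lo hi h hz
    simp only [sCheck] at h
    split at h
    · exact absurd h (by simp)
    · rename_i v hv
      simp only [Bool.and_eq_true, decide_eq_true_eq] at h
      obtain ⟨⟨hp, hm⟩, hrec⟩ := h
      have h1 := hV v (List.mem_of_getElem? hv)
      have hj := term_le hG hp hz j
      have hrest := sum_le_sum fun l (_ : l ∈ univ.erase j) => term_le_max hG hp hz l
      simp only [SVec.eval] at h1
      rw [← add_sum_erase _ _ (mem_univ j)] at h1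
      have hm' : (slope G v p lo hi j : ℝ) * m
          + (((∑ l ∈ univ.erase j, coordMax G v p lo hi l : ℚ) : ℝ)
            + (linUp G (v.c j) (p.getD j 0) (lo j) (hi j)).2 + v.k) ≤ 0 := by exact_mod_cast hm
      push_cast at hm'
      have key : (slope G v p lo hi j : ℝ) * m ≤ (slope G v p lo hi j : ℝ) * z j := by linarith
      split_ifs at hrec with he he'
      · exact ih _ _ hrec (hz.update_lo (le_of_mul_le_mul_left key (by exact_mod_cast he)))
      · exact ih _ _ hrec (hz.update_hi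
          ((mul_le_mul_left_of_neg (by exact_mod_cast he' : (slope G v p lo hi j : ℝ) < 0)).1 key))

/-- The scale of the fixed point series. -/
def fxOne : ℕ := 2 ^ 64

/-- A lower bound of `fxOne * ∑ i < n, p ^ (k + 1 + i) / (k + 1 + i)` from a lower bound `t` of
`fxOne * p ^ (k + 1)`, for `p = a / b`. -/
def logSer (a b : ℕ) : ℕ → ℕ → ℕ → ℕ
  | 0, _, _ => 0
  | n + 1, k, t => t / (k + 1) + logSer a b n (k + 1) (t * a / b)

/-- A lower bound of `fxOne * ∑ i < n, x ^ (k + i) / (k + i)!` from a lower bound `t` of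
`fxOne * x ^ k / k !`, for `x = a / b`. -/
def expSer (a b : ℕ) : ℕ → ℕ → ℕ → ℕ
  | 0, _, _ => 0
  | n + 1, k, t => t + expSer a b n (k + 1) (t * a / (b * (k + 1)))

theorem logSer_le {a b : ℕ} {p : ℝ} (hp : p = (a : ℝ) / b) {c : ℝ} :
    ∀ n k t : ℕ, (t : ℝ) ≤ c * p ^ (k + 1) →
      (logSer a b n k t : ℝ) ≤ c * ∑ i ∈ range n, p ^ (k + 1 + i) / ((k : ℝ) + 1 + i)
  | 0, k, t, _ => by simp [logSer]
  | n + 1, k, t, ht => by
    have hp0 : 0 ≤ p := hp ▸ by positivity
    have h2 : (((t * a / b : ℕ) : ℕ) : ℝ) ≤ c * p ^ (k + 1 + 1) := by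
      refine (Nat.cast_div_le).trans ?_
      push_cast
      rw [mul_div_assoc, ← hp, pow_succ p (k + 1), ← mul_assoc]
      exact mul_le_mul_of_nonneg_right ht hp0
    have ih := logSer_le hp n (k + 1) (t * a / b) h2
    have h1 : (((t / (k + 1) : ℕ) : ℕ) : ℝ) ≤ c * p ^ (k + 1) / ((k : ℝ) + 1) := by
      refine (Nat.cast_div_le).trans ?_
      push_cast
      exact div_le_div_of_nonneg_right ht (by positivity)
    rw [sum_range_succ', mul_add, logSer]
    push_cast at ih ⊢
    refine le_trans (add_le_add h1 ih) (le_of_eq ?_)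
    rw [add_zero, add_zero, mul_div_assoc, add_comm]
    congr 1
    congr 1
    exact sum_congr rfl fun i _ => by rw [show k + 1 + 1 + i = k + 1 + (i + 1) by omega]; ring_nf

theorem expSer_le {a b : ℕ} {x : ℝ} (hx : x = (a : ℝ) / b) {c : ℝ} :
    ∀ n k t : ℕ, (t : ℝ) ≤ c * (x ^ k / (k.factorial : ℝ)) →
      (expSer a b n k t : ℝ) ≤ c * ∑ i ∈ range n, x ^ (k + i) / ((k + i).factorial : ℝ)
  | 0, k, t, _ => by simp [expSer]
  | n + 1, k, t, ht => by
    have hx0 : 0 ≤ x := hx ▸ by positivity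
    have h2 : (((t * a / (b * (k + 1)) : ℕ) : ℕ) : ℝ)
        ≤ c * (x ^ (k + 1) / ((k + 1).factorial : ℝ)) := by
      refine (Nat.cast_div_le).trans ?_
      have := mul_le_mul_of_nonneg_right ht
        (show (0 : ℝ) ≤ x / ((k : ℝ) + 1) from div_nonneg hx0 (by positivity))
      rw [hx] at this ⊢
      push_cast [Nat.factorial_succ]
      refine le_trans (le_of_eq ?_) (this.trans_eq ?_)
      · rw [div_div, mul_div_assoc]
      · rw [pow_succ]
        field_simp
    have ih := expSer_le hx n (k + 1) (t * a / (b * (k + 1))) h2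
    rw [sum_range_succ', mul_add, expSer]
    push_cast at ih ⊢
    refine le_trans (add_le_add ht ih) (le_of_eq ?_)
    rw [add_zero, add_comm]
    congr 1
    congr 1
    exact sum_congr rfl fun i _ => by rw [show k + 1 + i = k + (i + 1) by omega]

/-- Poisson offspring: tangents of slope `p` with `K` terms of the conjugate series, lower
bounds from `M` terms of the exponential series, both summed in fixed point. -/
noncomputable def genP (D : ℚ) (K M : ℕ) : GenBound where
  fn z := 1 - Real.exp (-z)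
  D := D
  up p := (1 - p, p - (1 - p) *
    ((logSer p.num.toNat p.den K 0 (fxOne * p.num.toNat / p.den) : ℕ) / (fxOne : ℕ)))
  upOk p := decide (0 ≤ p ∧ p < 1)
  low x := 1 - (fxOne : ℕ) / (expSer x.num.toNat x.den (M + 1) 0 fxOne : ℕ)

theorem cast_nonneg_rat {p : ℚ} (hp : 0 ≤ p) : (p : ℝ) = (p.num.toNat : ℝ) / (p.den : ℝ) := by
  have h : ((p.num.toNat : ℕ) : ℤ) = p.num := Int.toNat_of_nonneg (Rat.num_nonneg.2 hp)
  rw [Rat.cast_def]
  congr 1
  exact_mod_cast h.symm

theorem genP_valid (D : ℚ) (K M : ℕ) : (genP D K M).Valid where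
  up_spec p hp z _ _ := by
    simp only [genP, decide_eq_true_eq] at hp
    have hp0 : (0 : ℝ) ≤ p := by exact_mod_cast hp.1
    have hp1 : (p : ℝ) < 1 := by exact_mod_cast hp.2
    have h1 := hP_ge_tangent hp1 z
    have h2 := conj_le_series hp0 hp1 K
    have he := cast_nonneg_rat hp.1
    have h3 := logSer_le (c := ((fxOne : ℕ) : ℝ)) he K 0
      (fxOne * p.num.toNat / p.den) (by
        refine (Nat.cast_div_le).trans (le_of_eq ?_)
        rw [Nat.cast_mul, he, mul_div_assoc, zero_add, pow_one])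
    have hsum : ∑ i ∈ range K, (p : ℝ) ^ (0 + 1 + i) / ((0 : ℕ) + 1 + i : ℝ)
        = ∑ k ∈ range K, (p : ℝ) ^ (k + 1) / (k + 1) :=
      sum_congr rfl fun i _ => by rw [zero_add, add_comm 1 i, Nat.cast_zero, zero_add, add_comm 1 (i : ℝ)]
    rw [hsum] at h3
    have hc : (0 : ℝ) < ((fxOne : ℕ) : ℝ) := by rw [fxOne]; positivity
    have h4 : ((logSer p.num.toNat p.den K 0 (fxOne * p.num.toNat / p.den) : ℕ) : ℝ)
        / ((fxOne : ℕ) : ℝ) ≤ ∑ k ∈ range K, (p : ℝ) ^ (k + 1) / (k + 1) := by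
      exact (div_le_iff₀' hc).2 h3
    have h5 := mul_le_mul_of_nonneg_left h4 (show (0 : ℝ) ≤ 1 - p by linarith)
    simp only [genP, hP] at h1 ⊢
    push_cast
    linarith
  low_spec x hx _ := by
    have hx' : (0 : ℝ) ≤ x := by exact_mod_cast hx
    have h := Real.sum_le_exp_of_nonneg hx' (M + 1)
    have h3 := expSer_le (c := ((fxOne : ℕ) : ℝ)) (cast_nonneg_rat hx) (M + 1) 0 fxOne (by simp)
    simp only [zero_add] at h3
    have hc : (0 : ℝ) < ((fxOne : ℕ) : ℝ) := by rw [fxOne]; positivity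
    have hpos : (0 : ℝ) < ((expSer x.num.toNat x.den (M + 1) 0 fxOne : ℕ) : ℝ) := by
      have : fxOne ≤ expSer x.num.toNat x.den (M + 1) 0 fxOne := by
        rw [expSer]; exact Nat.le_add_right _ _
      exact hc.trans_le (by exact_mod_cast this)
    have key : Real.exp (-(x : ℝ))
        ≤ ((fxOne : ℕ) : ℝ) / ((expSer x.num.toNat x.den (M + 1) 0 fxOne : ℕ) : ℝ) := by
      rw [Real.exp_neg, le_div_iff₀ hpos, inv_mul_le_iff₀ (Real.exp_pos _), mul_comm]
      exact h3.trans (mul_le_mul_of_nonneg_left h hc.le)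
    simp only [genP]
    push_cast
    linarith
  concave a b z _ h1 h2 _ := by
    have h := hP_le_chord h1 h2
    simp only [genP, hP] at h ⊢
    linarith

/-- Regular trees: tangents at the rational point `p`. -/
noncomputable def genR (m : ℕ) : GenBound where
  fn z := 1 - (1 - z / m) ^ m
  D := m
  up p := (p ^ (m - 1), 1 + ((m : ℚ) - 1) * p ^ m - m * p ^ (m - 1))
  upOk p := decide (0 ≤ p)
  low x := 1 - (1 - x / m) ^ m

theorem genR_valid {m : ℕ} (hm : 1 ≤ m) : (genR m).Valid where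
  up_spec p hp z _ hz := by
    simp only [genR, decide_eq_true_eq] at hp
    have hz' : z ≤ (m : ℝ) := by simpa [genR] using hz
    have h := hR_ge_tangent (d := m) hm hz' (show (0 : ℝ) ≤ p by exact_mod_cast hp)
    simp only [genR, hR] at h ⊢
    push_cast
    linarith
  low_spec x _ _ := by
    simp only [genR]
    push_cast
    exact le_rfl
  concave a b z _ h1 h2 hb := by
    have hb' : b ≤ (m : ℝ) := by simpa [genR] using hb
    have h := hR_le_chord hm h1 h2 hb'
    simp only [genR, hR] at h ⊢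
    linarith

/-- A tree certificate and pointwise inequalities force the marked limit of an edge defect to be
small. -/
theorem exclude_of_tree (hG : G.Valid) {q : ℕ} {lam d : ℝ} {A : Fin n → Fin q → ℝ}
    (V : List (SVec n))
    (hpw : ∀ v ∈ V, PW q lam A (fun j => (v.c j : ℝ)) (fun j => (v.b j : ℝ) * d) (v.k : ℝ))
    {r : Fin n} {x0 : ℚ} (t : STree n)
    (hck : sCheck G V r x0 t (fun _ => 0) (fun _ => G.D) = true) (hd : 0 ≤ d)
    (hdD : d ≤ (G.D : ℝ)) {L y : Fin n → ℝ} (hL : ∀ j, L j = G.fn (d * y j))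
    (hy0 : ∀ j, 0 ≤ y j) (hy1 : ∀ j, y j ≤ 1)
    (H : ∀ c b : Fin n → ℝ, ∀ k : ℝ, PW q lam A c b k →
      0 ≤ (∑ j, (c j * L j + b j * y j)) + k) :
    d * y r ≤ x0 := by
  refine sCheck_sound hG (z := fun j => d * y j) (fun v hv => ?_) t _ _ hck fun j => ?_
  · refine (H _ _ _ (hpw v hv)).trans_eq ?_
    simp only [SVec.eval]
    congr 1
    exact sum_congr rfl fun j _ => by rw [hL j]; ring
  · exact ⟨le_rfl, by simpa using mul_nonneg hd (hy0 j),
      (mul_le_of_le_one_right hd (hy1 j)).trans hdD, le_rfl⟩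

/-- Nonreconstruction for Poisson offspring from a tree and the exclusion of small limits. -/
theorem tendsto_adv_poisson_of_tree {q : ℕ} {lam d : ℝ} (hq : q ≠ 0) (hd : 0 ≤ d)
    (hl : Tree.Adm q lam) {A : Fin n → Fin q → ℝ} (hA : ∀ j i, 0 ≤ A j i)
    (hA1 : ∀ j, ∑ i, A j i = 1) (V : List (SVec n))
    (hpw : ∀ v ∈ V, PW q lam A (fun j => (v.c j : ℝ)) (fun j => (v.b j : ℝ) * d) (v.k : ℝ))
    {r : Fin n} {K : ℝ} (hK : ∀ u : Fin q → ℝ, (∀ i, 0 ≤ u i) → ∑ i, u i = 1 →
      sqDev u ≤ K * phi (A r) (shrink lam u))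
    {D : ℚ} {Ks M : ℕ} {x0 : ℚ} (t : STree n)
    (hck : sCheck (genP D Ks M) V r x0 t (fun _ => 0) (fun _ => D) = true) (hdD : d ≤ (D : ℝ))
    (hsmall : ∀ L y : Fin n → ℝ, (∀ j, L j = 1 - Real.exp (-(d * y j))) → (∀ j, 0 ≤ y j) →
      (∀ j, y j ≤ 1) → d * y r ≤ x0 →
      (∀ c b : Fin n → ℝ, ∀ k : ℝ, PW q lam A c b k →
        0 ≤ (∑ j, (c j * L j + b j * y j)) + k) → y r = 0) :
    Filter.Tendsto (Tree.adv q (Tree.poissonLaw d) lam) Filter.atTop (nhds 0) :=
  tendsto_adv_poisson_of_exclude hq hd hl hA hA1 r hK fun L y hL hy0 hy1 H =>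
    hsmall L y hL hy0 hy1 (exclude_of_tree (G := genP D Ks M) (genP_valid D Ks M) V hpw t hck
      hd hdD hL hy0 hy1 H) H

/-- Nonreconstruction on the regular tree from a tree and the exclusion of small limits. -/
theorem tendsto_adv_regular_of_tree {q m : ℕ} {lam : ℝ} (hq : q ≠ 0) (hm : 1 ≤ m)
    (hl : Tree.Adm q lam) {A : Fin n → Fin q → ℝ} (hA : ∀ j i, 0 ≤ A j i)
    (hA1 : ∀ j, ∑ i, A j i = 1) (V : List (SVec n))
    (hpw : ∀ v ∈ V, PW q lam A (fun j => (v.c j : ℝ)) (fun j => (v.b j : ℝ) * m) (v.k : ℝ))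
    {r : Fin n} {K : ℝ} (hK : ∀ u : Fin q → ℝ, (∀ i, 0 ≤ u i) → ∑ i, u i = 1 →
      sqDev u ≤ K * phi (A r) (shrink lam u))
    {x0 : ℚ} (t : STree n)
    (hck : sCheck (genR m) V r x0 t (fun _ => 0) (fun _ => (m : ℚ)) = true)
    (hsmall : ∀ L y : Fin n → ℝ, (∀ j, L j = 1 - (1 - y j) ^ m) → (∀ j, 0 ≤ y j) →
      (∀ j, y j ≤ 1) → (m : ℝ) * y r ≤ x0 →
      (∀ c b : Fin n → ℝ, ∀ k : ℝ, PW q lam A c b k →
        0 ≤ (∑ j, (c j * L j + b j * y j)) + k) → y r = 0) :
    Filter.Tendsto (Tree.adv q (Tree.regLaw m) lam) Filter.atTop (nhds 0) :=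
  tendsto_adv_regular_of_exclude hq m hl hA hA1 r hK fun L y hL hy0 hy1 H =>
    hsmall L y hL hy0 hy1 (exclude_of_tree (G := genR m) (genR_valid hm) V hpw t hck
      (Nat.cast_nonneg m) (by simp [genR])
      (fun j => by
        have hm' : (m : ℝ) ≠ 0 := by exact_mod_cast (by omega : m ≠ 0)
        rw [hL j]
        simp [genR, hm'])
      hy0 hy1 H) H

end Vale.Agent.P154.Anti
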