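import Vale.Agent.P154.Anti.Window
import Vale.Agent.P154.Anti.BoxNode

/-!
# Nonreconstruction on a short window by domination from a supercritical point

For `a ≤ λ ≤ b < 0` with `d λ² = 1` and `1 ≤ D b²` the Poisson tree of mean `d` at `λ` is a
degradation of the tree of mean `D` at `a`. An exclusion tree at the point `(D, a)` therefore
bounds the limit of the marked defect, and a second tree on the window only has to treat the
values below that bound. Inequalities and checks are also padded by exponents of zero weight.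
-/

namespace Vale.Agent.P154.Anti

open Finset Filter Topology Box Vale.Agent.P154.Tree

section limits

variable {q : ℕ} {w : ℕ → ℝ} {d lam : ℝ} {J : Type} [Fintype J] {A : J → Fin q → ℝ}

/-- The limits of the defects exist, satisfy the exact recursion and every pointwise affine
inequality. -/
theorem exists_limit_system (hq : q ≠ 0) (hw : IsLaw w d) (hl : Adm q lam) {g : ℝ → ℝ}
    (hg : ∀ y, gen w y = g y) (hgc : Continuous g) (hA : ∀ j i, 0 ≤ A j i)
    (hA1 : ∀ j, ∑ i, A j i = 1) :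
    ∃ L y : J → ℝ, (∀ j, L j = g (y j)) ∧ (∀ j, 0 ≤ y j) ∧ (∀ j, y j ≤ 1) ∧
      (∀ j, Tendsto (fun n => mean (fun u => phi (A j) (shrink lam u)) (lik q w lam n)) atTop
        (𝓝 (y j))) ∧
      ∀ c b : J → ℝ, ∀ k : ℝ, PW q lam A c b k → 0 ≤ (∑ j, (c j * L j + b j * y j)) + k := by
  choose L hL using fun j => exists_limit_phi (hA j) (hA1 j) hw hl
  choose y hy0 hy1 hy using fun j => exists_limit_phi_edge (hA j) (hA1 j) hw hl
  have hYc := fun n => isChan_lik (q := q) hw hl n
  refine ⟨L, y, fun j => ?_, hy0, hy1, hy, fun c b k hpw => ?_⟩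
  · refine tendsto_nhds_unique ((hL j).comp (tendsto_add_atTop_nat 1))
      (((hgc.tendsto _).comp (hy j)).congr fun n => ?_)
    show g _ = mean (phi (A j)) (lik q w lam (n + 1))
    rw [← one_sub_Ma (hA j) (hA1 j) (hYc (n + 1)) (isSymm_lik w lam (n + 1)),
      one_sub_Ma_succ hw hl (hA j) (hA1 j) n,
      one_sub_Ma_edge (hA j) (hA1 j) hl (hYc n) (isSymm_lik w lam n), hg]
  · have hsum : ∀ j, Bdd fun u => c j * phi (A j) u + b j * phi (A j) (shrink lam u) := fun j =>
      bdd_add (bdd_mul (bdd_const _) (bdd_phi (hA j) (hA1 j)))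
        (bdd_mul (bdd_const _) (bdd_phi_shrink (hA j) (hA1 j) hl))
    refine ge_of_tendsto' ((tendsto_finsetSum _ fun j _ =>
      ((hL j).const_mul (c j)).add ((hy j).const_mul (b j))).add_const k) fun n => ?_
    have h := mean_nonneg (hYc n) (bdd_add (bdd_sum univ hsum) (bdd_const k)) hpw
    rw [mean_add (hYc n) (bdd_sum univ hsum) (bdd_const k), mean_const (hYc n) hq,
      mean_sum (hYc n) univ hsum] at h
    refine h.trans_eq (congrArg (· + k) (sum_congr rfl fun j _ => ?_))
    rw [mean_add (hYc n) (bdd_mul (bdd_const _) (bdd_phi (hA j) (hA1 j)))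
      (bdd_mul (bdd_const _) (bdd_phi_shrink (hA j) (hA1 j) hl)), mean_const_mul, mean_const_mul]

/-- A vanishing limit of a defect after the edge gives nonreconstruction. -/
theorem tendsto_adv_of_limit_zero (hw : IsLaw w d) (hl : Adm q lam) {a : Fin q → ℝ}
    (ha : ∀ i, 0 ≤ a i) (ha1 : ∑ i, a i = 1) {K : ℝ}
    (hK : ∀ u : Fin q → ℝ, (∀ i, 0 ≤ u i) → ∑ i, u i = 1 → sqDev u ≤ K * phi a (shrink lam u))
    (h0 : Tendsto (fun n => mean (fun u => phi a (shrink lam u)) (lik q w lam n)) atTop (𝓝 0)) :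
    Tendsto (adv q w lam) atTop (𝓝 0) := by
  have hYc := fun n => isChan_lik (q := q) hw hl n
  have hS : Tendsto (fun n => mean sqDev (lik q w lam n)) atTop (𝓝 0) := by
    refine squeeze_zero (fun n => mean_nonneg (hYc n) bdd_sqDev fun u _ _ =>
      sum_nonneg fun i _ => sq_nonneg _) (fun n => ?_) (by simpa using h0.const_mul K)
    refine (mean_le (hYc n) bdd_sqDev (bdd_mul (bdd_const K) (bdd_phi_shrink ha ha1 hl))
      hK).trans_eq ?_
    exact mean_const_mul _ _ _
  refine tendsto_adv_of_total_SS hw hl ?_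
  have hq' : (q : ℝ) ≠ 0 := by exact_mod_cast q_pos ha1
  refine ((hS.const_mul (q : ℝ)).congr fun n => ?_).trans (le_of_eq (by simp))
  rw [mean_sqDev]
  field_simp

/-- The mean defect after an edge grows with the mean degree and with the modulus of the edge
parameter. -/
theorem mean_phi_edge_le {a : Fin q → ℝ} (ha : ∀ i, 0 ≤ a i) (ha1 : ∑ i, a i = 1) {c D e : ℝ}
    (hl : Adm q e) (hd : 0 ≤ d) (hdD : d ≤ D) (hc0 : 0 ≤ c) (hc1 : c ≤ 1) (n : ℕ) :
    mean (fun u => phi a (shrink (c * e) u)) (lik q (poissonLaw d) (c * e) n)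
      ≤ mean (fun u => phi a (shrink e u)) (lik q (poissonLaw D) e n) := by
  have hq := q_pos ha1
  have hD : 0 ≤ D := hd.trans hdD
  obtain ⟨p, hp0, hp1, rfl⟩ : ∃ p, 0 ≤ p ∧ p ≤ 1 ∧ d = p * D := by
    rcases eq_or_lt_of_le hD with hz | hz
    · exact ⟨1, zero_le_one, le_rfl, by linarith⟩
    · exact ⟨d / D, div_nonneg hd hD, (div_le_one hz).2 hdD, (div_mul_cancel₀ d hz.ne').symm⟩
  have hce := adm_mul hl hc0 hc1
  have hwd := isLaw_poissonLaw (mul_nonneg hp0 hD)
  have hwD := isLaw_poissonLaw hD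
  have X0 := isChan_lik (q := q) hwd hce n
  have X1 := isChan_lik (q := q) hwd hl n
  have X2 := isChan_lik (q := q) hwD hl n
  have h1 := Deg.edge (deg_lik hq hwd hl hc0 hc1 n) hq X0 X1 hl hc0 hc1
  have h2 := Deg.edge (c := 1) (deg_thin hl hq hD hp0 hp1 n) hq X1 X2 hl zero_le_one le_rfl
  rw [one_mul] at h2
  have m1 := Ma_le_of_deg ha ha1 h1 (X0.edge' hce) (X1.edge' hl)
  have m2 := Ma_le_of_deg ha ha1 h2 (X1.edge' hl) (X2.edge' hl)
  rw [← one_sub_Ma_edge ha ha1 hce X0 (isSymm_lik _ _ n),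
    ← one_sub_Ma_edge ha ha1 hl X2 (isSymm_lik _ _ n)]
  linarith

end limits

variable {n : ℕ}

/-- Poisson offspring: nonreconstruction below the Kesten-Stigum bound on a window, given the
bound of the marked defect at a supercritical point. -/
theorem tendsto_adv_poisson_of_sliver {A : Fin n → Fin 3 → ℝ} (hA : ∀ j i, 0 ≤ A j i)
    (hA1 : ∀ j, ∑ i, A j i = 1) {r : Fin n} {m : ℝ} (hm : 0 < m) (hm0 : m ≤ A r 0)
    (hm1 : m ≤ A r 1) {a b : ℝ} (ha : -(1 / 2) ≤ a) (hab : a < b) (hb : b < 0)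
    {D th1 x0 : ℚ} (hD : 1 ≤ (D : ℝ) * b ^ 2) (hth : th1 ≤ D) {V1 : List (SVec n)}
    (hN : ∀ v ∈ V1, PW 3 a A (fun j => (v.c j : ℝ)) (fun j => (v.b j : ℝ) * (D : ℝ)) (v.k : ℝ))
    {K1 M1 : ℕ} (t1 : STree n)
    (hck1 : sCheck (genP D K1 M1) V1 r th1 t1 (fun _ => 0) (fun _ => D) = true)
    {V : List (SVec n)} (hW : WindowPW A V a b) {Ks M : ℕ} (t : STree n)
    (hck : sCheck (genP D Ks M) V r x0 t (fun _ => 0) (Function.update (fun _ => D) r th1) = true)
    (hsmall : ∀ d lam : ℝ, a ≤ lam → lam ≤ b → d * lam ^ 2 = 1 →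
      SmallExcl A (fun y => 1 - Real.exp (-(d * y))) r x0 lam d)
    {d mu : ℝ} (hd1 : 1 ≤ d * a ^ 2) (hd2 : d * b ^ 2 ≤ 1) (hmu : mu ≤ 0)
    (hks : d * mu ^ 2 ≤ 1) : Tendsto (adv 3 (poissonLaw d) mu) atTop (𝓝 0) := by
  obtain ⟨hl, l1, l2⟩ := crit_mem hab hb hd1 hd2
  set lam := -(1 / Real.sqrt d)
  have hd : 0 ≤ d := by
    by_contra hn
    nlinarith [mul_nonpos_of_nonpos_of_nonneg (le_of_lt (not_le.1 hn)) (sq_nonneg lam)]
  have hb2 : 0 < b ^ 2 := pow_two_pos_of_ne_zero hb.ne
  have hdD : d ≤ (D : ℝ) := le_of_mul_le_mul_right (hd2.trans hD) hb2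
  have hDpos : 0 ≤ (D : ℝ) := hd.trans hdD
  have ha0 : a < 0 := hab.trans hb
  have hadma : Adm 3 a := adm_three ha (by linarith)
  have hadm : Adm 3 lam := adm_three (ha.trans l1) (by linarith)
  -- the limits at the critical and at the supercritical point
  obtain ⟨L, y, hL, hy0, hy1, hy, H⟩ := exists_limit_system (q := 3) (by norm_num)
    (isLaw_poissonLaw hd) hadm (gen_poissonLaw d) (by fun_prop) hA hA1
  obtain ⟨L', y', hL', hy0', hy1', hy', H'⟩ := exists_limit_system (q := 3) (by norm_num)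
    (isLaw_poissonLaw hDpos) hadma (gen_poissonLaw (D : ℝ)) (by fun_prop) hA hA1
  have hth1 := exclude_of_tree (G := genP D K1 M1) (genP_valid D K1 M1) V1 hN t1 hck1
    hDpos le_rfl hL' hy0' hy1' H'
  have hc1 : lam / a ≤ 1 := by rw [div_le_one_of_neg ha0]; exact l1
  have hc0 : 0 ≤ lam / a := div_nonneg_of_nonpos (l2.trans hb.le) ha0.le
  have hyr : y r ≤ y' r := le_of_tendsto_of_tendsto' (hy r) (hy' r) fun k => by
    have h := mean_phi_edge_le (hA r) (hA1 r) hadma hd hdD hc0 hc1 k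
    rwa [div_mul_cancel₀ lam ha0.ne] at h
  have hyth : d * y r ≤ (th1 : ℝ) := (mul_le_mul hdD hyr (hy0 r) hDpos).trans hth1
  -- the window below the bound
  have hsc : d * y r ≤ (x0 : ℝ) := by
    refine sCheck_sound (genP_valid D Ks M) (z := fun j => d * y j) (fun v hv => ?_) t _ _ hck
      fun j => ?_
    · refine (H _ _ _ (hW.pw hA hA1 ha hab hb l1 l2 hl v hv)).trans_eq ?_
      simp only [SVec.eval]
      congr 1
      refine sum_congr rfl fun j _ => ?_
      rw [hL j]
      show _ = _ * (1 - Real.exp (-(d * y j))) + _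
      ring
    · rcases eq_or_ne j r with rfl | hj
      · simp only [Function.update_self]
        exact ⟨le_rfl, by simpa using mul_nonneg hd (hy0 j), hyth, hth⟩
      · simp only [Function.update_of_ne hj]
        exact ⟨le_rfl, by simpa using mul_nonneg hd (hy0 j),
          (mul_le_of_le_one_right hd (hy1 j)).trans hdD, le_rfl⟩
  have hzero := hsmall d lam l1 l2 hl L y hL hy0 hy1 hsc H
  have hlim := tendsto_adv_of_limit_zero (isLaw_poissonLaw hd) hadm (hA r) (hA1 r)
    (fun u u0 u1 => sqDev_le_phi_shrink (hA r) (hA1 r) hm hm0 hm1 (ha.trans l1) l2 hb u0 u1)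
    (hzero ▸ hy r)
  refine tendsto_adv_of_abs_le (isLaw_poissonLaw hd) hadm
    (mul_nonneg_of_nonpos_of_nonpos hmu (l2.trans hb.le)) ?_ hlim
  rw [← sq_le_sq]
  nlinarith

/-! ## The check at the supercritical point -/

/-- The terms of an inequality at one parameter, the weights after the edge scaled by `D`. -/
def domTerms (E : Fin n → N3) (v : SVec n) (e D : ℚ) : List NTerm :=
  (List.finRange n).flatMap fun j => [⟨E j, 1, v.c j⟩, ⟨E j, e, v.b j * D⟩]

/-- The check at the supercritical point: each vector is read off one checked vector. -/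
def domCheck (C : Cfg) (E : Fin n → N3) (e D : ℚ) : List (SVec n) → List WData → Bool
  | [], _ => true
  | _ :: _, [] => false
  | v :: vs, w :: ws =>
    nodeOk C w.ia w.Ma (domTerms E v e D) v.k && domCheck C E e D vs ws

theorem sum_domTerms (E : Fin n → N3) (v : SVec n) (e D : ℚ) (u : Fin 3 → ℝ) :
    ((domTerms E v e D).map fun t => t.val u).sum
      = ∑ j, ((v.c j : ℝ) * phi (expo3 (E j)) u
          + (v.b j : ℝ) * (D : ℝ) * phi (expo3 (E j)) (shrink (e : ℝ) u)) := by
  rw [domTerms, List.map_flatMap, List.flatMap_def, List.sum_flatten, List.map_map,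
    Fin.sum_univ_def]
  refine congrArg List.sum (List.map_congr_left fun j _ => ?_)
  have h1 : shrink (((1 : ℚ) : ℝ)) u = u := funext fun i => by simp [shrink]
  simp only [Function.comp_apply, List.map_cons, List.map_nil, List.sum_cons, List.sum_nil,
    NTerm.val, h1]
  push_cast
  ring

/-- Soundness of the check at the supercritical point. -/
theorem pw_of_domCheck {C : Cfg} (hT : Nonneg C) (hb : basisOk C = true)
    (E : Fin n → N3) (e D : ℚ) :
    ∀ (V : List (SVec n)) (W : List WData), domCheck C E e D V W = true → ∀ v ∈ V,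
      PW 3 (e : ℝ) (fun j => expo3 (E j)) (fun j => (v.c j : ℝ)) (fun j => (v.b j : ℝ) * (D : ℝ))
        v.k
  | [], _, _ => fun v hv => absurd hv List.not_mem_nil
  | _ :: _, [], h => by simp [domCheck] at h
  | v :: vs, w :: ws, h => by
    simp only [domCheck, Bool.and_eq_true] at h
    intro v' hv'
    rcases List.mem_cons.1 hv' with rfl | hv'
    · intro u u0 u1
      exact (nodeOk_sound hT hb h.1 u0 u1).trans_eq (congrArg (· + _) (sum_domTerms E v' e D u))
    · exact pw_of_domCheck hT hb E e D vs ws h.2 v' hv'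

/-! ## Exponents of zero weight -/

variable {m : ℕ} {q : ℕ}

/-- A vector padded by zero coefficients. -/
def SVec.pad (m : ℕ) (v : SVec n) : SVec (n + m) :=
  ⟨Fin.append v.c fun _ => 0, Fin.append v.b fun _ => 0, v.k⟩

theorem pw_pad {lam : ℝ} {A : Fin n → Fin q → ℝ} {A' : Fin (n + m) → Fin q → ℝ}
    (hA' : ∀ j, A' (Fin.castAdd m j) = A j) {v : SVec n} {D : ℝ}
    (h : PW q lam A (fun j => (v.c j : ℝ)) (fun j => (v.b j : ℝ) * D) v.k) :
    PW q lam A' (fun j => ((v.pad m).c j : ℝ)) (fun j => ((v.pad m).b j : ℝ) * D) (v.pad m).k := by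
  intro u u0 u1
  refine (h u u0 u1).trans_eq ?_
  simp [SVec.pad, Fin.sum_univ_add, hA']

theorem WindowPW.pad {A : Fin n → Fin 3 → ℝ} {A' : Fin (n + m) → Fin 3 → ℝ}
    (hA' : ∀ j, A' (Fin.castAdd m j) = A j) {V : List (SVec n)} {a b : ℝ}
    (hW : WindowPW A V a b) : WindowPW A' (V.map (SVec.pad m)) a b := by
  intro v' hv'
  obtain ⟨v, hv, rfl⟩ := List.mem_map.1 hv'
  obtain ⟨p, r, hpr, hout, Ha, Hb⟩ := hW v hv
  refine ⟨p, r, hpr, hout, fun u u0 u1 => (Ha u u0 u1).trans_eq ?_,
    fun u u0 u1 => (Hb u u0 u1).trans_eq ?_⟩ <;>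
    simp [SVec.pad, Fin.sum_univ_add, hA', nodeBound]

end Vale.Agent.P154.Anti
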