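import Vale.Agent.P154.Anti.SmallExprs

/-!
# The kernel checks for small limits
-/

namespace Vale.Agent.P154.Anti.SmallX

open Vale.Agent.P154.Q3

/-- The coordinates of a sorted triple. -/
def oneTriple : Ex :=
  upOneH Ex.num (Ex.var 2 + Ex.var 1 + Ex.var 0) (Ex.var 2 + Ex.var 1) (Ex.var 2)

/-- Sorted triples with `5 b₂ ≤ 4 (b₁ - b₂)`. -/
def twoTripleLe : Ex :=
  upTwoH Ex.num (Ex.num 9 * Ex.var 2 + Ex.var 1 + Ex.var 0) (Ex.num 9 * Ex.var 2 + Ex.var 1)
    (Ex.num 4 * Ex.var 2)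

/-- Sorted triples with `4 (b₁ - b₂) ≤ 5 b₂`. -/
def twoTripleGe : Ex :=
  upTwoH Ex.num (Ex.var 2 + Ex.num 9 * Ex.var 1 + Ex.var 0) (Ex.var 2 + Ex.num 9 * Ex.var 1)
    (Ex.var 2 + Ex.num 4 * Ex.var 1)

/-- Sorted triples with `b₂ ≤ 2 (b₁ - b₂)`. -/
def ratioTripleLe : Ex :=
  ratioH Ex.num (Ex.num 3 * Ex.var 2 + Ex.var 1 + Ex.var 0) (Ex.num 3 * Ex.var 2 + Ex.var 1)
    (Ex.num 2 * Ex.var 2)

/-- Sorted triples with `2 (b₁ - b₂) ≤ b₂`. -/
def ratioTripleGe : Ex :=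
  ratioH Ex.num (Ex.var 2 + Ex.num 3 * Ex.var 1 + Ex.var 0) (Ex.var 2 + Ex.num 3 * Ex.var 1)
    (Ex.var 2 + Ex.num 2 * Ex.var 1)

/-- The coordinates of a sorted triple. -/
def belowTriple : Ex :=
  belowH Ex.num (Ex.var 2 + Ex.var 1 + Ex.var 0) (Ex.var 2 + Ex.var 1) (Ex.var 2)

/-- A box of the vectors after an edge. -/
def downBox (a₀ a₁ m q₀ q₁ : ℤ) : Ex :=
  downH Ex.num ((Ex.num a₀ * Ex.var 0 + Ex.num a₁ * Ex.var 1) * (Ex.var 3 + Ex.var 4))
    (Ex.num m * ((Ex.var 0 + Ex.var 1) * (Ex.var 3 + Ex.var 4)))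
    ((Ex.var 0 + Ex.var 1) * (Ex.num q₀ * Ex.var 3 + Ex.num q₁ * Ex.var 4))

theorem cert_one : check 97 49 1 12 oneTriple = true := by decide +kernel
theorem cert_two_le : check 100 25 1 10 twoTripleLe = true := by decide +kernel
theorem cert_two_ge : check 100 25 1 10 twoTripleGe = true := by decide +kernel
theorem cert_ratio_le : check 40 7 1 6 ratioTripleLe = true := by decide +kernel
theorem cert_ratio_ge : check 40 7 1 6 ratioTripleGe = true := by decide +kernel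
theorem cert_below : check 40 7 1 6 belowTriple = true := by decide +kernel
theorem cert_down_low : check 306 37 37 16 (downBox 60 62 60 35 48) = true := by decide +kernel
theorem cert_down_mid : check 271 37 37 16 (downBox 30 32 30 24 27) = true := by decide +kernel
theorem cert_down_high : check 300 37 37 16 (downBox 50 56 50 45 50) = true := by decide +kernel

end Vale.Agent.P154.Anti.SmallX
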