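import Vale.Agent.P154.Q3.Kron

/-!
# The polynomials of the certificate for small limits

In the sixth roots `b` of a probability vector the combination `110 φ₁ + 86 φ₂ - 121 φ₀` of the
defects at the exponents `(3,3,0)/6`, `(4,1,1)/6`, `(2,2,2)/6` and the squared deviation are
polynomials. The three forms below compare them.
-/

namespace Vale.Agent.P154.Anti.SmallX

open Vale.Agent.P154.Q3

section Hom

variable {R : Type} [Add R] [Mul R] [Sub R] (k : ℤ → R)

/-- The square. -/
def sqH (a : R) : R := a * a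
/-- The third power. -/
def cuH (a : R) : R := a * (a * a)
/-- The sum of the sixth powers. -/
def massH (a b c : R) : R := sqH (cuH a) + sqH (cuH b) + sqH (cuH c)
/-- Twice the squared deviation, homogenised to degree twelve. -/
def devH (a b c : R) : R :=
  k 3 * (sqH (sqH (cuH a)) + sqH (sqH (cuH b)) + sqH (sqH (cuH c))) - sqH (massH a b c)
/-- The combination of the defects, homogenised to degree six. -/
def psiH (a b c : R) : R :=
  k 130 * massH a b c + k 363 * sqH (a * (b * c))
    - k 55 * sqH (cuH a + cuH b + cuH c)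
    - k 86 * ((a * (b * c)) * (cuH a + cuH b + cuH c))

/-- The combination is at least `26 A + 9 A² - 130 A⁴`. -/
def upOneH (a b c : R) : R :=
  k 160 * (psiH k a b c * (sqH (sqH (massH a b c)) * (sqH (massH a b c) * massH a b c)))
    - k 2080 * (devH k a b c * (sqH (sqH (massH a b c)) * sqH (massH a b c)))
    - k 360 * (sqH (devH k a b c) * sqH (sqH (massH a b c)))
    + k 1300 * sqH (sqH (devH k a b c))

/-- The combination is at least `26 A + 16/5 A²`. -/
def upTwoH (a b c : R) : R :=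
  k 20 * (psiH k a b c * (sqH (massH a b c) * massH a b c))
    - k 260 * (devH k a b c * sqH (massH a b c)) - k 16 * sqH (devH k a b c)

/-- The combination is at most `26 A + 19/2 A² + 7 A³`. -/
def downH (a b c : R) : R :=
  k 208 * (devH k a b c * sqH (sqH (massH a b c)))
    + k 38 * (sqH (devH k a b c) * sqH (massH a b c)) + k 14 * cuH (devH k a b c)
    - k 16 * (psiH k a b c * (sqH (sqH (massH a b c)) * massH a b c))

/-- Twice the defect at `(5,1,0)/6`, homogenised. -/
def fiveH (a b c : R) : R :=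
  k 2 * massH a b c
    - (sqH (sqH a) * a * (b + c) + sqH (sqH b) * b * (c + a) + sqH (sqH c) * c * (a + b))
/-- The defect at `(2,2,2)/6`, homogenised. -/
def eqH (a b c : R) : R := massH a b c - k 3 * sqH (a * (b * c))
/-- The defect at `(2,2,2)/6` is at most `66/25` times that at `(5,1,0)/6`. -/
def ratioH (a b c : R) : R := k 264 * fiveH k a b c - k 200 * eqH k a b c
/-- The defect at `(5,1,0)/6` is at most that at `(2,2,2)/6`. -/
def belowH (a b c : R) : R := k 2 * eqH k a b c - fiveH k a b c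

end Hom

theorem ev_psiH (x : Fin 6 → ℝ) (a b c : Ex) :
    Ex.ev x (psiH Ex.num a b c) = psiH (fun z : ℤ => (z : ℝ)) (Ex.ev x a) (Ex.ev x b) (Ex.ev x c) := by
  simp [psiH, massH, sqH, cuH]

theorem ev_devH (x : Fin 6 → ℝ) (a b c : Ex) :
    Ex.ev x (devH Ex.num a b c) = devH (fun z : ℤ => (z : ℝ)) (Ex.ev x a) (Ex.ev x b) (Ex.ev x c) := by
  simp [devH, massH, sqH, cuH]

theorem ev_massH (x : Fin 6 → ℝ) (a b c : Ex) :
    Ex.ev x (massH a b c) = massH (Ex.ev x a) (Ex.ev x b) (Ex.ev x c) := by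
  simp [massH, sqH, cuH]

theorem ev_upOneH (x : Fin 6 → ℝ) (a b c : Ex) :
    Ex.ev x (upOneH Ex.num a b c) = upOneH (fun z : ℤ => (z : ℝ)) (Ex.ev x a) (Ex.ev x b) (Ex.ev x c) := by
  simp [upOneH, ev_psiH, ev_devH, ev_massH, sqH]

theorem ev_upTwoH (x : Fin 6 → ℝ) (a b c : Ex) :
    Ex.ev x (upTwoH Ex.num a b c) = upTwoH (fun z : ℤ => (z : ℝ)) (Ex.ev x a) (Ex.ev x b) (Ex.ev x c) := by
  simp [upTwoH, ev_psiH, ev_devH, ev_massH, sqH]

theorem ev_downH (x : Fin 6 → ℝ) (a b c : Ex) :
    Ex.ev x (downH Ex.num a b c) = downH (fun z : ℤ => (z : ℝ)) (Ex.ev x a) (Ex.ev x b) (Ex.ev x c) := by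
  simp [downH, ev_psiH, ev_devH, ev_massH, sqH, cuH]

theorem ev_ratioH (x : Fin 6 → ℝ) (a b c : Ex) :
    Ex.ev x (ratioH Ex.num a b c)
      = ratioH (fun z : ℤ => (z : ℝ)) (Ex.ev x a) (Ex.ev x b) (Ex.ev x c) := by
  simp [ratioH, fiveH, eqH, massH, sqH, cuH]

theorem ev_belowH (x : Fin 6 → ℝ) (a b c : Ex) :
    Ex.ev x (belowH Ex.num a b c)
      = belowH (fun z : ℤ => (z : ℝ)) (Ex.ev x a) (Ex.ev x b) (Ex.ev x c) := by
  simp [belowH, fiveH, eqH, massH, sqH, cuH]

end Vale.Agent.P154.Anti.SmallX
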