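import Vale.Agent.P154.Anti.SmallHalfExprs

/-!
# The kernel checks for small limits at the Kesten-Stigum end
-/

namespace Vale.Agent.P154.Anti.SmallHalf

open Vale.Agent.P154.Q3

/-- Sorted triples with `5 b₂ ≤ 4 (b₁ - b₂)`. -/
def sectorLe (f : Ex → Ex → Ex → Ex) : Ex :=
  f (Ex.num 9 * Ex.var 2 + Ex.var 1 + Ex.var 0) (Ex.num 9 * Ex.var 2 + Ex.var 1)
    (Ex.num 4 * Ex.var 2)

/-- Sorted triples with `4 (b₁ - b₂) ≤ 5 b₂`. -/
def sectorGe (f : Ex → Ex → Ex → Ex) : Ex :=
  f (Ex.var 2 + Ex.num 9 * Ex.var 1 + Ex.var 0) (Ex.var 2 + Ex.num 9 * Ex.var 1)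
    (Ex.var 2 + Ex.num 4 * Ex.var 1)

/-- A box of ratios over fifty. -/
def ratioBox (f : Ex → Ex → Ex → Ex) (a₀ a₁ q₀ q₁ : ℤ) : Ex :=
  f ((Ex.num a₀ * Ex.var 0 + Ex.num a₁ * Ex.var 1) * (Ex.var 3 + Ex.var 4))
    (Ex.num 50 * ((Ex.var 0 + Ex.var 1) * (Ex.var 3 + Ex.var 4)))
    ((Ex.var 0 + Ex.var 1) * (Ex.num q₀ * Ex.var 3 + Ex.num q₁ * Ex.var 4))

/-- The boxes that cover the vectors after an edge away from the boundary. -/
def boxes : List (ℤ × ℤ × ℤ × ℤ) :=
  [(50, 51, 24, 30), (50, 52, 30, 40), (50, 54, 40, 45), (50, 56, 45, 48), (50, 54, 48, 49),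
    (54, 57, 48, 49), (50, 57, 49, 50)]

/-- The check on all boxes. -/
def boxesOk (K D dep : ℕ) (f : Ex → Ex → Ex → Ex) : Bool :=
  boxes.all fun q => check K D D dep (ratioBox f q.1 q.2.1 q.2.2.1 q.2.2.2)

theorem cert_one_le : check 196 49 1 12 (sectorLe (upOneH Ex.num)) = true := by decide +kernel
theorem cert_one_ge : check 196 49 1 12 (sectorGe (upOneH Ex.num)) = true := by decide +kernel
theorem cert_two_le : check 106 25 1 10 (sectorLe (upTwoH Ex.num)) = true := by decide +kernel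
theorem cert_two_ge : check 106 25 1 10 (sectorGe (upTwoH Ex.num)) = true := by decide +kernel
theorem cert_down : boxesOk 310 37 16 (downH Ex.num) = true := by decide +kernel
theorem cert_edgeP : boxesOk 213 25 14 (edgePH Ex.num) = true := by decide +kernel
theorem cert_edgeR : boxesOk 310 37 16 (edgeRH Ex.num) = true := by decide +kernel
theorem cert_corner : check 168 19 19 13 (ratioBox (cornerH Ex.num) 50 51 0 24) = true := by
  decide +kernel
theorem cert_cornerZero : check 168 19 19 13 (ratioBox (cornerZeroH Ex.num) 50 51 0 24) = true := by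
  decide +kernel

end Vale.Agent.P154.Anti.SmallHalf
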