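import Vale.Agent.P154.Anti.SmallExprs

/-!
# The polynomials of the certificate for small limits at the Kesten-Stigum end

For `λ` in `[-1/2, -47/100]` the combination of defects at the exponents `(3,3,0)/6`,
`(4,1,1)/6`, `(5,1,0)/6`, `(2,2,2)/6` with weights `112, 73, 25, -121` replaces the one of
`SmallExprs`. The forms below compare it and a second combination with the squared deviation.
-/

namespace Vale.Agent.P154.Anti.SmallHalf

open Vale.Agent.P154.Q3 Vale.Agent.P154.Anti.SmallX

section Hom

variable {R : Type} [Add R] [Mul R] [Sub R] (k : ℤ → R)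

/-- Twice the combination of the defects with weights `kS, kT, kP, -kX`, homogenised. -/
def combH (kS kT kP kX : ℤ) (a b c : R) : R :=
  k (2 * kS + 2 * kT + 2 * kP - 2 * kX) * massH a b c + k (6 * kX) * sqH (a * (b * c))
    - k kS * (sqH (cuH a + cuH b + cuH c) - massH a b c)
    - k (2 * kT) * ((a * (b * c)) * (cuH a + cuH b + cuH c))
    - k kP * ((sqH (sqH a) * a) * (b + c) + (sqH (sqH b) * b) * (c + a)
      + (sqH (sqH c) * c) * (a + b))

/-- Twice the main combination. -/
def mainH (a b c : R) : R := combH k 112 73 25 121 a b c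
/-- Twice the combination at the edge. -/
def edgeH (a b c : R) : R := combH k 8288 5402 1025 11990 a b c

/-- The main combination is at least `169/6 A + 1001/100 A² - 85 A⁴`. -/
def upOneH (a b c : R) : R :=
  k 600 * (mainH k a b c * (sqH (sqH (massH a b c)) * (sqH (massH a b c) * massH a b c)))
    - k 16900 * (devH k a b c * (sqH (sqH (massH a b c)) * sqH (massH a b c)))
    - k 3003 * (sqH (devH k a b c) * sqH (sqH (massH a b c)))
    + k 6375 * sqH (sqH (devH k a b c))

/-- The main combination is at least `169/6 A + 73/15 A²`. -/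
def upTwoH (a b c : R) : R :=
  k 30 * (mainH k a b c * (sqH (massH a b c) * massH a b c))
    - k 845 * (devH k a b c * sqH (massH a b c)) - k 73 * sqH (devH k a b c)

/-- The main combination is at most `169/6 A + 258/25 A² + 61/5 A³`. -/
def downH (a b c : R) : R :=
  k 8450 * (devH k a b c * sqH (sqH (massH a b c)))
    + k 1548 * (sqH (devH k a b c) * sqH (massH a b c)) + k 915 * cuH (devH k a b c)
    - k 300 * (mainH k a b c * (sqH (sqH (massH a b c)) * massH a b c))

/-- The bound of the combination at the edge for Poisson offspring. -/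
def edgePH (a b c : R) : R :=
  edgeH k a b c * (sqH (massH a b c) * massH a b c)
    + k 1347 * (devH k a b c * sqH (massH a b c)) + k 13200 * sqH (devH k a b c)

/-- The bound of the combination at the edge on the regular tree. -/
def edgeRH (a b c : R) : R :=
  edgeH k a b c * (sqH (sqH (massH a b c)) * massH a b c)
    + k 1422 * (devH k a b c * sqH (sqH (massH a b c)))
    + k 6200 * (sqH (devH k a b c) * sqH (massH a b c)) + k 11200 * cuH (devH k a b c)

/-- A lower bound of the main combination at a vector whose largest entry is nearly one. -/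
def vertexH (a b c : R) : R :=
  k 89 * massH a b c - k 46 * (c * (b * sqH (sqH b))) - k 118 * (sqH c * sqH (sqH b))
    - k 323 * (cuH c * cuH b) - k 240 * ((c * sqH (sqH c)) * b) - k 115 * sqH (cuH c)

/-- The comparison near the vertex. -/
def cornerH (a b c : R) : R :=
  k 1800 * (sqH (massH a b c - k 3 * sqH (cuH c)) * vertexH k a b c)
    - k 3600 * (mainH k a b c * sqH (massH a b c)) + edgeH k a b c * sqH (massH a b c)

/-- The comparison near the vertex without the mixed term. -/
def cornerZeroH (a b c : R) : R :=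
  k 1800 * (sqH (massH a b c - k 3 * sqH (cuH c)) * vertexH k a b c)
    - k 3600 * (mainH k a b c * sqH (massH a b c))

end Hom

theorem ev_combH (x : Fin 6 → ℝ) (kS kT kP kX : ℤ) (a b c : Ex) :
    Ex.ev x (combH Ex.num kS kT kP kX a b c)
      = combH (fun z : ℤ => (z : ℝ)) kS kT kP kX (Ex.ev x a) (Ex.ev x b) (Ex.ev x c) := by
  simp [combH, massH, sqH, cuH]

theorem ev_upOneH (x : Fin 6 → ℝ) (a b c : Ex) :
    Ex.ev x (upOneH Ex.num a b c)
      = upOneH (fun z : ℤ => (z : ℝ)) (Ex.ev x a) (Ex.ev x b) (Ex.ev x c) := by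
  simp [upOneH, mainH, ev_combH, ev_devH, ev_massH, sqH]

theorem ev_upTwoH (x : Fin 6 → ℝ) (a b c : Ex) :
    Ex.ev x (upTwoH Ex.num a b c)
      = upTwoH (fun z : ℤ => (z : ℝ)) (Ex.ev x a) (Ex.ev x b) (Ex.ev x c) := by
  simp [upTwoH, mainH, ev_combH, ev_devH, ev_massH, sqH]

theorem ev_downH (x : Fin 6 → ℝ) (a b c : Ex) :
    Ex.ev x (downH Ex.num a b c)
      = downH (fun z : ℤ => (z : ℝ)) (Ex.ev x a) (Ex.ev x b) (Ex.ev x c) := by
  simp [downH, mainH, ev_combH, ev_devH, ev_massH, sqH, cuH]

theorem ev_edgePH (x : Fin 6 → ℝ) (a b c : Ex) :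
    Ex.ev x (edgePH Ex.num a b c)
      = edgePH (fun z : ℤ => (z : ℝ)) (Ex.ev x a) (Ex.ev x b) (Ex.ev x c) := by
  simp [edgePH, edgeH, ev_combH, ev_devH, ev_massH, sqH]

theorem ev_edgeRH (x : Fin 6 → ℝ) (a b c : Ex) :
    Ex.ev x (edgeRH Ex.num a b c)
      = edgeRH (fun z : ℤ => (z : ℝ)) (Ex.ev x a) (Ex.ev x b) (Ex.ev x c) := by
  simp [edgeRH, edgeH, ev_combH, ev_devH, ev_massH, sqH, cuH]

theorem ev_cornerH (x : Fin 6 → ℝ) (a b c : Ex) :
    Ex.ev x (cornerH Ex.num a b c)
      = cornerH (fun z : ℤ => (z : ℝ)) (Ex.ev x a) (Ex.ev x b) (Ex.ev x c) := by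
  simp [cornerH, vertexH, mainH, edgeH, ev_combH, ev_massH, sqH, cuH]

theorem ev_cornerZeroH (x : Fin 6 → ℝ) (a b c : Ex) :
    Ex.ev x (cornerZeroH Ex.num a b c)
      = cornerZeroH (fun z : ℤ => (z : ℝ)) (Ex.ev x a) (Ex.ev x b) (Ex.ev x c) := by
  simp [cornerZeroH, vertexH, mainH, ev_combH, ev_massH, sqH, cuH]

end Vale.Agent.P154.Anti.SmallHalf
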