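import Vale.Agent.P154.Anti.SmallCerts
import Vale.Agent.P154.Anti.BoxTerm
import Vale.Agent.P154.Anti.Phi3
import Mathlib.Tactic

/-!
# Pointwise inequalities for small limits
-/

namespace Vale.Agent.P154.Anti.SmallX

open Finset Vale.Agent.P154.Tree Vale.Agent.P154.Q3

/-- The exponents `(2,2,2)/6`. -/
noncomputable def eX : Fin 3 → ℝ := Box.expo3 ⟨2, 2, 2⟩
/-- The exponents `(3,3,0)/6`. -/
noncomputable def eS : Fin 3 → ℝ := Box.expo3 ⟨3, 3, 0⟩
/-- The exponents `(4,1,1)/6`. -/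
noncomputable def eT : Fin 3 → ℝ := Box.expo3 ⟨4, 1, 1⟩
/-- The exponents `(5,1,0)/6`. -/
noncomputable def eP : Fin 3 → ℝ := Box.expo3 ⟨5, 1, 0⟩

/-- The combination of the three defects. -/
noncomputable def psi (u : Fin 3 → ℝ) : ℝ := 110 * phi eS u + 86 * phi eT u - 121 * phi eX u

/-- The normalised squared deviation. -/
noncomputable def dev (u : Fin 3 → ℝ) : ℝ := 3 / 2 * sqDev u

theorem psi_relabel (u : Fin 3 → ℝ) (s : Equiv.Perm (Fin 3)) :
    psi (fun i => u (s i)) = psi u := by simp [psi, phi_relabel]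

theorem dev_relabel (u : Fin 3 → ℝ) (s : Equiv.Perm (Fin 3)) :
    dev (fun i => u (s i)) = dev u := by simp [dev, sqDev_relabel]

/-- The sixth root. -/
noncomputable def root6 (x : ℝ) : ℝ := x ^ ((1 : ℝ) / 6)

theorem root6_nonneg {x : ℝ} (hx : 0 ≤ x) : 0 ≤ root6 x := Real.rpow_nonneg hx _

theorem root6_pow {x : ℝ} (hx : 0 ≤ x) (n : ℕ) : root6 x ^ n = x ^ ((n : ℝ) / 6) := by
  rw [root6, ← Real.rpow_natCast, ← Real.rpow_mul hx]
  congr 1
  ring

theorem root6_six {x : ℝ} (hx : 0 ≤ x) : root6 x ^ 6 = x := by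
  rw [root6_pow hx]; norm_num

variable {u : Fin 3 → ℝ} (h0 : ∀ i, 0 ≤ u i)

include h0 in
theorem phi_expo (n : Box.N3) (hn : n.n0 + n.n1 + n.n2 = 6) :
    phi (Box.expo3 n) u = 1 - 1 / 2 *
      (root6 (u 0) ^ n.n0 * root6 (u 1) ^ n.n1 * root6 (u 2) ^ n.n2
        + root6 (u 0) ^ n.n0 * root6 (u 1) ^ n.n2 * root6 (u 2) ^ n.n1
        + root6 (u 0) ^ n.n1 * root6 (u 1) ^ n.n0 * root6 (u 2) ^ n.n2
        + root6 (u 0) ^ n.n1 * root6 (u 1) ^ n.n2 * root6 (u 2) ^ n.n0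
        + root6 (u 0) ^ n.n2 * root6 (u 1) ^ n.n0 * root6 (u 2) ^ n.n1
        + root6 (u 0) ^ n.n2 * root6 (u 1) ^ n.n1 * root6 (u 2) ^ n.n0) := by
  rw [phi3_eq]
  simp [ex, Fin.prod_univ_three, Box.expo3_apply hn, Box.N3.fn, root6_pow (h0 _)]

variable (h1 : ∑ i, u i = 1)

include h0 h1 in
theorem forms :
    massH (root6 (u 0)) (root6 (u 1)) (root6 (u 2)) = 1 ∧
    devH (fun z : ℤ => (z : ℝ)) (root6 (u 0)) (root6 (u 1)) (root6 (u 2)) = 2 * dev u ∧
    psiH (fun z : ℤ => (z : ℝ)) (root6 (u 0)) (root6 (u 1)) (root6 (u 2)) = psi u ∧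
    eqH (fun z : ℤ => (z : ℝ)) (root6 (u 0)) (root6 (u 1)) (root6 (u 2)) = phi eX u ∧
    fiveH (fun z : ℤ => (z : ℝ)) (root6 (u 0)) (root6 (u 1)) (root6 (u 2)) = 2 * phi eP u := by
  have q : ∀ i, root6 (u i) ^ 6 = u i := fun i => root6_six (h0 i)
  have s : root6 (u 0) ^ 6 + root6 (u 1) ^ 6 + root6 (u 2) ^ 6 = 1 := by
    simpa [q, Fin.sum_univ_three] using h1
  have hd : dev u = 3 / 2 * ((root6 (u 0) ^ 6 - 1 / 3) ^ 2 + (root6 (u 1) ^ 6 - 1 / 3) ^ 2
      + (root6 (u 2) ^ 6 - 1 / 3) ^ 2) := by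
    simp [dev, sqDev, q, Fin.sum_univ_three]
  have pX := phi_expo h0 ⟨2, 2, 2⟩ rfl
  have pS := phi_expo h0 ⟨3, 3, 0⟩ rfl
  have pT := phi_expo h0 ⟨4, 1, 1⟩ rfl
  have pP := phi_expo h0 ⟨5, 1, 0⟩ rfl
  simp only at pX pS pT pP
  simp only [psi, eX, eS, eT, eP]
  rw [pX, pS, pT, pP, hd]
  generalize root6 (u 0) = a at s ⊢
  generalize root6 (u 1) = b at s ⊢
  generalize root6 (u 2) = c at s ⊢
  simp only [massH, devH, psiH, eqH, fiveH, sqH, cuH]
  push_cast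
  refine ⟨?_, ?_, ?_, ?_, ?_⟩
  · linear_combination s
  · linear_combination (-((a ^ 6 + b ^ 6 + c ^ 6) - 1)) * s
  · linear_combination (130 - 55) * s
  · linear_combination s
  · linear_combination (2 : ℝ) * s

/-- The sector coordinates of a triple. -/
def pt3 (x y z : ℝ) : Fin 6 → ℝ := ![x, y, z, 0, 0, 0]

theorem pt3_nonneg {x y z : ℝ} (hx : 0 ≤ x) (hy : 0 ≤ y) (hz : 0 ≤ z) :
    ∀ i, 0 ≤ pt3 x y z i := by
  intro i; fin_cases i <;> simp [pt3] <;> assumption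

section sorted

variable {a b c : ℝ} (hc : 0 ≤ c) (hcb : c ≤ b) (hba : b ≤ a)
include hc hcb hba

theorem one_nonneg : 0 ≤ upOneH (fun z : ℤ => (z : ℝ)) a b c := by
  have h := ev_nonneg_of_check cert_one (pt3 (a - b) (b - c) c)
    (pt3_nonneg (by linarith) (by linarith) hc)
  rw [oneTriple, ev_upOneH] at h
  simpa [pt3] using h

theorem two_nonneg : 0 ≤ upTwoH (fun z : ℤ => (z : ℝ)) a b c := by
  rcases le_total (5 * c) (4 * (b - c)) with h' | h'
  · have h := ev_nonneg_of_check cert_two_le (pt3 (a - b) (b - 9 / 4 * c) (c / 4))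
      (pt3_nonneg (by linarith) (by linarith) (by linarith))
    rw [twoTripleLe, ev_upTwoH] at h
    convert h using 2 <;> simp [pt3] <;> ring
  · have h := ev_nonneg_of_check cert_two_ge
      (pt3 (a - b) ((b - c) / 5) (c - 4 / 5 * (b - c)))
      (pt3_nonneg (by linarith) (by linarith) (by linarith))
    rw [twoTripleGe, ev_upTwoH] at h
    convert h using 2 <;> simp [pt3] <;> ring

theorem ratio_nonneg : 0 ≤ ratioH (fun z : ℤ => (z : ℝ)) a b c := by
  rcases le_total c (2 * (b - c)) with h' | h'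
  · have h := ev_nonneg_of_check cert_ratio_le (pt3 (a - b) (b - 3 / 2 * c) (c / 2))
      (pt3_nonneg (by linarith) (by linarith) (by linarith))
    rw [ratioTripleLe, ev_ratioH] at h
    convert h using 2 <;> simp [pt3] <;> ring
  · have h := ev_nonneg_of_check cert_ratio_ge (pt3 (a - b) (b - c) (c - 2 * (b - c)))
      (pt3_nonneg (by linarith) (by linarith) (by linarith))
    rw [ratioTripleGe, ev_ratioH] at h
    convert h using 2 <;> simp [pt3] <;> ring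

theorem below_nonneg : 0 ≤ belowH (fun z : ℤ => (z : ℝ)) a b c := by
  have h := ev_nonneg_of_check cert_below (pt3 (a - b) (b - c) c)
    (pt3_nonneg (by linarith) (by linarith) hc)
  rw [belowTriple, ev_belowH] at h
  simpa [pt3] using h

end sorted

theorem root6_sorted (h0 : ∀ i, 0 ≤ u i) (h21 : u 2 ≤ u 1) (h10 : u 1 ≤ u 0) :
    0 ≤ root6 (u 2) ∧ root6 (u 2) ≤ root6 (u 1) ∧ root6 (u 1) ≤ root6 (u 0) :=
  ⟨root6_nonneg (h0 2), Real.rpow_le_rpow (h0 2) h21 (by norm_num),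
    Real.rpow_le_rpow (h0 1) h10 (by norm_num)⟩

/-- The lower bound near the uniform vector. -/
theorem psi_ge_near (h0 : ∀ i, 0 ≤ u i) (h1 : ∑ i, u i = 1) :
    26 * dev u + 9 * dev u ^ 2 - 130 * dev u ^ 4 ≤ psi u := by
  refine sorted_cases (P := fun u => 26 * dev u + 9 * dev u ^ 2 - 130 * dev u ^ 4 ≤ psi u)
    (fun u s hu => by simpa [psi_relabel, dev_relabel] using hu) ?_ h0 h1
  intro u h0 h1 h21 h10
  obtain ⟨r0, r1, r2⟩ := root6_sorted h0 h21 h10
  have h := one_nonneg r0 r1 r2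
  obtain ⟨eS, eA, eP, -, -⟩ := forms h0 h1
  simp only [upOneH, sqH, eS, eA, eP] at h
  push_cast at h
  linarith

/-- The lower bound everywhere. -/
theorem psi_ge (h0 : ∀ i, 0 ≤ u i) (h1 : ∑ i, u i = 1) :
    26 * dev u + 16 / 5 * dev u ^ 2 ≤ psi u := by
  refine sorted_cases (P := fun u => 26 * dev u + 16 / 5 * dev u ^ 2 ≤ psi u)
    (fun u s hu => by simpa [psi_relabel, dev_relabel] using hu) ?_ h0 h1
  intro u h0 h1 h21 h10
  obtain ⟨r0, r1, r2⟩ := root6_sorted h0 h21 h10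
  have h := two_nonneg r0 r1 r2
  obtain ⟨eS, eA, eP, -, -⟩ := forms h0 h1
  simp only [upTwoH, sqH, eS, eA, eP] at h
  push_cast at h
  linarith

/-- The defect at `(2,2,2)/6` against that at `(5,1,0)/6`. -/
theorem eX_le_eP (h0 : ∀ i, 0 ≤ u i) (h1 : ∑ i, u i = 1) :
    phi eX u ≤ 66 / 25 * phi eP u ∧ phi eP u ≤ phi eX u := by
  refine sorted_cases (P := fun u => phi eX u ≤ 66 / 25 * phi eP u ∧ phi eP u ≤ phi eX u)
    (fun u s hu => by simpa [phi_relabel] using hu) ?_ h0 h1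
  intro u h0 h1 h21 h10
  obtain ⟨r0, r1, r2⟩ := root6_sorted h0 h21 h10
  have h := ratio_nonneg r0 r1 r2
  have h' := below_nonneg r0 r1 r2
  obtain ⟨-, -, -, eE, eF⟩ := forms h0 h1
  simp only [ratioH, eE, eF] at h
  simp only [belowH, eE, eF] at h'
  push_cast at h h'
  constructor <;> linarith

/-- The coordinates of a box. -/
noncomputable def ptBox (m a₁ q₀ q₁ a b c : ℝ) : Fin 6 → ℝ :=
  ![b / m - (a - b) / (a₁ - m), (a - b) / (a₁ - m), 0,
    1 - (m * c / b - q₀) / (q₁ - q₀), (m * c / b - q₀) / (q₁ - q₀), 0]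

theorem box_nonneg {K D1 D2 dep : ℕ} {m a₁ q₀ q₁ : ℤ}
    (hck : check K D1 D2 dep (downBox m a₁ m q₀ q₁) = true) (hm : 0 < m) (ha : m < a₁)
    (hq : q₀ < q₁) {a b c : ℝ} (hb : 0 < b) (hba : b ≤ a) (h1 : (m : ℝ) * a ≤ a₁ * b)
    (h2 : (q₀ : ℝ) * b ≤ m * c) (h3 : (m : ℝ) * c ≤ q₁ * b) :
    0 ≤ downH (fun z : ℤ => (z : ℝ)) a b c := by
  have hm' : (0 : ℝ) < m := by exact_mod_cast hm
  have ha' : (0 : ℝ) < a₁ - m := sub_pos.2 (by exact_mod_cast ha)
  have hq' : (0 : ℝ) < q₁ - q₀ := sub_pos.2 (by exact_mod_cast hq)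
  have h := ev_nonneg_of_check hck (ptBox m a₁ q₀ q₁ a b c) ?_
  · rw [downBox, ev_downH] at h
    convert h using 2 <;> simp [ptBox] <;> field_simp <;> ring
  · intro i
    fin_cases i <;> simp [ptBox]
    · rw [div_le_div_iff₀ ha' hm']
      nlinarith
    · exact div_nonneg (sub_nonneg.2 hba) ha'.le
    · rw [div_le_one hq', sub_le_sub_iff_right, div_le_iff₀ hb]
      exact h3
    · refine div_nonneg (sub_nonneg.2 ?_) hq'.le
      rw [le_div_iff₀ hb]
      exact h2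

/-- The upper bound on the vectors after an edge. -/
theorem psi_le (hlo : ∀ i, 1 / 50 ≤ u i) (hhi : ∀ i, u i ≤ 49 / 100) (h1 : ∑ i, u i = 1) :
    psi u ≤ 26 * dev u + 19 / 2 * dev u ^ 2 + 7 * dev u ^ 3 := by
  have h0 : ∀ i, 0 ≤ u i := fun i => le_trans (by norm_num) (hlo i)
  refine sorted_cases (P := fun u => (∀ i, 1 / 50 ≤ u i ∧ u i ≤ 49 / 100) →
      psi u ≤ 26 * dev u + 19 / 2 * dev u ^ 2 + 7 * dev u ^ 3) ?_ ?_ h0 h1
    (fun i => ⟨hlo i, hhi i⟩)
  · intro u s hu h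
    simpa [psi_relabel, dev_relabel] using hu fun i => h (s i)
  intro u h0 h1 h21 h10 hd
  obtain ⟨r0, r1, r2⟩ := root6_sorted h0 h21 h10
  obtain ⟨eS, eA, eP, -, -⟩ := forms h0 h1
  suffices h : 0 ≤ downH (fun z : ℤ => (z : ℝ)) (root6 (u 0)) (root6 (u 1)) (root6 (u 2)) by
    simp only [downH, sqH, cuH, eS, eA, eP] at h
    push_cast at h
    linarith
  set a := root6 (u 0) with hadef
  set b := root6 (u 1) with hbdef
  set c := root6 (u 2) with hcdef
  have sa : a ^ 6 = u 0 := root6_six (h0 0)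
  have sb : b ^ 6 = u 1 := root6_six (h0 1)
  have sc : c ^ 6 = u 2 := root6_six (h0 2)
  have s : u 0 + u 1 + u 2 = 1 := by simpa [Fin.sum_univ_three] using h1
  have hb : 0 < b := by
    rcases (r0.trans r1).eq_or_lt with h | h
    · have := (hd 1).1
      rw [← sb, ← h] at this
      norm_num at this
    · exact h
  have a0 : 0 ≤ a := r0.trans (r1.trans r2)
  -- the largest entry is at most `49/51` of the other two
  have ha6 : 51 * a ^ 6 ≤ 49 * (b ^ 6 + c ^ 6) := by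
    rw [sa, sb, sc]; linarith [(hd 0).2]
  have key : ∀ p q : ℝ, 0 ≤ p → 0 ≤ q → p ^ 6 ≤ q ^ 6 → p ≤ q := fun p q _ hq h =>
    (pow_le_pow_iff_left₀ ‹_› hq (by norm_num)).1 h
  have low : (35 : ℝ) * b ≤ 60 * c := by
    refine key _ _ (by positivity) (by positivity) ?_
    rw [mul_pow, mul_pow, sb, sc]
    nlinarith [(hd 2).1]
  rcases le_total (60 * c) (48 * b) with hc1 | hc1
  · refine box_nonneg cert_down_low (by norm_num) (by norm_num) (by norm_num) hb r2 ?_ ?_ ?_ <;>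
      push_cast
    · refine key _ _ (by positivity) (by positivity) ?_
      have := pow_le_pow_left₀ (by positivity) hc1 6
      rw [mul_pow, mul_pow] at this ⊢
      norm_num at this ⊢
      linarith
    · exact low
    · exact hc1
  rcases le_total (30 * c) (27 * b) with hc2 | hc2
  · refine box_nonneg cert_down_mid (by norm_num) (by norm_num) (by norm_num) hb r2 ?_ ?_ ?_ <;>
      push_cast
    · refine key _ _ (by positivity) (by positivity) ?_
      have := pow_le_pow_left₀ (by positivity) hc2 6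
      rw [mul_pow, mul_pow] at this ⊢
      norm_num at this ⊢
      linarith
    · linarith
    · exact hc2
  · refine box_nonneg cert_down_high (by norm_num) (by norm_num) (by norm_num) hb r2 ?_ ?_ ?_ <;>
      push_cast
    · refine key _ _ (by positivity) (by positivity) ?_
      have := pow_le_pow_left₀ r0 r1 6
      rw [mul_pow, mul_pow]
      norm_num
      linarith
    · linarith
    · linarith

/-- A bound of `1 - (1 - z) ^ (1/3)`. -/
theorem cube_bound {z w : ℝ} (h0 : 0 ≤ z) (h1 : z ≤ 22 / 25) (hw : 0 ≤ w)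
    (e : w ^ 3 = 1 - z) : 1 - w ≤ z / 3 + z ^ 2 / 9 + z ^ 3 / 5 := by
  by_contra hn
  set p := 1 - z / 3 - z ^ 2 / 9 - z ^ 3 / 5 with hp
  have hwp : w < p := by rw [hp]; linarith [not_le.1 hn]
  have h3 : w ^ 3 < p ^ 3 := pow_lt_pow_left₀ hwp hw (by norm_num)
  have : p ^ 3 ≤ 1 - z := by
    rw [hp]
    nlinarith [pow_nonneg h0 3, pow_nonneg h0 4, pow_nonneg h0 5, pow_nonneg h0 6,
      pow_nonneg h0 7, pow_nonneg h0 8, pow_nonneg h0 9, sub_nonneg.2 h1,
      mul_nonneg (pow_nonneg h0 3) (sub_nonneg.2 h1)]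
  linarith

/-- The upper bound of the defect at `(2,2,2)/6` after an edge. -/
theorem eX_le (hlo : ∀ i, 1 / 50 ≤ u i) (hhi : ∀ i, u i ≤ 49 / 100) (h1 : ∑ i, u i = 1)
    {t : ℝ} (ht : 0 ≤ t) (hA : dev u = t ^ 2) :
    phi eX u ≤ t ^ 2 * ((3 + 2 * t) / 3 + t ^ 2 * (3 + 2 * t) ^ 2 / 9
      + t ^ 4 * (3 + 2 * t) ^ 3 / 5) := by
  have h0 : ∀ i, 0 ≤ u i := fun i => le_trans (by norm_num) (hlo i)
  have s : u 0 + u 1 + u 2 = 1 := by simpa [Fin.sum_univ_three] using h1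
  have pX := phi_expo h0 ⟨2, 2, 2⟩ rfl
  simp only at pX
  set w := 3 * (root6 (u 0) * (root6 (u 1) * root6 (u 2))) ^ 2 with hw
  have hphi : phi eX u = 1 - w := by rw [eX, pX, hw]; ring
  have hw0 : 0 ≤ w := by positivity
  have hw3 : w ^ 3 = 27 * (u 0 * u 1 * u 2) := by
    rw [hw]
    calc _ = 27 * (root6 (u 0) ^ 6 * root6 (u 1) ^ 6 * root6 (u 2) ^ 6) := by ring
      _ = _ := by rw [root6_six (h0 0), root6_six (h0 1), root6_six (h0 2)]
  set z := 1 - 27 * (u 0 * u 1 * u 2) with hz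
  -- the cubic invariant is bounded by the square one
  have hdev : dev u = 3 / 2 * ((u 0 - 1 / 3) ^ 2 + (u 1 - 1 / 3) ^ 2 + (u 2 - 1 / 3) ^ 2) := by
    simp [dev, sqDev, Fin.sum_univ_three]
  set S := (3 * u 0 - 1) * (3 * u 1 - 1) * (3 * u 2 - 1) with hS
  have hzS : z = 3 * dev u - S := by
    rw [hz, hS, hdev]
    have : u 2 = 1 - u 0 - u 1 := by linarith
    rw [this]; ring
  have hsq : S ^ 2 ≤ 4 * dev u ^ 3 := by
    rw [hS, hdev]
    have e2 : u 2 = 1 - u 0 - u 1 := by linarith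
    rw [e2]
    nlinarith [sq_nonneg ((u 0 - u 1) * (2 * u 0 + u 1 - 1) * (u 0 + 2 * u 1 - 1))]
  have hzt : z ≤ t ^ 2 * (3 + 2 * t) := by
    rw [hzS, hA]
    rw [hA] at hsq
    have : -S ≤ 2 * t ^ 3 := (le_abs_self (-S)).trans (by
      rw [abs_neg]
      exact abs_le_of_sq_le_sq (by linarith [show (2 * t ^ 3) ^ 2 = 4 * (t ^ 2) ^ 3 by ring])
        (by positivity))
    linarith
  have hz0 : 0 ≤ z := by
    rw [hz]
    nlinarith [mul_nonneg (h0 0) (sq_nonneg (u 1 - u 2)), mul_nonneg (h0 1) (sq_nonneg (u 2 - u 0)),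
      mul_nonneg (h0 2) (sq_nonneg (u 0 - u 1)), sq_nonneg (u 0 - u 1), sq_nonneg (u 1 - u 2),
      sq_nonneg (u 2 - u 0)]
  have hz1 : z ≤ 22 / 25 := by
    rw [hz]
    have a := mul_nonneg (sub_nonneg.2 (hlo 0)) (sub_nonneg.2 (hhi 0))
    have b := mul_nonneg (sub_nonneg.2 (hhi 1)) (sub_nonneg.2 (hhi 2))
    have h12 : (49 : ℝ) / 100 * (51 / 100 - u 0) ≤ u 1 * u 2 := by linear_combination b - 49 / 100 * s
    linear_combination 27 * mul_le_mul_of_nonneg_left h12 (h0 0) + 27 * (49 / 100) * a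
  rw [hphi]
  refine (cube_bound hz0 hz1 hw0 (by rw [hw3, hz]; ring)).trans ?_
  have z2 := pow_le_pow_left₀ hz0 hzt 2
  have z3 := pow_le_pow_left₀ hz0 hzt 3
  rw [show t ^ 2 * ((3 + 2 * t) / 3 + t ^ 2 * (3 + 2 * t) ^ 2 / 9 + t ^ 4 * (3 + 2 * t) ^ 3 / 5)
      = t ^ 2 * (3 + 2 * t) / 3 + (t ^ 2 * (3 + 2 * t)) ^ 2 / 9
        + (t ^ 2 * (3 + 2 * t)) ^ 3 / 5 by ring]
  linarith

end Vale.Agent.P154.Anti.SmallX
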