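import Vale.Agent.P154.Anti.SmallHalfCerts
import Vale.Agent.P154.Anti.SmallPoint

/-!
# Pointwise inequalities for small limits at the Kesten-Stigum end
-/

namespace Vale.Agent.P154.Anti.SmallHalf

open Finset Vale.Agent.P154.Tree Vale.Agent.P154.Q3
open Vale.Agent.P154.Anti.SmallX (massH devH sqH cuH dev root6 root6_nonneg root6_six root6_sorted
  phi_expo eX eS eT eP dev_relabel pt3 pt3_nonneg)

/-- The main combination of the defects. -/
noncomputable def psi (u : Fin 3 → ℝ) : ℝ :=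
  112 * phi eS u + 73 * phi eT u + 25 * phi eP u - 121 * phi eX u

/-- A hundred times the combination at the edge. -/
noncomputable def theta (u : Fin 3 → ℝ) : ℝ :=
  8288 * phi eS u + 5402 * phi eT u + 1025 * phi eP u - 11990 * phi eX u

theorem psi_relabel (u : Fin 3 → ℝ) (s : Equiv.Perm (Fin 3)) :
    psi (fun i => u (s i)) = psi u := by simp [psi, phi_relabel]

theorem theta_relabel (u : Fin 3 → ℝ) (s : Equiv.Perm (Fin 3)) :
    theta (fun i => u (s i)) = theta u := by simp [theta, phi_relabel]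

variable {u : Fin 3 → ℝ}

theorem forms (h0 : ∀ i, 0 ≤ u i) (h1 : ∑ i, u i = 1) :
    mainH (fun z : ℤ => (z : ℝ)) (root6 (u 0)) (root6 (u 1)) (root6 (u 2)) = 2 * psi u ∧
    edgeH (fun z : ℤ => (z : ℝ)) (root6 (u 0)) (root6 (u 1)) (root6 (u 2)) = 2 * theta u := by
  have q : ∀ i, root6 (u i) ^ 6 = u i := fun i => root6_six (h0 i)
  have s : root6 (u 0) ^ 6 + root6 (u 1) ^ 6 + root6 (u 2) ^ 6 = 1 := by
    simpa [q, Fin.sum_univ_three] using h1
  have pX := phi_expo h0 ⟨2, 2, 2⟩ rfl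
  have pS := phi_expo h0 ⟨3, 3, 0⟩ rfl
  have pT := phi_expo h0 ⟨4, 1, 1⟩ rfl
  have pP := phi_expo h0 ⟨5, 1, 0⟩ rfl
  simp only at pX pS pT pP
  simp only [psi, theta, eX, eS, eT, eP]
  rw [pX, pS, pT, pP]
  generalize root6 (u 0) = a at s ⊢
  generalize root6 (u 1) = b at s ⊢
  generalize root6 (u 2) = c at s ⊢
  simp only [mainH, edgeH, combH, massH, sqH, cuH]
  push_cast
  refine ⟨?_, ?_⟩
  · linear_combination (2 * 112 + 2 * 73 + 2 * 25 - 2 * 121 : ℝ) * s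
  · linear_combination (2 * 8288 + 2 * 5402 + 2 * 1025 - 2 * 11990 : ℝ) * s

theorem mass_dev (h0 : ∀ i, 0 ≤ u i) (h1 : ∑ i, u i = 1) :
    massH (root6 (u 0)) (root6 (u 1)) (root6 (u 2)) = 1 ∧
    devH (fun z : ℤ => (z : ℝ)) (root6 (u 0)) (root6 (u 1)) (root6 (u 2)) = 2 * dev u :=
  ⟨(SmallX.forms h0 h1).1, (SmallX.forms h0 h1).2.1⟩

theorem sector_nonneg {K D dep : ℕ} {fE : Ex → Ex → Ex → Ex} {fR : ℝ → ℝ → ℝ → ℝ}
    (hev : ∀ x a b c, Ex.ev x (fE a b c) = fR (Ex.ev x a) (Ex.ev x b) (Ex.ev x c))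
    (hle : check K D 1 dep (sectorLe fE) = true) (hge : check K D 1 dep (sectorGe fE) = true)
    {a b c : ℝ} (hc : 0 ≤ c) (hcb : c ≤ b) (hba : b ≤ a) : 0 ≤ fR a b c := by
  rcases le_total (5 * c) (4 * (b - c)) with h' | h'
  · have h := ev_nonneg_of_check hle (pt3 (a - b) (b - 9 / 4 * c) (c / 4))
      (pt3_nonneg (by linarith) (by linarith) (by linarith))
    rw [sectorLe, hev] at h
    convert h using 2 <;> simp [pt3] <;> ring
  · have h := ev_nonneg_of_check hge (pt3 (a - b) ((b - c) / 5) (c - 4 / 5 * (b - c)))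
      (pt3_nonneg (by linarith) (by linarith) (by linarith))
    rw [sectorGe, hev] at h
    convert h using 2 <;> simp [pt3] <;> ring

/-- The coordinates of a box. -/
noncomputable def ptRatio (a₀ a₁ q₀ q₁ a b c : ℝ) : Fin 6 → ℝ :=
  ![(a₁ * b - 50 * a) / (50 * (a₁ - a₀)), (50 * a - a₀ * b) / (50 * (a₁ - a₀)), 0,
    (q₁ * b - 50 * c) / (b * (q₁ - q₀)), (50 * c - q₀ * b) / (b * (q₁ - q₀)), 0]

theorem ratio_nonneg {K D dep : ℕ} {fE : Ex → Ex → Ex → Ex} {fR : ℝ → ℝ → ℝ → ℝ}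
    (hev : ∀ x a b c, Ex.ev x (fE a b c) = fR (Ex.ev x a) (Ex.ev x b) (Ex.ev x c))
    {a₀ a₁ q₀ q₁ : ℤ} (hck : check K D D dep (ratioBox fE a₀ a₁ q₀ q₁) = true) (ha : a₀ < a₁)
    (hq : q₀ < q₁) {a b c : ℝ} (hb : 0 < b) (h1 : (a₀ : ℝ) * b ≤ 50 * a)
    (h2 : 50 * a ≤ (a₁ : ℝ) * b) (h3 : (q₀ : ℝ) * b ≤ 50 * c) (h4 : 50 * c ≤ (q₁ : ℝ) * b) :
    0 ≤ fR a b c := by
  have ha' : (0 : ℝ) < a₁ - a₀ := sub_pos.2 (by exact_mod_cast ha)
  have hq' : (0 : ℝ) < q₁ - q₀ := sub_pos.2 (by exact_mod_cast hq)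
  have h := ev_nonneg_of_check hck (ptRatio a₀ a₁ q₀ q₁ a b c) ?_
  · rw [ratioBox, hev] at h
    convert h using 2 <;> simp [ptRatio] <;> field_simp <;> ring
  · intro i
    fin_cases i <;> simp [ptRatio] <;>
      exact div_nonneg (by linarith) (by positivity)

theorem boxes_nonneg {K D dep : ℕ} {fE : Ex → Ex → Ex → Ex} {fR : ℝ → ℝ → ℝ → ℝ}
    (hev : ∀ x a b c, Ex.ev x (fE a b c) = fR (Ex.ev x a) (Ex.ev x b) (Ex.ev x c))
    (hck : boxesOk K D dep fE = true)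
    {a b c : ℝ} (hc : 0 ≤ c) (hb : 0 < b) (hba : b ≤ a) (hcb : c ≤ b) (hlo : 24 * b ≤ 50 * c)
    (ha6 : a ^ 6 ≤ b ^ 6 + c ^ 6) : 0 ≤ fR a b c := by
  have mem : ∀ a₀ a₁ q₀ q₁ : ℤ, (a₀, a₁, q₀, q₁) ∈ boxes →
      check K D D dep (ratioBox fE a₀ a₁ q₀ q₁) = true := fun a₀ a₁ q₀ q₁ h =>
    List.all_eq_true.1 hck _ h
  have a0 : 0 ≤ a := hb.le.trans hba
  have top : ∀ m q : ℝ, 0 ≤ m → 50 * c ≤ q * b → 50 ^ 6 + q ^ 6 ≤ m ^ 6 → 50 * a ≤ m * b := by
    intro m q hm hq hmq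
    refine (pow_le_pow_iff_left₀ (by positivity) (mul_nonneg hm hb.le) (show 6 ≠ 0 by norm_num)).1 ?_
    have := pow_le_pow_left₀ (mul_nonneg (by norm_num) hc) hq 6
    rw [mul_pow, mul_pow] at this ⊢
    have := mul_le_mul_of_nonneg_right hmq (pow_nonneg hb.le 6)
    linarith
  rcases le_total (50 * c) (30 * b) with h | h
  · exact ratio_nonneg hev (mem 50 51 24 30 (by simp [boxes])) (by norm_num) (by norm_num) hb
      (by push_cast; linarith) (by push_cast; exact top 51 30 (by norm_num) h (by norm_num))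
      (by push_cast; linarith) (by push_cast; linarith)
  rcases le_total (50 * c) (40 * b) with h' | h'
  · exact ratio_nonneg hev (mem 50 52 30 40 (by simp [boxes])) (by norm_num) (by norm_num) hb
      (by push_cast; linarith) (by push_cast; exact top 52 40 (by norm_num) h' (by norm_num))
      (by push_cast; linarith) (by push_cast; linarith)
  rcases le_total (50 * c) (45 * b) with h'' | h''
  · exact ratio_nonneg hev (mem 50 54 40 45 (by simp [boxes])) (by norm_num) (by norm_num) hb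
      (by push_cast; linarith) (by push_cast; exact top 54 45 (by norm_num) h'' (by norm_num))
      (by push_cast; linarith) (by push_cast; linarith)
  rcases le_total (50 * c) (48 * b) with g | g
  · exact ratio_nonneg hev (mem 50 56 45 48 (by simp [boxes])) (by norm_num) (by norm_num) hb
      (by push_cast; linarith) (by push_cast; exact top 56 48 (by norm_num) g (by norm_num))
      (by push_cast; linarith) (by push_cast; linarith)
  rcases le_total (50 * c) (49 * b) with g' | g'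
  · rcases le_total (50 * a) (54 * b) with k | k
    · exact ratio_nonneg hev (mem 50 54 48 49 (by simp [boxes])) (by norm_num) (by norm_num) hb
        (by push_cast; linarith) (by push_cast; linarith) (by push_cast; linarith)
        (by push_cast; linarith)
    · exact ratio_nonneg hev (mem 54 57 48 49 (by simp [boxes])) (by norm_num) (by norm_num) hb
        (by push_cast; linarith) (by push_cast; exact top 57 49 (by norm_num) g' (by norm_num))
        (by push_cast; linarith) (by push_cast; linarith)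
  · exact ratio_nonneg hev (mem 50 57 49 50 (by simp [boxes])) (by norm_num) (by norm_num) hb
      (by push_cast; linarith)
      (by push_cast; exact top 57 50 (by norm_num) (by linarith) (by norm_num))
      (by push_cast; linarith) (by push_cast; linarith)

/-- The lower bound near the uniform vector. -/
theorem psi_ge_near (h0 : ∀ i, 0 ≤ u i) (h1 : ∑ i, u i = 1) :
    169 / 6 * dev u + 1001 / 100 * dev u ^ 2 - 85 * dev u ^ 4 ≤ psi u := by
  refine sorted_cases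
    (P := fun u => 169 / 6 * dev u + 1001 / 100 * dev u ^ 2 - 85 * dev u ^ 4 ≤ psi u)
    (fun u s hu => by simpa [psi_relabel, dev_relabel] using hu) ?_ h0 h1
  intro u h0 h1 h21 h10
  obtain ⟨r0, r1, r2⟩ := root6_sorted h0 h21 h10
  have h := sector_nonneg (fR := upOneH fun z : ℤ => (z : ℝ)) ev_upOneH cert_one_le cert_one_ge
    r0 r1 r2
  obtain ⟨eM, eA⟩ := mass_dev h0 h1
  simp only [upOneH, sqH, (forms h0 h1).1, eM, eA] at h
  push_cast at h
  linarith

/-- The lower bound everywhere. -/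
theorem psi_ge (h0 : ∀ i, 0 ≤ u i) (h1 : ∑ i, u i = 1) :
    169 / 6 * dev u + 73 / 15 * dev u ^ 2 ≤ psi u := by
  refine sorted_cases (P := fun u => 169 / 6 * dev u + 73 / 15 * dev u ^ 2 ≤ psi u)
    (fun u s hu => by simpa [psi_relabel, dev_relabel] using hu) ?_ h0 h1
  intro u h0 h1 h21 h10
  obtain ⟨r0, r1, r2⟩ := root6_sorted h0 h21 h10
  have h := sector_nonneg (fR := upTwoH fun z : ℤ => (z : ℝ)) ev_upTwoH cert_two_le cert_two_ge
    r0 r1 r2
  obtain ⟨eM, eA⟩ := mass_dev h0 h1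
  simp only [upTwoH, sqH, (forms h0 h1).1, eM, eA] at h
  push_cast at h
  linarith

/-- The three bounds after an edge away from the boundary of the sorted simplex. -/
theorem edge_bounds (h0 : ∀ i, 0 ≤ u i) (h1 : ∑ i, u i = 1) (h21 : u 2 ≤ u 1)
    (h10 : u 1 ≤ u 0) (hhalf : u 0 ≤ 1 / 2) (hlo : 24 * root6 (u 1) ≤ 50 * root6 (u 2)) :
    psi u ≤ 169 / 6 * dev u + 258 / 25 * dev u ^ 2 + 61 / 5 * dev u ^ 3 ∧
      -(1347 * dev u + 26400 * dev u ^ 2) ≤ theta u ∧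
      -(1422 * dev u + 12400 * dev u ^ 2 + 44800 * dev u ^ 3) ≤ theta u := by
  obtain ⟨r0, r1, r2⟩ := root6_sorted h0 h21 h10
  have s : u 0 + u 1 + u 2 = 1 := by simpa [Fin.sum_univ_three] using h1
  have hb : 0 < root6 (u 1) := Real.rpow_pos_of_pos (by linarith) _
  have ha6 : root6 (u 0) ^ 6 ≤ root6 (u 1) ^ 6 + root6 (u 2) ^ 6 := by
    rw [root6_six (h0 0), root6_six (h0 1), root6_six (h0 2)]; linarith
  obtain ⟨eM, eA⟩ := mass_dev h0 h1
  obtain ⟨eC, eT⟩ := forms h0 h1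
  refine ⟨?_, ?_, ?_⟩
  · have h := boxes_nonneg (fR := downH fun z : ℤ => (z : ℝ)) ev_downH cert_down r0 hb r2 r1 hlo
      ha6
    simp only [downH, sqH, cuH, eC, eM, eA] at h
    push_cast at h
    linarith
  · have h := boxes_nonneg (fR := edgePH fun z : ℤ => (z : ℝ)) ev_edgePH cert_edgeP r0 hb r2 r1
      hlo ha6
    simp only [edgePH, sqH, eT, eM, eA] at h
    push_cast at h
    linarith
  · have h := boxes_nonneg (fR := edgeRH fun z : ℤ => (z : ℝ)) ev_edgeRH cert_edgeR r0 hb r2 r1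
      hlo ha6
    simp only [edgeRH, sqH, cuH, eT, eM, eA] at h
    push_cast at h
    linarith

/-- Bounds on two roots whose sixth powers have a small sum. -/
theorem small_roots {x y c : ℝ} (hc : 0 ≤ c) (x0 : 0 ≤ x) (y0 : 0 ≤ y)
    (ht : x ^ 6 + y ^ 6 ≤ 2043 / 1000 * c ^ 6) :
    x * y ≤ 10072 / 10000 * c ^ 2 ∧ x + y ≤ 20072 / 10000 * c ∧
      x ^ 3 + y ^ 3 ≤ 20214 / 10000 * c ^ 3 ∧ x ^ 3 * y ^ 3 ≤ 10215 / 10000 * c ^ 6 ∧
      x ^ 5 + y ^ 5 ≤ 25656 / 10000 * c ^ 5 := by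
  have c6 := pow_nonneg hc 6
  have hxy : x * y ≤ 10072 / 10000 * c ^ 2 := by
    refine (pow_le_pow_iff_left₀ (by positivity) (by positivity) (show 6 ≠ 0 by norm_num)).1 ?_
    have a := pow_le_pow_left₀ (by positivity) ht 2
    have b := sq_nonneg (x ^ 6 - y ^ 6)
    have d := pow_nonneg hc 12
    linear_combination (1 / 4) * a + (1 / 4) * b
      + ((10072 / 10000) ^ 6 - (2043 / 1000) ^ 2 / 4 : ℝ) * d
  have h2 : x + y ≤ 20072 / 10000 * c := by
    refine (pow_le_pow_iff_left₀ (by positivity) (by positivity) (show 6 ≠ 0 by norm_num)).1 ?_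
    have a := pow_le_pow_left₀ (by positivity)
      (show (x + y) ^ 2 ≤ 2 * (x ^ 2 + y ^ 2) by linarith [sq_nonneg (x - y)]) 3
    have b := mul_nonneg (add_nonneg (sq_nonneg x) (sq_nonneg y)) (sq_nonneg (x ^ 2 - y ^ 2))
    linear_combination a + 24 * b + 32 * ht + ((20072 / 10000) ^ 6 - 32 * (2043 / 1000) : ℝ) * c6
  have h3 : x ^ 3 + y ^ 3 ≤ 20214 / 10000 * c ^ 3 := by
    refine (pow_le_pow_iff_left₀ (by positivity) (by positivity) two_ne_zero).1 ?_
    linear_combination sq_nonneg (x ^ 3 - y ^ 3) + 2 * ht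
      + ((20214 / 10000) ^ 2 - 2 * (2043 / 1000) : ℝ) * c6
  have h6 : x ^ 3 * y ^ 3 ≤ 10215 / 10000 * c ^ 6 := by
    linear_combination (1 / 2) * sq_nonneg (x ^ 3 - y ^ 3) + (1 / 2) * ht
  have hm : ∀ w : ℝ, 0 ≤ w → w ^ 6 ≤ 2043 / 1000 * c ^ 6 → w ^ 2 ≤ 12692 / 10000 * c ^ 2 := by
    intro w hw hw6
    refine (pow_le_pow_iff_left₀ (sq_nonneg w) (by positivity) (show 3 ≠ 0 by norm_num)).1 ?_
    linear_combination hw6 + ((12692 / 10000) ^ 3 - 2043 / 1000 : ℝ) * c6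
  have hx := hm x x0 (by linarith [pow_nonneg y0 6])
  have hy := hm y y0 (by linarith [pow_nonneg x0 6])
  refine ⟨hxy, h2, h3, h6, ?_⟩
  have a := mul_le_mul_of_nonneg_left hx (pow_nonneg x0 3)
  have b := mul_le_mul_of_nonneg_left hy (pow_nonneg y0 3)
  have d := mul_le_mul_of_nonneg_left h3 (sq_nonneg c)
  linear_combination a + b + 12692 / 10000 * d
    + (25656 / 10000 - 12692 / 10000 * (20214 / 10000) : ℝ) * pow_nonneg hc 5

/-- The lower bound near a vertex in terms of a bound `w` of the two small entries. -/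
theorem psi_ge_vertex (h0 : ∀ i, 0 ≤ u i) (h1 : ∑ i, u i = 1) {c : ℝ} (hc : 0 ≤ c)
    (ht : u 0 + u 1 ≤ 2043 / 1000 * c ^ 6) :
    89 - 2509 / 100 * c - 73526 / 1000 * c ^ 2 - 2264 / 10 * c ^ 3 - 2128 / 10 * c ^ 5
      - 11441 / 100 * c ^ 6 ≤ psi u := by
  have key : ∀ x y : ℝ, 0 ≤ x → 0 ≤ y → x ^ 6 ≤ y ^ 6 → x ≤ y := fun x y hx hy h =>
    (pow_le_pow_iff_left₀ hx hy (show 6 ≠ 0 by norm_num)).1 h
  have pS := phi_expo h0 ⟨3, 3, 0⟩ rfl
  have pT := phi_expo h0 ⟨4, 1, 1⟩ rfl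
  have pP := phi_expo h0 ⟨5, 1, 0⟩ rfl
  have pX := phi_expo h0 ⟨2, 2, 2⟩ rfl
  simp only at pX pS pT pP
  have q : ∀ i, root6 (u i) ^ 6 = u i := fun i => root6_six (h0 i)
  have n : ∀ i, 0 ≤ root6 (u i) := fun i => root6_nonneg (h0 i)
  have one : ∀ i, root6 (u i) ≤ 1 := fun i => by
    refine key _ _ (n i) zero_le_one ?_
    rw [q, one_pow]
    exact le_one_of_simplex h0 h1 i
  simp only [psi, eX, eS, eT, eP]
  rw [pS, pT, pP, pX]
  rw [← q 0, ← q 1] at ht
  generalize hx : root6 (u 0) = x at ht ⊢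
  generalize hy : root6 (u 1) = y at ht ⊢
  generalize hz : root6 (u 2) = z
  have x0 : 0 ≤ x := hx ▸ n 0
  have y0 : 0 ≤ y := hy ▸ n 1
  have z0 : 0 ≤ z := hz ▸ n 2
  have x1 : x ≤ 1 := hx ▸ one 0
  have y1 : y ≤ 1 := hy ▸ one 1
  have z1 : z ≤ 1 := hz ▸ one 2
  obtain ⟨hxy, h2, h3, h6, h5⟩ := small_roots hc x0 y0 ht
  have z3 : z ^ 3 ≤ 1 := pow_le_one₀ z0 z1
  have z5 : z ^ 5 ≤ 1 := pow_le_one₀ z0 z1
  -- the four defects
  have bS : x ^ 3 * y ^ 3 + x ^ 3 * z ^ 3 + y ^ 3 * z ^ 3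
      ≤ 20214 / 10000 * c ^ 3 + 10215 / 10000 * c ^ 6 := by
    have a := mul_le_of_le_one_right (add_nonneg (pow_nonneg x0 3) (pow_nonneg y0 3)) z3
    linarith
  have bT : x * y * z * (x ^ 3 + y ^ 3 + z ^ 3)
      ≤ 10072 / 10000 * c ^ 2 * (20214 / 10000 * c ^ 3 + 1) :=
    mul_le_mul ((mul_le_of_le_one_right (mul_nonneg x0 y0) z1).trans hxy) (by linarith)
      (by positivity) (by positivity)
  have bP : z ^ 5 * (x + y) + x ^ 5 * (y + z) + y ^ 5 * (x + z)
      ≤ 20072 / 10000 * c + 2 * (25656 / 10000 * c ^ 5) := by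
    have a := mul_le_of_le_one_left (add_nonneg x0 y0) z5
    have b := mul_le_mul_of_nonneg_left (show y + z ≤ 2 by linarith) (pow_nonneg x0 5)
    have d := mul_le_mul_of_nonneg_left (show x + z ≤ 2 by linarith) (pow_nonneg y0 5)
    linarith
  have bX : 0 ≤ (x * y * z) ^ 2 := sq_nonneg _
  linarith [pow_nonneg hc 2, pow_nonneg hc 3, pow_nonneg hc 5, pow_nonneg hc 6, hc]

end Vale.Agent.P154.Anti.SmallHalf
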