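import Vale.Agent.P154.Anti.WideGa
import Vale.Agent.P154.Anti.WideGaRefl
import Vale.Agent.P154.Anti.WidePa
import Vale.Agent.P154.Anti.WidePaRefl
import Vale.Agent.P154.Anti.Certs

/-!
# The real consequences of the checks at edge parameter `-41/142`
-/

namespace Vale.Agent.P154.Anti.Wide

open Vale.Agent.P154.Q3

variable (x : Fin 6 → ℝ)

theorem ev_w4 (a : Ex) : Ex.ev x (w4 a) = w4 (Ex.ev x a) := by simp [w4]

theorem ev_w5 (a : Ex) : Ex.ev x (w5 a) = w5 (Ex.ev x a) := by simp [w5, ev_w4]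

theorem ev_w6 (a : Ex) : Ex.ev x (w6 a) = w6 (Ex.ev x a) := by simp [w6, ev_w4]

theorem ev_wsh (a b : Ex) : Ex.ev x (wsh Ex.num a b) = wsh kR (Ex.ev x a) (Ex.ev x b) := by
  simp [wsh, kR]

theorem ev_potW (a b c : Ex) :
    Ex.ev x (potW Ex.num a b c) = potW kR (Ex.ev x a) (Ex.ev x b) (Ex.ev x c) := by
  simp [potW, ev_w4, kR]

theorem ev_psiW (a b c : Ex) :
    Ex.ev x (psiW Ex.num a b c) = psiW kR (Ex.ev x a) (Ex.ev x b) (Ex.ev x c) := by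
  simp [psiW, ev_w4, kR]

theorem ev_sumW (U W S₀ S₁ S₂ g₀ g₁ g₂ : Ex) :
    Ex.ev x (sumW U W S₀ S₁ S₂ g₀ g₁ g₂) = sumW (Ex.ev x U) (Ex.ev x W) (Ex.ev x S₀)
      (Ex.ev x S₁) (Ex.ev x S₂) (Ex.ev x g₀) (Ex.ev x g₁) (Ex.ev x g₂) := by
  simp [sumW, ev_w5]

theorem kR_def (z : ℤ) : (z : ℝ) = kR z := rfl

theorem ev_gwH (U Au Cu W Aw Cw S₀ A₀ C₀ S₁ A₁ C₁ S₂ A₂ C₂ : Ex) :
    Ex.ev x (gwH Ex.num U Au Cu W Aw Cw S₀ A₀ C₀ S₁ A₁ C₁ S₂ A₂ C₂) =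
      gwH kR (Ex.ev x U) (Ex.ev x Au) (Ex.ev x Cu) (Ex.ev x W) (Ex.ev x Aw) (Ex.ev x Cw)
        (Ex.ev x S₀) (Ex.ev x A₀) (Ex.ev x C₀) (Ex.ev x S₁) (Ex.ev x A₁) (Ex.ev x C₁)
        (Ex.ev x S₂) (Ex.ev x A₂) (Ex.ev x C₂) := by
  simp only [gwH, Ex.ev_sub, Ex.ev_add, Ex.ev_mul, Ex.ev_num, ev_sumW, ev_potW, ev_psiW, ev_w5,
    ev_w6, ev_w4, kR_def]

theorem ev_pwH (U Au Cu W Aw S₀ A₀ C₀ S₁ A₁ C₁ S₂ A₂ C₂ : Ex) :
    Ex.ev x (pwH Ex.num U Au Cu W Aw S₀ A₀ C₀ S₁ A₁ C₁ S₂ A₂ C₂) =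
      pwH kR (Ex.ev x U) (Ex.ev x Au) (Ex.ev x Cu) (Ex.ev x W) (Ex.ev x Aw)
        (Ex.ev x S₀) (Ex.ev x A₀) (Ex.ev x C₀) (Ex.ev x S₁) (Ex.ev x A₁) (Ex.ev x C₁)
        (Ex.ev x S₂) (Ex.ev x A₂) (Ex.ev x C₂) := by
  simp only [pwH, Ex.ev_sub, Ex.ev_mul, Ex.ev_num, ev_sumW, ev_psiW, ev_w5, ev_w6, ev_w4, kR_def]

theorem ev_gwTriple (a b c a' b' c' : Ex) :
    Ex.ev x (gwTriple Ex.num a b c a' b' c') = gwTriple kR (Ex.ev x a) (Ex.ev x b) (Ex.ev x c)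
      (Ex.ev x a') (Ex.ev x b') (Ex.ev x c') := by
  simp only [gwTriple, ev_gwH, ev_wsh, ev_sumT, ev_devT, ev_cubT, Ex.ev_mul]

theorem ev_pwTriple (a b c a' b' c' : Ex) :
    Ex.ev x (pwTriple Ex.num a b c a' b' c') = pwTriple kR (Ex.ev x a) (Ex.ev x b) (Ex.ev x c)
      (Ex.ev x a') (Ex.ev x b') (Ex.ev x c') := by
  simp only [pwTriple, ev_pwH, ev_wsh, ev_sumT, ev_devT, ev_cubT, Ex.ev_mul]

/-- The polynomials on pairs of vectors. -/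
def gwVal (u w : Fin 3 → ℝ) : ℝ := gwTriple kR (u 0) (u 1) (u 2) (w 0) (w 1) (w 2)
/-- See `gwVal`. -/
def pwVal (u w : Fin 3 → ℝ) : ℝ := pwTriple kR (u 0) (u 1) (u 2) (w 0) (w 1) (w 2)

theorem gwH_perm (U Au Cu W Aw Cw S₀ A₀ C₀ S₁ A₁ C₁ S₂ A₂ C₂ : ℝ) :
    gwH kR U Au Cu W Aw Cw S₁ A₁ C₁ S₂ A₂ C₂ S₀ A₀ C₀
        = gwH kR U Au Cu W Aw Cw S₀ A₀ C₀ S₁ A₁ C₁ S₂ A₂ C₂ ∧
    gwH kR U Au Cu W Aw Cw S₀ A₀ C₀ S₂ A₂ C₂ S₁ A₁ C₁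
        = gwH kR U Au Cu W Aw Cw S₀ A₀ C₀ S₁ A₁ C₁ S₂ A₂ C₂ := by
  constructor <;> simp only [gwH, sumW] <;> ring

theorem pwH_perm (U Au Cu W Aw S₀ A₀ C₀ S₁ A₁ C₁ S₂ A₂ C₂ : ℝ) :
    pwH kR U Au Cu W Aw S₁ A₁ C₁ S₂ A₂ C₂ S₀ A₀ C₀
        = pwH kR U Au Cu W Aw S₀ A₀ C₀ S₁ A₁ C₁ S₂ A₂ C₂ ∧
    pwH kR U Au Cu W Aw S₀ A₀ C₀ S₂ A₂ C₂ S₁ A₁ C₁
        = pwH kR U Au Cu W Aw S₀ A₀ C₀ S₁ A₁ C₁ S₂ A₂ C₂ := by
  constructor <;> simp only [pwH, sumW] <;> ring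

theorem gwVal_inv : TriInv gwVal := by
  constructor
  · intro u v
    simp only [gwVal, gwTriple, Matrix.cons_val_zero, Matrix.cons_val_one, Matrix.cons_val]
    congr 1 <;> simp [wsh, cubT, devT, compT, prodT, sumT, kR] <;> ring
  · intro u v
    simp only [gwVal, gwTriple, Matrix.cons_val_zero, Matrix.cons_val_one, Matrix.cons_val]
    rw [(gwH_perm _ _ _ _ _ _ _ _ _ _ _ _ _ _ _).2]
    congr 1 <;> simp [wsh, cubT, devT, compT, prodT, sumT, kR] <;> ring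
  · intro u v
    simp only [gwVal, gwTriple, Matrix.cons_val_zero, Matrix.cons_val_one, Matrix.cons_val]
    refine Eq.trans ?_ (gwH_perm _ _ _ _ _ _ _ _ _ _ _ _ _ _ _).1
    congr 1 <;> simp [wsh, cubT, devT, compT, prodT, sumT, kR] <;> ring

theorem pwVal_inv : TriInv pwVal := by
  constructor
  · intro u v
    simp only [pwVal, pwTriple, Matrix.cons_val_zero, Matrix.cons_val_one, Matrix.cons_val]
    congr 1 <;> simp [wsh, cubT, devT, compT, prodT, sumT, kR] <;> ring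
  · intro u v
    simp only [pwVal, pwTriple, Matrix.cons_val_zero, Matrix.cons_val_one, Matrix.cons_val]
    rw [(pwH_perm _ _ _ _ _ _ _ _ _ _ _ _ _ _).2]
    congr 1 <;> simp [wsh, cubT, devT, compT, prodT, sumT, kR] <;> ring
  · intro u v
    simp only [pwVal, pwTriple, Matrix.cons_val_zero, Matrix.cons_val_one, Matrix.cons_val]
    refine Eq.trans ?_ (pwH_perm _ _ _ _ _ _ _ _ _ _ _ _ _ _).1
    congr 1 <;> simp [wsh, cubT, devT, compT, prodT, sumT, kR] <;> ring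

theorem gwVal_nonneg {u w : Fin 3 → ℝ} (hu : OnSimplex u) (hw : OnSimplex w) :
    0 ≤ gwVal u w := by
  refine tri_nonneg gwVal_inv ?_ ?_ u w hu hw
  all_goals
    intro a b c a' b' c' h1 h2 h3 h4 hu hv
    have hc : 0 ≤ c := by simpa using hu.1 2
    have hc' : 0 ≤ c' := by simpa using hv.1 2
    obtain ⟨e0, e1, e2, e3, e4, e5⟩ := ev_pt a b c a' b' c'
  · have h := ev_nonneg_of_checkL checkGa _ (pt_nonneg h1 h2 hc h3 h4 hc')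
    rw [ev_gwTriple, e0, e1, e2, e3, e4, e5] at h
    simpa [gwVal] using h
  · have h := ev_nonneg_of_checkL checkGaRefl _ (pt_nonneg h1 h2 hc h3 h4 hc')
    rw [ev_gwTriple, e0, e1, e2, e3, e4, e5] at h
    simpa [gwVal] using h

theorem pwVal_nonneg {u w : Fin 3 → ℝ} (hu : OnSimplex u) (hw : OnSimplex w) :
    0 ≤ pwVal u w := by
  refine tri_nonneg pwVal_inv ?_ ?_ u w hu hw
  all_goals
    intro a b c a' b' c' h1 h2 h3 h4 hu hv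
    have hc : 0 ≤ c := by simpa using hu.1 2
    have hc' : 0 ≤ c' := by simpa using hv.1 2
    obtain ⟨e0, e1, e2, e3, e4, e5⟩ := ev_pt a b c a' b' c'
  · have h := ev_nonneg_of_checkL checkPa _ (pt_nonneg h1 h2 hc h3 h4 hc')
    rw [ev_pwTriple, e0, e1, e2, e3, e4, e5] at h
    simpa [pwVal] using h
  · have h := ev_nonneg_of_checkL checkPaRefl _ (pt_nonneg h1 h2 hc h3 h4 hc')
    rw [ev_pwTriple, e0, e1, e2, e3, e4, e5] at h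
    simpa [pwVal] using h

end Vale.Agent.P154.Anti.Wide
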