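import Vale.Agent.P154.Q3.Exprs

/-!
# The two polynomials of the certificate at edge parameter `-41/142`

With `W = a' + b' + c'`, the vector `wsh W ·` is `426` times the shrunk second triple.
-/

namespace Vale.Agent.P154.Anti.Wide

open Vale.Agent.P154.Q3

section Hom

variable {R : Type} [Add R] [Mul R] [Sub R] (k : ℤ → R)

/-- The shrunk coordinate. -/
def wsh (W x : R) : R := k 183 * W - k 123 * x
/-- Fourth power. -/
def w4 (x : R) : R := (x * x) * (x * x)
/-- Fifth power. -/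
def w5 (x : R) : R := w4 x * x
/-- Sixth power. -/
def w6 (x : R) : R := w4 x * (x * x)

/-- The potential, homogenised to degree six. -/
def potW (S A C : R) : R :=
  k 5000 * (A * w4 S) + k 137 * (A * A * (S * S)) + k 259 * (A * C * S) + k 144 * (C * C)

/-- The class functional, homogenised to degree six. -/
def psiW (S A C : R) : R :=
  k 4000 * (A * w4 S) + k 4058 * (C * (S * S * S)) - k 19056 * (A * A * (S * S))
    + k 2432 * (A * C * S) - k 1086 * (A * A * A) + k 2039 * (C * C)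

variable (U Au Cu W Aw Cw S₀ A₀ C₀ S₁ A₁ C₁ S₂ A₂ C₂ : R)

/-- The cleared sum over a rotation class. -/
def sumW (g₀ g₁ g₂ : R) : R :=
  (g₀ * (w5 S₁ * w5 S₂) + g₁ * (w5 S₀ * w5 S₂) + g₂ * (w5 S₀ * w5 S₁)) * (w5 U * w5 W)

/-- The subadditivity polynomial. -/
def gwH : R :=
  k 426 * ((w5 S₀ * w5 S₁ * w5 S₂) *
      (k 20 * (k 20164 * (potW k U Au Cu * w6 W) + k 1681 * (potW k W Aw Cw * w6 U))
        - k 1681 * ((Aw * w4 W) * (k 20 * psiW k U Au Cu + Au * w4 U))))
    - k 403280 * sumW U W S₀ S₁ S₂ (potW k S₀ A₀ C₀) (potW k S₁ A₁ C₁) (potW k S₂ A₂ C₂)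

/-- The closure polynomial. -/
def pwH : R :=
  k 20164 * sumW U W S₀ S₁ S₂ (psiW k S₀ A₀ C₀) (psiW k S₁ A₁ C₁) (psiW k S₂ A₂ C₂)
    - k 426 * ((w5 S₀ * w5 S₁ * w5 S₂) *
      (psiW k U Au Cu * (k 20164 * w6 W - k 6724 * (Aw * w4 W))))

/-- `gwH` on a pair of triples. -/
def gwTriple (x y z x' y' z' : R) : R :=
  let W := sumT x' y' z'
  let a := wsh k W x'
  let b := wsh k W y'
  let c := wsh k W z'
  gwH k (sumT x y z) (devT k x y z) (cubT k x y z) W (devT k x' y' z') (cubT k x' y' z')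
    (sumT (x * a) (y * b) (z * c)) (devT k (x * a) (y * b) (z * c)) (cubT k (x * a) (y * b) (z * c))
    (sumT (x * b) (y * c) (z * a)) (devT k (x * b) (y * c) (z * a)) (cubT k (x * b) (y * c) (z * a))
    (sumT (x * c) (y * a) (z * b)) (devT k (x * c) (y * a) (z * b)) (cubT k (x * c) (y * a) (z * b))

/-- `pwH` on a pair of triples. -/
def pwTriple (x y z x' y' z' : R) : R :=
  let W := sumT x' y' z'
  let a := wsh k W x'
  let b := wsh k W y'
  let c := wsh k W z'
  pwH k (sumT x y z) (devT k x y z) (cubT k x y z) W (devT k x' y' z')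
    (sumT (x * a) (y * b) (z * c)) (devT k (x * a) (y * b) (z * c)) (cubT k (x * a) (y * b) (z * c))
    (sumT (x * b) (y * c) (z * a)) (devT k (x * b) (y * c) (z * a)) (cubT k (x * b) (y * c) (z * a))
    (sumT (x * c) (y * a) (z * b)) (devT k (x * c) (y * a) (z * b)) (cubT k (x * c) (y * a) (z * b))

end Hom

end Vale.Agent.P154.Anti.Wide
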