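import Vale.Agent.P154.Anti.WideExpr
import Vale.Agent.P154.Anti.KronSlice

/-!
# One kernel check of the certificate at edge parameter `-41/142`
-/

namespace Vale.Agent.P154.Anti.Wide

open Vale.Agent.P154.Q3

theorem checkGa : checkL 274 22 22 14
    (gwTriple Ex.num (su 0) (su 1) (su 2) (sv 0) (sv 1) (sv 2)) = true := by decide +kernel

end Vale.Agent.P154.Anti.Wide
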